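import Vale.Agent.P182.H983.GDef

/-!
# Elementary consequences of the block structure
-/

namespace Vale.Agent.P182.H922.S2

open Module Matrix Vale.Agent.P182.H533 Vale.Agent.P182.B1 Vale.Agent.P182.H922
  Vale.Agent.P182.H578 Vale.Agent.P182.H588 Vale.Agent.P182.H181 Vale.Agent.P182.H983

universe u v w

variable {L : Type u} {V : Type v} {J : Type w} [Field L] [AddCommGroup V] [Module L V]
  [Fintype J] [DecidableEq J] {𝒟 : Cfg L V J} {u : J → L} {t t' : J → V}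
  {W I : Submodule L V} {n : ℕ} {U : Fin n → Submodule L V} {d : Fin n → L} {p : Fin 3 → ℕ}
  [FiniteDimensional L V]

theorem tm_mem (B : Blk 𝒟 u t t' W I U d p) (x y : L) : tm t t' x y ∈ Ku 𝒟 u :=
  Submodule.add_mem _ (Submodule.smul_mem _ _ B.ht) (Submodule.smul_mem _ _ B.ht')

theorem U_le (B : Blk 𝒟 u t t' W I U d p) (k : Fin n) : U k ≤ W := by
  rw [← B.supU]; exact le_iSup U k

theorem I_le (B : Blk 𝒟 u t t' W I U d p) : I ≤ W := by rw [B.I_eq]; exact inf_le_left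

theorem I_perp (B : Blk 𝒟 u t t' W I U d p) {x w : V} (hx : x ∈ I) (hw : w ∈ W) :
    𝒟.q x w = 0 := by rw [B.I_eq] at hx; exact hx.2 w hw

theorem mem_I (B : Blk 𝒟 u t t' W I U d p) {x : V} (hx : x ∈ W) (h : ∀ w ∈ W, 𝒟.q x w = 0) :
    x ∈ I := by rw [B.I_eq]; exact ⟨hx, fun w hw => h w hw⟩

/-- a linear decomposition into blocks -/
theorem exists_dec (B : Blk 𝒟 u t t' W I U d p) : ∃ σ : Fin n → End L V,
    (∀ k v, σ k v ∈ U k) ∧ ∀ w ∈ W, ∑ k, σ k w = w := by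
  classical
  obtain ⟨π, hπ⟩ := LinearMap.exists_leftInverse_of_injective W.subtype
    (Submodule.ker_subtype W)
  let Φ : ((k : Fin n) → U k) →ₗ[L] W :=
    ∑ k, (Submodule.inclusion (U_le B k)) ∘ₗ LinearMap.proj k
  have hΦa : ∀ x, (Φ x : V) = ∑ k, (x k : V) := by
    intro x
    simp only [Φ, LinearMap.sum_apply, AddSubmonoidClass.coe_finset_sum, LinearMap.comp_apply,
      LinearMap.proj_apply, Submodule.coe_inclusion]
  have hΦ : Function.Surjective Φ := by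
    rintro ⟨w, hw⟩
    have hw' := hw
    rw [← B.supU] at hw'
    obtain ⟨f, hf⟩ := (Submodule.mem_iSup_iff_exists_finsupp _ _).mp hw' |>.imp fun f hf => hf
    refine ⟨fun k => ⟨f k, hf.1 k⟩, Subtype.ext ?_⟩
    rw [hΦa]
    change ∑ k, f k = w
    rw [← hf.2, Finsupp.sum_fintype _ _ fun _ => rfl]
  obtain ⟨Ψ, hΨ⟩ := Φ.exists_rightInverse_of_surjective (LinearMap.range_eq_top.mpr hΦ)
  refine ⟨fun k => (U k).subtype ∘ₗ LinearMap.proj k ∘ₗ Ψ ∘ₗ π, fun k v => ?_, fun w hw => ?_⟩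
  · exact (Ψ (π v) k).2
  · have h1 : π w = ⟨w, hw⟩ := LinearMap.congr_fun hπ (⟨w, hw⟩ : W)
    have h2 : Φ (Ψ (π w)) = π w := LinearMap.congr_fun hΨ (π w)
    have h3 := hΦa (Ψ (π w))
    rw [h2] at h3
    have h4 : (π w : V) = w := congrArg Subtype.val h1
    rw [h4] at h3
    exact h3.symm

/-- blocks are independent modulo `I` -/
theorem indep_I (B : Blk 𝒟 u t t' W I U d p) {v : Fin n → V} (hv : ∀ k, v k ∈ U k)
    (h : ∑ k, v k ∈ I) (k : Fin n) (hG : 𝒟.Good) : v k ∈ I := by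
  classical
  refine mem_I B (U_le B k (hv k)) fun w hw => ?_
  obtain ⟨σ, hσ1, hσ2⟩ := exists_dec B
  have h1 : 𝒟.q (v k) w = 𝒟.q (v k) (σ k w) := by
    conv_lhs => rw [← hσ2 w hw]
    rw [map_sum, Finset.sum_eq_single k]
    · intro j _ hj
      exact B.ortho k j (Ne.symm hj) _ (hv k) _ (hσ1 j w)
    · intro hk; exact absurd (Finset.mem_univ _) hk
  have h2 : 𝒟.q (∑ j, v j) (σ k w) = 𝒟.q (v k) (σ k w) := by
    rw [map_sum, LinearMap.sum_apply, Finset.sum_eq_single k]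
    · intro j _ hj
      exact B.ortho j k hj _ (hv j) _ (hσ1 k w)
    · intro hk; exact absurd (Finset.mem_univ _) hk
  rw [h1, ← h2]
  exact I_perp B h (U_le B k (hσ1 k w))

/-- the decomposition of a vector of a block -/
theorem dec_I (B : Blk 𝒟 u t t' W I U d p) (hG : 𝒟.Good) {σ : Fin n → End L V}
    (hσ1 : ∀ k v, σ k v ∈ U k) (hσ2 : ∀ w ∈ W, ∑ k, σ k w = w) {k : Fin n} {w : V}
    (hw : w ∈ U k) (j : Fin n) : σ j w - (if j = k then w else 0) ∈ I := by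
  classical
  refine indep_I B (v := fun j => σ j w - (if j = k then w else 0)) (fun j => ?_) ?_ j hG
  · refine sub_mem (hσ1 j w) ?_
    split_ifs with h
    · rw [h]; exact hw
    · exact zero_mem _
  · rw [Finset.sum_sub_distrib, hσ2 w (U_le B k hw), Finset.sum_ite_eq', if_pos
      (Finset.mem_univ _), sub_self]
    exact zero_mem _

theorem dec_I' (B : Blk 𝒟 u t t' W I U d p) (hG : 𝒟.Good) {σ : Fin n → End L V}
    (hσ1 : ∀ k v, σ k v ∈ U k) (hσ2 : ∀ w ∈ W, ∑ k, σ k w = w) {w : V}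
    (hw : w ∈ I) (j : Fin n) : σ j w ∈ I := by
  refine indep_I B (v := fun j => σ j w) (fun j => hσ1 j w) ?_ j hG
  change ∑ k, σ k w ∈ I
  rw [hσ2 w (I_le B hw)]
  exact hw

/-- the residues preserve the blocks -/
theorem Res_U (B : Blk 𝒟 u t t' W I U d p) (k : Fin n) (a : Fin 3) {w : V} (hw : w ∈ U k) :
    Res 𝒟 t a w ∈ U k := by
  rw [← B.sumU k]
  exact Submodule.mem_iSup_of_mem a (Submodule.mem_map_of_mem hw)

theorem Res_W (B : Blk 𝒟 u t t' W I U d p) (a : Fin 3) {w : V} (hw : w ∈ W) :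
    Res 𝒟 t a w ∈ W := by
  rw [← B.sumW]
  exact Submodule.mem_iSup_of_mem a (Submodule.mem_map_of_mem hw)

theorem Res_SA (hG : 𝒟.Good) (t : J → V) (a : Fin 3) : IsSA 𝒟.q (Res 𝒟 t a) :=
  Sop_SA 𝒟.arm hG.form (Tt L t) hG.skew a

theorem Res_I (B : Blk 𝒟 u t t' W I U d p) (hG : 𝒟.Good) (a : Fin 3) {w : V} (hw : w ∈ I) :
    Res 𝒟 t a w ∈ I := by
  refine mem_I B (Res_W B a (I_le B hw)) fun v hv => ?_
  rw [Res_SA hG]
  exact I_perp B hw (Res_W B a hv)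

/-- `t_μ^* = u_k t^*` on `U k` -/
theorem star_tm (B : Blk 𝒟 u t t' W I U d p) (x y : L) {k : Fin n} {w : V} (hw : w ∈ U k)
    (l : J) : 𝒟.q (tm t t' x y l) w = (x + y * d k) * 𝒟.q (t l) w := by
  have h1 := B.star k w hw l
  unfold tm
  rw [Pi.add_apply, Pi.smul_apply, Pi.smul_apply, map_add, LinearMap.add_apply, map_smul,
    map_smul, LinearMap.smul_apply, LinearMap.smul_apply, h1, smul_eq_mul, smul_eq_mul]
  ring

theorem star_tm' (B : Blk 𝒟 u t t' W I U d p) (hG : 𝒟.Good) (x y : L) {k : Fin n} {w : V}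
    (hw : w ∈ U k) (l : J) :
    𝒟.q w (tm t t' x y l) = 𝒟.q ((x + y * d k) • w) (t l) := by
  rw [hG.form.symm, star_tm B x y hw, map_smul, LinearMap.smul_apply, smul_eq_mul,
    hG.form.symm w]

/-- mixed operators with `t_μ` on the right -/
theorem opr_tm (B : Blk 𝒟 u t t' W I U d p) (hG : 𝒟.Good) (x y : L) (r : J → V) (a : Fin 3)
    {k : Fin n} {w : V} (hw : w ∈ U k) :
    opr 𝒟.q (Tt L r) (Gm 𝒟.arm 𝒟.Ω a) (Tt L (tm t t' x y)) w =
      (x + y * d k) • opr 𝒟.q (Tt L r) (Gm 𝒟.arm 𝒟.Ω a) (Tt L t) w := by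
  rw [opr_congr hG (star_tm' B hG x y hw) r a, map_smul]

/-- **The residues at `t_μ` on the blocks.** -/
theorem Res_tm (B : Blk 𝒟 u t t' W I U d p) (hC : Ctx 𝒟 u) (x y : L) (a : Fin 3)
    {k : Fin n} {w : V} (hw : w ∈ U k) :
    Res 𝒟 (tm t t' x y) a w = (x + y * d k) ^ 2 • Res 𝒟 t a w := by
  have hG := hC.good
  have h1 : Res 𝒟 (tm t t' x y) a w =
      opr 𝒟.q (Tt L (tm t t' x y)) (Gm 𝒟.arm 𝒟.Ω a) (Tt L (tm t t' x y)) w := rfl
  have h2 : opr 𝒟.q (Tt L t') (Gm 𝒟.arm 𝒟.Ω a) (Tt L t) =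
      opr 𝒟.q (Tt L t) (Gm 𝒟.arm 𝒟.Ω a) (Tt L t') :=
    hC.krel.swap hG.form hG.skew ⟨t', B.ht', rfl⟩ ⟨t, B.ht, rfl⟩ a
  have h3 : opr 𝒟.q (Tt L (tm t t' x y)) (Gm 𝒟.arm 𝒟.Ω a) (Tt L t) w =
      x • Res 𝒟 t a w + y • opr 𝒟.q (Tt L t') (Gm 𝒟.arm 𝒟.Ω a) (Tt L t) w := by
    unfold tm
    rw [Tt_add, Tt_smul, Tt_smul]
    simp only [opr_apply, LinearMap.add_apply, LinearMap.smul_apply]
    rfl
  rw [h1, opr_tm B hG x y _ a hw, h3, h2, B.op k a w hw, smul_smul, ← add_smul, smul_smul]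
  congr 1
  ring

/-- the residues at `t_μ` generate -/
theorem sumU_tm (B : Blk 𝒟 u t t' W I U d p) (hC : Ctx 𝒟 u) {x y : L}
    (hu : ∀ k, x + y * d k ≠ 0) (k : Fin n) :
    ⨆ a, (U k).map (Res 𝒟 (tm t t' x y) a) = U k := by
  conv_rhs => rw [← B.sumU k]
  refine iSup_congr fun a => le_antisymm ?_ ?_
  · rintro _ ⟨w, hw, rfl⟩
    rw [Res_tm B hC x y a hw]
    exact Submodule.smul_mem _ _ (Submodule.mem_map_of_mem hw)
  · rintro _ ⟨w, hw, rfl⟩
    refine ⟨((x + y * d k) ^ 2)⁻¹ • w, Submodule.smul_mem _ _ hw, ?_⟩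
    rw [map_smul, Res_tm B hC x y a hw, smul_smul, inv_mul_cancel₀ (pow_ne_zero 2 (hu k)),
      one_smul]

theorem sumW_tm (B : Blk 𝒟 u t t' W I U d p) (hC : Ctx 𝒟 u) {x y : L}
    (hu : ∀ k, x + y * d k ≠ 0) : ⨆ a, W.map (Res 𝒟 (tm t t' x y) a) = W := by
  apply le_antisymm
  · refine iSup_le fun a => ?_
    rintro _ ⟨w, hw, rfl⟩
    have hw' : w ∈ W := hw
    rw [← B.supU] at hw'
    refine Submodule.iSup_induction U (motive := fun w => Res 𝒟 (tm t t' x y) a w ∈ W) hw'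
      ?_ ?_ ?_
    · intro k w hw
      rw [Res_tm B hC x y a hw]
      exact Submodule.smul_mem _ _ (Res_W B a (U_le B k hw))
    · rw [map_zero]; exact zero_mem _
    · intro v w hv hw
      rw [map_add]; exact add_mem hv hw
  · conv_lhs => rw [← B.supU]
    refine iSup_le fun k => ?_
    rw [← sumU_tm B hC hu k]
    exact iSup_mono fun a => Submodule.map_mono (U_le B k)

theorem Res_tm_I (B : Blk 𝒟 u t t' W I U d p) (hC : Ctx 𝒟 u) {x y : L}
    (hu : ∀ k, x + y * d k ≠ 0) (a : Fin 3) {w : V} (hw : w ∈ I) :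
    Res 𝒟 (tm t t' x y) a w ∈ I := by
  have hW : ∀ w ∈ W, Res 𝒟 (tm t t' x y) a w ∈ W := fun w hw =>
    (sumW_tm B hC hu).le (Submodule.mem_iSup_of_mem a (Submodule.mem_map_of_mem hw))
  refine mem_I B (hW w (I_le B hw)) fun v hv => ?_
  rw [Res_SA hC.good]
  exact I_perp B hw (hW v hv)

end Vale.Agent.P182.H922.S2
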