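import Vale.Agent.P182.H922.Six
import Vale.Agent.P182.H664.Lang

/-!
# The dichotomy for configurations
-/

namespace Vale.Agent.P182.H922

open Module Matrix Vale.Agent.P182.H533 Vale.Agent.P182.B1

section cfg

variable {L V J : Type*} [Field L] [AddCommGroup V] [Module L V] [Fintype J]

/-- the linear map `L^J → V` attached to a family of vectors -/
def Tt (L : Type*) [Field L] [Module L V] (t : J → V) : (J → L) →ₗ[L] V :=
  Fintype.linearCombination L t

theorem Tt_apply (t : J → V) (x : J → L) : Tt L t x = ∑ k, x k • t k := rfl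

theorem Tt_single [DecidableEq J] (t : J → V) (k : J) : Tt L t (Pi.single k 1) = t k := by
  rw [Tt_apply, Finset.sum_eq_single k]
  · rw [Pi.single_eq_same, one_smul]
  · intro l _ hl
    rw [Pi.single_eq_of_ne hl, zero_smul]
  · intro h; exact absurd (Finset.mem_univ _) h

theorem Tt_add (t t' : J → V) : Tt L (t + t') = Tt L t + Tt L t' := by
  refine LinearMap.ext fun x => ?_
  rw [LinearMap.add_apply, Tt_apply, Tt_apply, Tt_apply, ← Finset.sum_add_distrib]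
  refine Finset.sum_congr rfl fun k _ => ?_
  rw [Pi.add_apply, smul_add]

theorem Tt_smul (c : L) (t : J → V) : Tt L (c • t) = c • Tt L t := by
  refine LinearMap.ext fun x => ?_
  rw [LinearMap.smul_apply, Tt_apply, Tt_apply, Finset.smul_sum]
  refine Finset.sum_congr rfl fun k _ => ?_
  rw [Pi.smul_apply, smul_comm]

theorem Tt_sub (t t' : J → V) : Tt L (t - t') = Tt L t - Tt L t' := by
  refine LinearMap.ext fun x => ?_
  rw [LinearMap.sub_apply, Tt_apply, Tt_apply, Tt_apply, ← Finset.sum_sub_distrib]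
  refine Finset.sum_congr rfl fun k _ => ?_
  rw [Pi.sub_apply, smul_sub]

variable (𝒟 : Cfg L V J)

theorem om_eq (t : J → V) (l : J) : 𝒟.om t l = Tt L t (𝒟.Ω l) := rfl

theorem om_add (t t' : J → V) (l : J) : 𝒟.om (t + t') l = 𝒟.om t l + 𝒟.om t' l := by
  rw [om_eq, Tt_add]; rfl

theorem om_smul (a : L) (t : J → V) (l : J) : 𝒟.om (a • t) l = a • 𝒟.om t l := by
  rw [om_eq, Tt_smul]; rfl

/-- the residues -/
noncomputable def Res [DecidableEq J] (t : J → V) (s : Fin 3) : End L V :=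
  Sop 𝒟.arm 𝒟.q (Tt L t) 𝒟.Ω s

/-- the operators of a configuration -/
theorem opr_Tt [DecidableEq J] (hΩ : 𝒟.Ωᵀ = -𝒟.Ω) (r r' : J → V) (s : Fin 3) (v : V) :
    opr 𝒟.q (Tt L r) (Gm 𝒟.arm 𝒟.Ω s) (Tt L r') v =
      ∑ l with 𝒟.arm l = s, (𝒟.q (𝒟.om r' l) v • r l + 𝒟.q (r' l) v • 𝒟.om r l) := by
  have hΩ' : ∀ l l', 𝒟.Ω l l' = - 𝒟.Ω l' l := fun l l' => by
    have := congrFun (congrFun hΩ l') l
    rwa [Matrix.transpose_apply, Matrix.neg_apply] at this
  rw [opr_apply, Tt_apply]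
  have h1 : ∀ l, (Gm 𝒟.arm 𝒟.Ω s *ᵥ ad 𝒟.q (Tt L r') v) l =
      (if 𝒟.arm l = s then 𝒟.q (𝒟.om r' l) v else 0) -
        ∑ k, if 𝒟.arm k = s then 𝒟.Ω l k * 𝒟.q (r' k) v else 0 := by
    intro l
    have h2 : (Gm 𝒟.arm 𝒟.Ω s *ᵥ ad 𝒟.q (Tt L r') v) l =
        ∑ k, Gm 𝒟.arm 𝒟.Ω s l k * 𝒟.q (r' k) v := by
      show ∑ k, Gm 𝒟.arm 𝒟.Ω s l k * ad 𝒟.q (Tt L r') v k = _
      refine Finset.sum_congr rfl fun k _ => ?_
      rw [ad_apply, Tt_single]
    rw [h2, Cfg.om, map_sum, LinearMap.sum_apply]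
    have h3 : ∀ k, Gm 𝒟.arm 𝒟.Ω s l k * 𝒟.q (r' k) v =
        (if 𝒟.arm l = s then 𝒟.q (𝒟.Ω l k • r' k) v else 0) -
          (if 𝒟.arm k = s then 𝒟.Ω l k * 𝒟.q (r' k) v else 0) := by
      intro k
      rw [Gm_apply, map_smul, LinearMap.smul_apply, smul_eq_mul]
      split_ifs <;> ring
    rw [Finset.sum_congr rfl fun k _ => h3 k, Finset.sum_sub_distrib]
    congr 1
    split_ifs
    · rfl
    · exact Finset.sum_const_zero
  simp only [h1, sub_smul, Finset.sum_sub_distrib, Finset.sum_smul]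
  rw [Finset.sum_filter, Finset.sum_comm (f := fun l k =>
    (if 𝒟.arm k = s then 𝒟.Ω l k * 𝒟.q (r' k) v else 0) • r l), ← Finset.sum_sub_distrib]
  refine Finset.sum_congr rfl fun k _ => ?_
  by_cases hk : 𝒟.arm k = s
  · simp only [hk, if_true]
    rw [sub_eq_add_neg]
    congr 1
    rw [Cfg.om, Finset.smul_sum, ← Finset.sum_neg_distrib]
    refine Finset.sum_congr rfl fun l _ => ?_
    rw [hΩ' l k, smul_smul, neg_mul, neg_smul, neg_neg, mul_comm]
  · simp only [hk, if_false, zero_smul, Finset.sum_const_zero, sub_zero]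

theorem Res_apply [DecidableEq J] (hΩ : 𝒟.Ωᵀ = -𝒟.Ω) (t : J → V) (s : Fin 3) (v : V) :
    Res 𝒟 t s v = ∑ l with 𝒟.arm l = s, (𝒟.q (𝒟.om t l) v • t l + 𝒟.q (t l) v • 𝒟.om t l) :=
  opr_Tt 𝒟 hΩ t t s v

variable {𝒟}

/-- the connection preserves the orthogonal spaces -/
theorem conn_perp {q : V →ₗ[L] V →ₗ[L] L} (n : H533.Conn q) {Y : End L V}
    (hY : IsSk q Y) {F : Submodule L V} (h : ∀ v ∈ F, n.δ v - Y v ∈ F) :
    ∀ u ∈ perp q F, n.δ u - Y u ∈ perp q F := by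
  intro u hu v hv
  have h1 := n.metric u v
  rw [hu v hv, map_zero] at h1
  have h2 := hu _ (h v hv)
  rw [map_sub] at h2
  rw [map_sub, LinearMap.sub_apply, hY]
  linear_combination -h1 - h2

/-- the variation of the dual vectors -/
theorem conn_om (n : H533.Conn 𝒟.q) (t : J → V) (l : J) : n.δ (𝒟.om t l) =
    ∑ k, n.d (𝒟.Ω l k) • t k + 𝒟.om (fun k => n.δ (t k)) l := by
  rw [Cfg.om, Cfg.om, map_sum, ← Finset.sum_add_distrib]
  refine Finset.sum_congr rfl fun k _ => ?_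
  rw [n.smul]

/-- the skew pairing -/
theorem pair_om (hG : 𝒟.Good) (x y : J → V) :
    ∑ l, 𝒟.q (x l) (𝒟.om y l) = - ∑ l, 𝒟.q (y l) (𝒟.om x l) := by
  have hΩ' : ∀ l l', 𝒟.Ω l l' = - 𝒟.Ω l' l := fun l l' => by
    have := congrFun (congrFun hG.skew l') l
    rwa [Matrix.transpose_apply, Matrix.neg_apply] at this
  simp only [Cfg.om, map_sum, map_smul, smul_eq_mul]
  rw [Finset.sum_comm, ← Finset.sum_neg_distrib]
  refine Finset.sum_congr rfl fun k _ => ?_
  rw [← Finset.sum_neg_distrib]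
  refine Finset.sum_congr rfl fun l _ => ?_
  rw [hΩ' l k, hG.form.symm (x l)]
  ring

/-- **The first order relation.** -/
theorem first_order (hG : 𝒟.Good) (hV : 𝒟.Versal) {x y : J → V} (hx : x ∈ 𝒟.K) (hy : y ∈ 𝒟.K)
    {Y : Fin 3 → End L V} (hY : ∀ s, IsSk 𝒟.q (Y s)) {η : Matrix J J L} (hη : ηᵀ = -η) :
    ∑ l, ∑ k, η l k * 𝒟.q (x l) (y k) +
      ∑ l, (𝒟.q (Y (𝒟.arm l) (x l)) (𝒟.om y l) + 𝒟.q (Y (𝒟.arm l) (𝒟.om x l)) (y l)) = 0 := by
  obtain ⟨n, hn, hd⟩ := hV Y hY η hη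
  have hn' : ∀ l, ∀ v ∈ 𝒟.C l, n.δ v - Y (𝒟.arm l) v ∈ 𝒟.C l := fun l => hn _ _
  -- `M (x, y) = 0`
  have h0 : ∑ l, 𝒟.q (x l) (𝒟.om y l) = 0 := Finset.sum_eq_zero fun l _ => by
    rw [hG.form.symm]; exact hy.2 l _ (hx.1 l)
  have h1 := congrArg n.d h0
  rw [map_zero, map_sum] at h1
  have h2 : ∀ l, n.d (𝒟.q (x l) (𝒟.om y l)) =
      𝒟.q (Y (𝒟.arm l) (x l)) (𝒟.om y l) + (∑ k, η l k * 𝒟.q (x l) (y k) +
        𝒟.q (x l) (𝒟.om (fun k => n.δ (y k)) l)) := by
    intro l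
    rw [n.metric]
    congr 1
    · have h3 := hy.2 l _ (hn' l _ (hx.1 l))
      rw [hG.form.symm, map_sub, LinearMap.sub_apply, sub_eq_zero] at h3
      exact h3
    · rw [conn_om, map_add, map_sum]
      congr 1
      refine Finset.sum_congr rfl fun k _ => ?_
      rw [map_smul, smul_eq_mul, hd]
  rw [Finset.sum_congr rfl fun l _ => h2 l, Finset.sum_add_distrib, Finset.sum_add_distrib,
    pair_om hG x] at h1
  have h3 : ∀ l, 𝒟.q (n.δ (y l)) (𝒟.om x l) = - 𝒟.q (Y (𝒟.arm l) (𝒟.om x l)) (y l) := by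
    intro l
    have h4 := hx.2 l _ (hn' l _ (hy.1 l))
    rw [map_sub, sub_eq_zero] at h4
    rw [hG.form.symm, h4, hY, neg_neg]
  rw [Finset.sum_congr rfl fun l _ => h3 l, Finset.sum_neg_distrib, neg_neg] at h1
  rw [Finset.sum_add_distrib, ← h1]
  ring

variable [DecidableEq J]

theorem kRelC (hG : 𝒟.Good) (hV : 𝒟.Versal) :
    KRel 𝒟.arm 𝒟.q 𝒟.Ω (Tt L '' (𝒟.K : Set (J → V))) where
  F1 := by
    rintro _ ⟨r, hr, rfl⟩ _ ⟨r', hr', rfl⟩ x y
    have key : ∀ l k, 𝒟.q (r l) (r' k) = 𝒟.q (r' l) (r k) := by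
      intro i j
      by_cases hij : i = j
      · subst hij; rw [hG.form.symm]
      have h1 := first_order hG hV hr hr' (Y := fun _ => 0) (fun s u v => by simp)
        (η := Matrix.single i j 1 - Matrix.single j i 1) (by
          rw [Matrix.transpose_sub, Matrix.transpose_single, Matrix.transpose_single, neg_sub])
      have h3 : ∀ l k, (Matrix.single i j 1 - Matrix.single j i 1 : Matrix J J L) l k *
          𝒟.q (r l) (r' k) = (if l = i then (if k = j then 𝒟.q (r i) (r' j) else 0) else 0) -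
            (if l = j then (if k = i then 𝒟.q (r j) (r' i) else 0) else 0) := by
        intro l k
        rw [Matrix.sub_apply, sub_mul]
        congr 1
        · by_cases hl : l = i
          · by_cases hk : k = j
            · rw [hl, hk, if_pos rfl, if_pos rfl, Matrix.single_apply_same, one_mul]
            · rw [if_neg hk, ite_self, Matrix.single_apply_of_ne _ _ _ _ _
                (fun h => hk h.2.symm), zero_mul]
          · rw [if_neg hl, Matrix.single_apply_of_ne _ _ _ _ _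
                (fun h => hl h.1.symm), zero_mul]
        · by_cases hl : l = j
          · by_cases hk : k = i
            · rw [hl, hk, if_pos rfl, if_pos rfl, Matrix.single_apply_same, one_mul]
            · rw [if_neg hk, ite_self, Matrix.single_apply_of_ne _ _ _ _ _
                (fun h => hk h.2.symm), zero_mul]
          · rw [if_neg hl, Matrix.single_apply_of_ne _ _ _ _ _
                (fun h => hl h.1.symm), zero_mul]
      simp only [h3, Finset.sum_sub_distrib, LinearMap.zero_apply, map_zero, add_zero,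
        Finset.sum_const_zero] at h1
      simp only [Finset.sum_ite_irrel, Finset.sum_const_zero, Finset.sum_ite_eq', Finset.mem_univ,
        if_true] at h1
      rw [sub_eq_zero] at h1
      rw [h1, hG.form.symm]
    rw [Tt_apply, Tt_apply, Tt_apply, Tt_apply]
    simp only [map_sum, map_smul, LinearMap.sum_apply, LinearMap.smul_apply, smul_eq_mul]
    refine Finset.sum_congr rfl fun k _ => ?_
    congr 1
    refine Finset.sum_congr rfl fun l _ => ?_
    rw [key]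
  F2 := by
    rintro _ ⟨r, hr, rfl⟩ _ ⟨r', hr', rfl⟩ s v w
    -- the rank two skew endomorphism
    let X : End L V := (𝒟.q v).smulRight w - (𝒟.q w).smulRight v
    have hX : ∀ a, X a = 𝒟.q v a • w - 𝒟.q w a • v := fun a => rfl
    have hXs : IsSk 𝒟.q X := by
      intro a b
      rw [hX, hX]
      simp only [map_sub, map_smul, LinearMap.sub_apply, LinearMap.smul_apply, smul_eq_mul]
      rw [hG.form.symm a w, hG.form.symm a v]
      ring
    have h := first_order hG hV hr hr' (Y := fun s' => if s' = s then X else 0) (fun s' => by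
        split_ifs
        · exact hXs
        · intro a b; simp) (η := 0) (by simp)
    have h1 : ∀ l, 𝒟.q ((if 𝒟.arm l = s then X else 0 : End L V) (r l)) (𝒟.om r' l) +
        𝒟.q ((if 𝒟.arm l = s then X else 0 : End L V) (𝒟.om r l)) (r' l) =
        if 𝒟.arm l = s then 𝒟.q (X (r l)) (𝒟.om r' l) + 𝒟.q (X (𝒟.om r l)) (r' l) else 0 := by
      intro l
      split_ifs
      · rfl
      · simp
    rw [Finset.sum_congr rfl fun l _ => h1 l] at h
    simp only [Matrix.zero_apply, zero_mul, Finset.sum_const_zero, zero_add] at h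
    rw [← Finset.sum_filter] at h
    rw [opr_Tt 𝒟 hG.skew, opr_Tt 𝒟 hG.skew, map_sum, LinearMap.sum_apply, map_sum, ← sub_eq_zero,
      ← Finset.sum_sub_distrib, ← neg_eq_zero, ← Finset.sum_neg_distrib, ← h]
    refine Finset.sum_congr rfl fun l _ => ?_
    rw [hX, hX]
    simp only [map_add, map_sub, map_smul, LinearMap.sub_apply, LinearMap.smul_apply,
      LinearMap.add_apply, smul_eq_mul]
    rw [hG.form.symm (𝒟.om r' l) v, hG.form.symm (𝒟.om r l) w, hG.form.symm (r' l) v,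
      hG.form.symm (r l) w, hG.form.symm (r' l) w, hG.form.symm (𝒟.om r' l) w]
    ring

/-- nilpotency of the residues -/
theorem nilp_Res (hG : 𝒟.Good) {t : J → V} (ht : t ∈ 𝒟.K) (s : Fin 3) :
    IsNilpotent (Res 𝒟 t s) := by
  set S := Res 𝒟 t s with hS
  have hSv : ∀ v, S v = ∑ l with 𝒟.arm l = s,
      (𝒟.q (𝒟.om t l) v • t l + 𝒟.q (t l) v • 𝒟.om t l) := fun v => Res_apply 𝒟 hG.skew t s v
  have hmono : ∀ {a b}, a ≤ b → 𝒟.F s a ≤ 𝒟.F s b := fun h => hG.mono s h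
  have hiso' : ∀ a b, ∀ v ∈ 𝒟.F s a, ∀ w ∈ 𝒟.F s b, 𝒟.q v w = 0 := fun a b v hv w hw =>
    hG.iso s (max a b) (hmono (le_max_left _ _) hv) w (hmono (le_max_right _ _) hw)
  obtain ⟨n, hn⟩ : ∃ n, ∀ l, 𝒟.c l ≤ n := ⟨∑ l, 𝒟.c l, fun l =>
    Finset.single_le_sum (f := 𝒟.c) (fun _ _ => Nat.zero_le _) (Finset.mem_univ l)⟩
  -- on the flags
  have h1 : ∀ a, ∀ v ∈ 𝒟.F s (a + 1), S v ∈ 𝒟.F s a := by
    intro a v hv
    rw [hSv]
    refine Submodule.sum_mem _ fun l hl => ?_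
    have hl' : 𝒟.arm l = s := (Finset.mem_filter.mp hl).2
    have h2 := ht.1 l
    have h3 := ht.2 l
    rw [Cfg.C, hl'] at h2 h3
    rw [hiso' _ _ _ h2 _ hv, zero_smul, add_zero]
    by_cases hc : a + 1 ≤ 𝒟.c l
    · rw [h3 v (hmono hc hv), zero_smul]
      exact Submodule.zero_mem _
    · exact Submodule.smul_mem _ _ (hmono (by omega) h2)
  have h1' : ∀ a, ∀ v ∈ 𝒟.F s a, (S ^ a) v = 0 := by
    intro a
    induction a with
    | zero =>
      intro v hv
      rw [hG.zero, Submodule.mem_bot] at hv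
      rw [hv, map_zero]
    | succ a ih =>
      intro v hv
      rw [pow_succ, Module.End.mul_apply]
      exact ih _ (h1 a v hv)
  -- on the orthogonal spaces
  have h4 : ∀ a, ∀ v, ∀ w ∈ 𝒟.F s a, 𝒟.q w ((S ^ a) v) = 0 := by
    intro a
    induction a with
    | zero =>
      intro v w hw
      rw [hG.zero, Submodule.mem_bot] at hw
      rw [hw, map_zero, LinearMap.zero_apply]
    | succ a ih =>
      intro v w hw
      have h5 := ih v
      rw [pow_succ', Module.End.mul_apply, hSv]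
      set v' := (S ^ a) v
      rw [map_sum]
      refine Finset.sum_eq_zero fun l hl => ?_
      have hl' : 𝒟.arm l = s := (Finset.mem_filter.mp hl).2
      have h2 := ht.1 l
      have h3 := ht.2 l
      rw [Cfg.C, hl'] at h2 h3
      rw [map_add, map_smul, map_smul, hiso' _ _ _ hw _ h2, smul_zero, zero_add]
      by_cases hc : 𝒟.c l ≤ a
      · rw [h5 _ (hmono hc h2), zero_smul]
      · rw [hG.form.symm w, h3 w (hmono (by omega) hw), smul_zero]
  have h6 : ∀ v, (S ^ (n + 1)) v ∈ 𝒟.F s n := by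
    intro v
    rw [pow_succ', Module.End.mul_apply, hSv]
    refine Submodule.sum_mem _ fun l hl => ?_
    have hl' : 𝒟.arm l = s := (Finset.mem_filter.mp hl).2
    have h2 := ht.1 l
    rw [Cfg.C, hl'] at h2
    rw [h4 n v _ (hmono (hn l) h2), zero_smul, add_zero]
    exact Submodule.smul_mem _ _ (hmono (hn l) h2)
  refine ⟨n + (n + 1), ?_⟩
  refine LinearMap.ext fun v => ?_
  rw [pow_add, Module.End.mul_apply, h1' n _ (h6 v)]
  rfl

/-- the realisation hypothesis -/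
theorem realC (hG : 𝒟.Good) (hV : 𝒟.Versal) {t : J → V} (ht : t ∈ 𝒟.K)
    (X : Fin 3 → End L V) (η : Matrix J J L) (hX : ∀ s, IsSk 𝒟.q (X s)) (hη : ηᵀ = -η)
    (hT : ∀ x, Tt L t (η *ᵥ x) + ∑ s, X s (Tt L t (Gm 𝒟.arm 𝒟.Ω s *ᵥ x)) = 0) :
    ∃ n : H533.Conn 𝒟.q, ∃ R ∈ Tt L '' (𝒟.K : Set (J → V)),
      (∀ j, n.δ (Tt L t (Pi.single j 1)) =
        X (𝒟.arm j) (Tt L t (Pi.single j 1)) + R (Pi.single j 1)) ∧
        ∀ i j, n.d (𝒟.Ω i j) = η i j := by
  have hΩ' : ∀ l l', 𝒟.Ω l l' = - 𝒟.Ω l' l := fun l l' => by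
    have := congrFun (congrFun hG.skew l') l
    rwa [Matrix.transpose_apply, Matrix.neg_apply] at this
  have hη' : ∀ l l', η l l' = - η l' l := fun l l' => by
    have := congrFun (congrFun hη l') l
    rwa [Matrix.transpose_apply, Matrix.neg_apply] at this
  obtain ⟨n, hn, hd⟩ := hV X hX η hη
  have hXη : ∀ k, ∑ l, η k l • t l = X (𝒟.arm k) (𝒟.om t k) -
      ∑ l, 𝒟.Ω k l • X (𝒟.arm l) (t l) := by
    intro k
    have h1 := hT (Pi.single k 1)
    have h2 : Tt L t (η *ᵥ Pi.single k 1) = - ∑ l, η k l • t l := by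
      rw [Tt_apply, ← Finset.sum_neg_distrib]
      refine Finset.sum_congr rfl fun l _ => ?_
      rw [Matrix.mulVec_single_one, Matrix.col_apply, hη' l k, neg_smul]
    have h3 : ∀ s, X s (Tt L t (Gm 𝒟.arm 𝒟.Ω s *ᵥ Pi.single k 1)) =
        ∑ l, ((if 𝒟.arm k = s then 𝒟.Ω k l • X s (t l) else 0) -
          (if 𝒟.arm l = s then 𝒟.Ω k l • X s (t l) else 0)) := by
      intro s
      rw [Tt_apply, map_sum]
      refine Finset.sum_congr rfl fun l _ => ?_
      rw [Matrix.mulVec_single_one, Matrix.col_apply, Gm_apply, hΩ' l k, map_smul]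
      split_ifs <;> simp
    have h4 : ∑ s, X s (Tt L t (Gm 𝒟.arm 𝒟.Ω s *ᵥ Pi.single k 1)) =
        X (𝒟.arm k) (𝒟.om t k) - ∑ l, 𝒟.Ω k l • X (𝒟.arm l) (t l) := by
      rw [Finset.sum_congr rfl fun s _ => h3 s, Finset.sum_comm]
      simp only [Finset.sum_sub_distrib, Finset.sum_ite_eq, Finset.mem_univ, if_true]
      rw [Cfg.om, map_sum]
      simp only [map_smul]
    rw [h2, h4] at h1
    have h5 := neg_eq_zero.mpr h1
    rw [neg_add, neg_neg, neg_sub] at h5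
    rw [← sub_eq_zero, ← h5]
    abel
  refine ⟨n, Tt L (fun l => n.δ (t l) - X (𝒟.arm l) (t l)), ⟨_, ⟨fun l => hn _ _ _ (ht.1 l),
    fun l => ?_⟩, rfl⟩, fun j => ?_, hd⟩
  · have h1 : 𝒟.om (fun l => n.δ (t l) - X (𝒟.arm l) (t l)) l =
        n.δ (𝒟.om t l) - X (𝒟.arm l) (𝒟.om t l) := by
      rw [conn_om]
      have h2 : 𝒟.om (fun l => n.δ (t l) - X (𝒟.arm l) (t l)) l =
          𝒟.om (fun l => n.δ (t l)) l - ∑ k, 𝒟.Ω l k • X (𝒟.arm k) (t k) := by
        simp only [Cfg.om, smul_sub, Finset.sum_sub_distrib]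
      simp only [hd]
      rw [h2, hXη]
      abel
    rw [h1]
    exact conn_perp n (hX _) (hn _ _) _ (ht.2 l)
  · rw [Tt_single, Tt_single]
    abel

/-- `t` has a core of maximal dimension among the elements of the kernel -/
def MaxCoreC (𝒟 : Cfg L V J) (t : J → V) : Prop :=
  t ∈ 𝒟.K ∧ ∀ t' ∈ 𝒟.K, ∀ C : Core 𝒟.q (Res 𝒟 t), ∀ C' : Core 𝒟.q (Res 𝒟 t'),
      finrank L C'.V1 ≤ finrank L C.V1

omit [Fintype J] [DecidableEq J] in
theorem finrank_core' [FiniteDimensional L V] {q : V →ₗ[L] V →ₗ[L] L} {S : Fin 3 → End L V}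
    (C C' : Core q S) : finrank L C.V1 = finrank L C'.V1 := by
  have hW : C.W = C'.W := by
    have h1 : ∀ (C : Core q S) m, C.N ≤ m → H533.words S m = C.W := by
      intro C m hm
      induction m, hm using Nat.le_induction with
      | base => exact C.hN.symm
      | succ m _ ih => rw [H533.words_succ, ih, C.hW]
    rw [← h1 C _ (le_max_left C.N C'.N), ← h1 C' _ (le_max_right C.N C'.N)]
  have h2 : ∀ C : Core q S, finrank L C.V1 + finrank L (C.W ⊓ perp q C.W : Submodule L _) =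
      finrank L C.W := by
    intro C
    have h3 := Submodule.finrank_sup_add_finrank_inf_eq C.V1 (C.W ⊓ perp q C.W)
    rw [C.sup, C.disj, finrank_bot] at h3
    omega
  have h3 := h2 C
  have h4 := h2 C'
  rw [← hW] at h4
  omega

theorem exists_maxCoreC [FiniteDimensional L V] (𝒟 : Cfg L V J) : ∃ t, MaxCoreC 𝒟 t := by
  classical
  let P : ℕ → Prop := fun d => ∃ t ∈ 𝒟.K, ∃ C : Core 𝒟.q (Res 𝒟 t), finrank L C.V1 = d
  have hP : ∃ d, P d := by
    obtain ⟨C⟩ := exists_core 𝒟.q (Res 𝒟 (0 : J → V))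
    exact ⟨_, 0, Submodule.zero_mem _, C, rfl⟩
  have hb : ∀ d, P d → d ≤ finrank L V := by
    rintro d ⟨t, _, C, rfl⟩
    exact Submodule.finrank_le _
  obtain ⟨t, ht, C, hC⟩ := Nat.findGreatest_spec (P := P) (hb _ hP.choose_spec) hP.choose_spec
  refine ⟨t, ht, fun t' ht' C1 C' => ?_⟩
  rw [finrank_core' C1 C, hC]
  exact Nat.le_findGreatest (Submodule.finrank_le _) ⟨t', ht', C', rfl⟩

/-- **The dichotomy for configurations.** -/
theorem dichotomyC [FiniteDimensional L V] [IsAlgClosed L] [CharZero L] (hG : 𝒟.Good)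
    (hV : 𝒟.Versal) {t : J → V} (ht : MaxCoreC 𝒟 t) (C : Core 𝒟.q (Res 𝒟 t)) :
    NullCore C hG.form ∨ ∀ t' ∈ 𝒟.K, ∃ d : L, ∀ a : Fin 3 → L,
      IsNilpotent (lc (Res 𝒟 (t' - d • t)) a) := by
  by_cases hnull : NullCore C hG.form
  · exact Or.inl hnull
  right
  intro t' ht'
  have hq : IsForm 𝒟.q := hG.form
  have hK := kRelC hG hV
  have h2 : (2 : L) ≠ 0 := two_ne_zero
  have hT : Tt L t ∈ Tt L '' (𝒟.K : Set (J → V)) := ⟨t, ht.1, rfl⟩
  have hT' : Tt L t' ∈ Tt L '' (𝒟.K : Set (J → V)) := ⟨t', ht', rfl⟩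
  have hSA := Sop_SA 𝒟.arm hq (Tt L t) hG.skew
  obtain ⟨D, hDs, hD1, hD2⟩ := C.exists_D hq hSA (hK.compat hq hG.skew hT hT')
  rcases one_eigenvalue_or_null hq h2 hG.skew hK hT (fun X η hX hη hTη =>
    realC hG hV ht.1 X η hX hη hTη) (fun s => nilp_Res hG ht.1 s) C hT' hD1 hD2 hDs
    with ⟨d, hd⟩ | h
  swap
  · exact absurd h hnull
  refine ⟨d, fun a => ?_⟩
  have hx : t' - d • t ∈ 𝒟.K := Submodule.sub_mem _ ht' (Submodule.smul_mem _ _ ht.1)
  have hy : t + (t' - d • t) ∈ 𝒟.K := Submodule.add_mem _ ht.1 hx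
  have hxe : Tt L (t' - d • t) = Tt L t' - d • Tt L t := by rw [Tt_sub, Tt_smul]
  have hx' : Tt L t' - d • Tt L t ∈ Tt L '' (𝒟.K : Set (J → V)) := ⟨_, hx, hxe⟩
  have hTe : Tt L (t + (t' - d • t)) = Tt L t + (Tt L t' - d • Tt L t) := by rw [Tt_add, hxe]
  have hTx : Tt L t + (Tt L t' - d • Tt L t) ∈ Tt L '' (𝒟.K : Set (J → V)) := ⟨_, hy, hTe⟩
  have hmax : ∀ C' : Core 𝒟.q (Sop 𝒟.arm 𝒟.q (Tt L t + (Tt L t' - d • Tt L t)) 𝒟.Ω),
      finrank L C'.V1 ≤ finrank L C.V1 := by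
    rw [← hTe]
    exact fun C' => ht.2 _ hy C C'
  obtain ⟨C'⟩ := exists_core 𝒟.q
    (Sop 𝒟.arm 𝒟.q (Tt L t + (Tt L t' - d • Tt L t)) 𝒟.Ω)
  show IsNilpotent (lc (Sop 𝒟.arm 𝒟.q (Tt L (t' - d • t)) 𝒟.Ω) a)
  rw [hxe]
  exact nilpotent_sub hq hG.skew hK hT hx' hTx C C' (hmax C') hD1 hD2 hd a

end cfg

end Vale.Agent.P182.H922
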