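import Vale.Agent.P182.H922.Crit2

/-!
# The null case, for both classes at once

`CritN 𝒟` collects what the null case uses: `finrank K = 2` and no nonzero isotropic element of
`K`. `HypNull4` is the null case for an element `t` such that the derivatives of `t` along the
connections which preserve the flags and `Ω` span `K`, and `D` has at least two distinct
eigenvalues.
-/

namespace Vale.Agent.P182.H922

open Module Matrix Vale.Agent.P182.H533 Vale.Agent.P182.B1 Vale.Agent.P182.H578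

universe u v w

section defs

variable {L : Type u} {V : Type v} {J : Type w} [Field L] [AddCommGroup V] [Module L V]
  [Fintype J]

/-- critical configurations without isotropic elements in `K` -/
structure CritN (𝒟 : Cfg L V J) : Prop where
  good : 𝒟.Good
  versal : 𝒟.Versal
  rich : 𝒟.Rich
  semi : 𝒟.Semistable
  dim : finrank L 𝒟.K = 2
  noIso : ∀ w ∈ 𝒟.K, (∀ l k, 𝒟.q (w l) (w k) = 0) → w = 0

/-- the derivatives of `t` along the connections preserving everything span `K` -/
def Moves (𝒟 : Cfg L V J) (t : J → V) : Prop :=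
  ∀ z ∈ 𝒟.K, ∃ n : H533.Conn 𝒟.q, (∀ s i, ∀ f ∈ 𝒟.F s i, n.δ f ∈ 𝒟.F s i) ∧
    (∀ l k, n.d (𝒟.Ω l k) = 0) ∧ ∀ l, n.δ (t l) = z l

end defs

section hyp

variable (L : Type u) (J : Type w) [Field L] [Fintype J] [DecidableEq J]

/-- **Block B4**, final form: the null case does not occur. -/
def HypNull4 : Prop := ∀ (V : Type v) [AddCommGroup V] [Module L V] [FiniteDimensional L V]
  (𝒟 : Cfg L V J) (h : CritN 𝒟) (t : J → V), MaxCoreC 𝒟 t → Moves 𝒟 t →
  ∀ C : Core 𝒟.q (Res 𝒟 t), 0 < finrank L C.V1 → ∀ t' ∈ 𝒟.K, ∀ D : End L C.V1, IsSA C.q1 D →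
  (∀ s, C.res h.good.form (opr 𝒟.q (Tt L t) (Gm 𝒟.arm 𝒟.Ω s) (Tt L t')) =
    C.S1 h.good.form s * D) →
  (∀ s, C.res h.good.form (opr 𝒟.q (Tt L t) (Gm 𝒟.arm 𝒟.Ω s) (Tt L t')) =
    D * C.S1 h.good.form s) →
  (∃ a b : L, a ≠ b ∧ D.HasEigenvalue a ∧ D.HasEigenvalue b) → ¬ NullCore C h.good.form

/-- **Block [R]**, first half: there is an element `t` of `K` whose core is maximal and whose
derivatives span `K`. -/
def HypGenT : Prop := ∀ (V : Type v) [AddCommGroup V] [Module L V] [FiniteDimensional L V]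
  (𝒟 : Cfg L V J), CritN 𝒟 → ∃ t : J → V, MaxCoreC 𝒟 t ∧ Moves 𝒟 t

end hyp

section main

variable {L : Type u} {V : Type v} {J : Type w} [Field L] [AddCommGroup V] [Module L V]
  [Fintype J] [DecidableEq J] [IsAlgClosed L] [CharZero L] [FiniteDimensional L V]

/-- F1 for `CritN` -/
theorem CritN.f1 {𝒟 : Cfg L V J} (h : CritN 𝒟) {x : J → V} (hx : x ∈ 𝒟.K)
    (hn : ∀ a : Fin 3 → L, IsNilpotent (lc (Res 𝒟 x) a)) : x = 0 := by
  refine h.noIso x hx fun l k => ?_
  have hn' : ∀ a : Fin 3 → L,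
      IsNilpotent (lc (fun s => opr 𝒟.q (Tt L x) (Gm 𝒟.arm 𝒟.Ω s) (Tt L x)) a) := hn
  exact gram_pair h.good h.versal h.semi hx hx hn' l k

/-- **No configuration is `CritN`**, given the null case. -/
theorem not_critN (h4 : HypNull4.{u, v, w} L J) (hR : HypGenT.{u, v, w} L J)
    (𝒟 : Cfg L V J) : ¬ CritN 𝒟 := by
  intro h
  obtain ⟨t, ht, hm⟩ := hR V 𝒟 h
  obtain ⟨C⟩ := exists_core 𝒟.q (Res 𝒟 t)
  have hSA : ∀ x : J → V, ∀ s, IsSA 𝒟.q (Res 𝒟 x s) := fun x s =>
    Sop_SA 𝒟.arm h.good.form (Tt L x) h.good.skew s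
  by_cases h0 : finrank L C.V1 = 0
  · -- the trivial core
    obtain ⟨x, hx⟩ : ∃ x : 𝒟.K, x ≠ 0 := by
      apply (Module.finrank_pos_iff_exists_ne_zero (R := L)).mp
      rw [h.dim]; norm_num
    apply hx
    apply Subtype.ext
    refine h.f1 x.2 (fun a => ?_)
    obtain ⟨C'⟩ := exists_core 𝒟.q (Res 𝒟 (x : J → V))
    have h1 := ht.2 _ x.2 C C'
    rw [h0, Nat.le_zero, Submodule.finrank_eq_zero] at h1
    exact nilpotent_of_trivial h.good.form (hSA _) C' h1 a
  · -- a second element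
    obtain ⟨t', ht', htt'⟩ : ∃ x ∈ 𝒟.K, x ∉ Submodule.span L {t} := by
      by_contra hcon
      push Not at hcon
      have h1 : finrank L 𝒟.K ≤ finrank L (Submodule.span L {t}) :=
        Submodule.finrank_mono (fun x hx => hcon x hx)
      have h2 : finrank L (Submodule.span L {t}) ≤ 1 := by
        have := finrank_span_le_card (R := L) ({t} : Set (J → V))
        simpa using this
      rw [h.dim] at h1
      omega
    have hq : IsForm 𝒟.q := h.good.form
    have hK := kRelC h.good h.versal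
    have hTm : ∀ x ∈ 𝒟.K, Tt L x ∈ Tt L '' (𝒟.K : Set (J → V)) := fun x hx => ⟨x, hx, rfl⟩
    have hSA' := Sop_SA 𝒟.arm hq (Tt L t) h.good.skew
    obtain ⟨D, hDs, hD1, hD2⟩ := C.exists_D hq hSA'
      (hK.compat hq h.good.skew (hTm _ ht.1) (hTm _ ht'))
    have key : ∀ a : L, ¬ ∀ μ, D.HasEigenvalue μ → μ = a := by
      intro a hab
      have hnil := nilp_of_two (b := a) D fun μ hμ => Or.inl (hab μ hμ)
      have hmem : t' - a • t ∈ 𝒟.K :=
        Submodule.sub_mem _ ht' (Submodule.smul_mem _ _ ht.1)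
      have hop : ∀ s, opr 𝒟.q (Tt L t) (Gm 𝒟.arm 𝒟.Ω s) (Tt L (t' - a • t)) =
          opr 𝒟.q (Tt L t) (Gm 𝒟.arm 𝒟.Ω s) (Tt L t') +
            (-a) • Res 𝒟 t s := by
        intro s
        have hxe : Tt L (t' - a • t) = Tt L t' + (-a) • Tt L t := by
          rw [Tt_sub, Tt_smul, neg_smul, sub_eq_add_neg]
        rw [hxe, opr_add_right, opr_smul_right]
        rfl
      have e1 : ∀ s, (-a) • C.S1 hq s = -(a • C.S1 hq s) := fun s =>
        LinearMap.ext fun v => Subtype.ext (neg_smul a (C.S1 hq s v : V))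
      have hDd1 : ∀ s,
          C.res hq (opr 𝒟.q (Tt L t) (Gm 𝒟.arm 𝒟.Ω s) (Tt L (t' - a • t))) =
          C.S1 hq s * (D - a • (1 : End L C.V1)) := by
        intro s
        rw [hop, C.res_add, C.res_smul, C.res_S, hD1, mul_sub, mul_smul_comm, mul_one, e1,
          ← sub_eq_add_neg]
      have hDd2 : ∀ s,
          C.res hq (opr 𝒟.q (Tt L t) (Gm 𝒟.arm 𝒟.Ω s) (Tt L (t' - a • t))) =
          (D - a • (1 : End L C.V1)) * C.S1 hq s := by
        intro s
        rw [hop, C.res_add, C.res_smul, C.res_S, hD2, sub_mul, smul_mul_assoc, one_mul, e1,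
          ← sub_eq_add_neg]
      have hnp : ∀ c : Fin 3 → L, IsNilpotent (lc (fun s => opr 𝒟.q (Tt L (t' - a • t))
          (Gm 𝒟.arm 𝒟.Ω s) (Tt L (t' - a • t))) c) := by
        intro c
        refine nilpotent_pair hq h.good.skew hK (hTm _ ht.1) (x := Tt L (t' - a • t))
          (y := Tt L (t' - a • t)) (fun r => ?_) (fun r => ?_) (hTm _ hmem) C ?_ hDd1
          hDd2 hDd1 hDd2 hnil c
        · rw [← Tt_smul]
          exact hTm _ (Submodule.smul_mem _ _ hmem)
        · rw [← Tt_smul, ← Tt_add]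
          exact hTm _ (Submodule.add_mem _ ht.1 (Submodule.smul_mem _ _ hmem))
        · intro r
          rw [← Tt_smul, ← Tt_add]
          exact fun C' => ht.2 _ (Submodule.add_mem _ ht.1 (Submodule.smul_mem _ _ hmem)) C C'
      have h3 := gram_pair h.good h.versal h.semi hmem hmem hnp
      have h4 : t' - a • t ≠ 0 := by
        intro hd
        apply htt'
        rw [sub_eq_zero.mp hd]
        exact Submodule.smul_mem _ _ (Submodule.mem_span_singleton_self t)
      exact h4 (h.noIso _ hmem h3)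
    -- there are at least two eigenvalues
    obtain ⟨a, ha, -⟩ : ∃ a, D.HasEigenvalue a ∧ True := by
      by_contra hcon
      push Not at hcon
      exact key 0 fun μ hμ => absurd trivial (by simpa using hcon μ hμ)
    obtain ⟨b, hb, hab⟩ : ∃ b, D.HasEigenvalue b ∧ a ≠ b := by
      by_contra hcon
      push Not at hcon
      exact key a fun μ hμ => (hcon μ hμ).symm
    -- the dichotomy
    rcases dichotomyC h.good h.versal ht C with hn | hd
    · exact h4 V 𝒟 h t ht hm C (Nat.pos_of_ne_zero h0) t' ht' D hDs hD1 hD2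
        ⟨a, b, hab, ha, hb⟩ hn
    obtain ⟨d, hd⟩ := hd t' ht'
    have hy : t' - d • t ∈ 𝒟.K := Submodule.sub_mem _ ht' (Submodule.smul_mem _ _ ht.1)
    have h1 := h.f1 hy hd
    apply htt'
    rw [sub_eq_zero.mp h1]
    exact Submodule.smul_mem _ _ (Submodule.mem_span_singleton_self t)

/-- the class of factor two -/
theorem critN_of_critD {𝒟 : Cfg L V J} {σ : J → J} (h7 : HypIso.{u, v, w} L J)
    (h : CritD 𝒟 σ) : CritN 𝒟 where
  good := h.good
  versal := h.versal
  rich := h.rich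
  semi := h.semi
  dim := h.dim
  noIso := h7 V 𝒟 σ h

/-- **The critical case of factor two does not occur**, given the null case and LEMMA TWO. -/
theorem critN_two (h4 : HypNull4.{u, v, w} L J) (hR : HypGenT.{u, v, w} L J)
    (h2 : HypTwo.{u, v, w} L J) (𝒟 : Cfg L V J) (σ : J → J) : ¬ B1.Crit.{u, v, w} 𝒟 σ := by
  intro hB
  refine not_critN h4 hR 𝒟 (critN_of_critD ?_ (critD_of_crit hB))
  intro V _ _ _ 𝒟 σ h x hx hxx
  rcases h2 V 𝒟 σ h x hx x hx hxx with h | h <;> exact h

end main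

end Vale.Agent.P182.H922
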