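import Vale.Agent.P182.H55.Solv
import Vale.Agent.P182.H181.Second

/-!
# The auxiliary family of a family of self-adjoint operators

If `q (t l) (r k) = q (r l) (t k)` and `opr t G_a r - opr r G_a t = K_a` with `K_a V ⊆ W`,
`K_a W ⊆ I`, then `r` is, on the core, the image of `t` under an operator which commutes with
the residues modulo `I`.
-/

namespace Vale.Agent.P182.H922.S2

open Module Matrix Vale.Agent.P182.H533 Vale.Agent.P182.B1 Vale.Agent.P182.H922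
  Vale.Agent.P182.H578 Vale.Agent.P182.H181

variable {L V J : Type*} [Field L] [AddCommGroup V] [Module L V] [Fintype J] [DecidableEq J]
  {𝒟 : Cfg L V J}

omit [DecidableEq J] in
theorem q_Tt (t r : J → V) (h : ∀ l k, 𝒟.q (t l) (r k) = 𝒟.q (r l) (t k)) (l : J) (x : J → L) :
    𝒟.q (t l) (Tt L r x) = 𝒟.q (r l) (Tt L t x) := by
  rw [Tt_apply, Tt_apply, map_sum, map_sum]
  exact Finset.sum_congr rfl fun k _ => by rw [map_smul, map_smul, h]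

/-- `r^* S_a = t^* X_a` -/
theorem q_Res (t r : J → V) (h : ∀ l k, 𝒟.q (t l) (r k) = 𝒟.q (r l) (t k)) (l : J) (a : Fin 3)
    (v : V) : 𝒟.q (r l) (Res 𝒟 t a v) =
      𝒟.q (t l) (opr 𝒟.q (Tt L r) (Gm 𝒟.arm 𝒟.Ω a) (Tt L t) v) := by
  rw [opr_apply, q_Tt t r h]
  rfl

/-- vectors orthogonal to `t` are killed by the residues -/
theorem Res_eq_zero (hG : 𝒟.Good) {t : J → V} {z : V} (h : ∀ l, 𝒟.q (t l) z = 0) (a : Fin 3) :
    Res 𝒟 t a z = 0 := by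
  have h1 : ∀ l, 𝒟.q (𝒟.om t l) z = 0 := by
    intro l
    simp only [Cfg.om, map_sum, map_smul, LinearMap.sum_apply, LinearMap.smul_apply, h,
      smul_zero, Finset.sum_const_zero]
  rw [Res_apply 𝒟 hG.skew]
  exact Finset.sum_eq_zero fun l _ => by rw [h, h1, zero_smul, zero_smul, add_zero]

variable [FiniteDimensional L V]

/-- **The analysis of the auxiliary family.** -/
theorem relG_of (hG : 𝒟.Good) {t r : J → V} (C : Core 𝒟.q (Res 𝒟 t)) {K : Fin 3 → End L V}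
    (F1 : ∀ l k, 𝒟.q (t l) (r k) = 𝒟.q (r l) (t k))
    (F2 : ∀ a, opr 𝒟.q (Tt L t) (Gm 𝒟.arm 𝒟.Ω a) (Tt L r) -
      opr 𝒟.q (Tt L r) (Gm 𝒟.arm 𝒟.Ω a) (Tt L t) = K a)
    (hKW : ∀ a, ∀ w ∈ C.W, K a w ∈ C.W) (hKI : ∀ a, ∀ w ∈ C.W, K a w ∈ C.I) :
    ∃ Γ : End L V, RelG 𝒟 C.W C.I t Γ r ∧ ∀ a, ∀ w ∈ C.W,
      opr 𝒟.q (Tt L r) (Gm 𝒟.arm 𝒟.Ω a) (Tt L t) w = Res 𝒟 t a (Γ w) - K a w := by
  obtain ⟨ξ, hξ1, hξ2⟩ := H55.exists_section C
  have hq : IsForm 𝒟.q := hG.form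
  have hSA : ∀ s, IsSA 𝒟.q (Res 𝒟 t s) := Sop_SA 𝒟.arm hq (Tt L t) hG.skew
  set X : Fin 3 → End L V := fun a => opr 𝒟.q (Tt L r) (Gm 𝒟.arm 𝒟.Ω a) (Tt L t) with hX
  set Γ : End L V := ∑ a, X a * ξ a with hΓ
  have hΓa : ∀ w, Γ w = ∑ a, X a (ξ a w) := fun w => by
    rw [hΓ, LinearMap.sum_apply]; rfl
  -- the first condition
  have one : ∀ w ∈ C.W, ∀ l, 𝒟.q (r l) w = 𝒟.q (t l) (Γ w) := by
    intro w hw l
    conv_lhs => rw [← hξ2 w hw]
    rw [map_sum, hΓa, map_sum]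
    exact Finset.sum_congr rfl fun a _ => q_Res t r F1 l a _
  have oneo : ∀ w ∈ C.W, ∀ l, 𝒟.q w (r l) = 𝒟.q (Γ w) (t l) := by
    intro w hw l
    rw [hq.symm, one w hw, hq.symm]
  -- `X_a = S_a Γ - K_a` on `W`
  have two : ∀ a, ∀ w ∈ C.W, X a w = Res 𝒟 t a (Γ w) - K a w := by
    intro a w hw
    have h1 : opr 𝒟.q (Tt L t) (Gm 𝒟.arm 𝒟.Ω a) (Tt L r) w = Res 𝒟 t a (Γ w) :=
      opr_congr hG (oneo w hw) t a
    rw [← F2 a, LinearMap.sub_apply, h1]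
    abel
  -- `Γ` preserves `W`
  have hS : ∀ a, ∀ w ∈ C.W, Res 𝒟 t a w ∈ C.W := fun a w hw => C.map_W hw
  have mapW : ∀ w ∈ C.W, Γ w ∈ C.W := by
    have key : ∀ n, ∀ w ∈ C.W, Γ w ∈ C.W ⊔ words (Res 𝒟 t) n := by
      intro n
      induction n with
      | zero => exact fun w _ => Submodule.mem_sup_right trivial
      | succ n ih =>
        intro w hw
        rw [hΓa]
        refine sum_mem fun a _ => ?_
        rw [two a _ (hξ1 a w hw)]
        refine sub_mem ?_ (Submodule.mem_sup_left (hKW a _ (hξ1 a w hw)))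
        obtain ⟨y, hy, z, hz, hyz⟩ := Submodule.mem_sup.mp (ih _ (hξ1 a w hw))
        rw [← hyz, map_add]
        refine add_mem (Submodule.mem_sup_left (hS a y hy)) (Submodule.mem_sup_right ?_)
        rw [words_succ]
        exact Submodule.mem_iSup_of_mem a (Submodule.mem_map_of_mem hz)
    intro w hw
    have h1 := key C.N w hw
    rwa [← C.hN, sup_idem] at h1
  have hIof : ∀ x ∈ C.W, (∀ w ∈ C.W, 𝒟.q x w = 0) → x ∈ C.I := by
    intro x hx h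
    exact ⟨hx, fun w hw => h w hw⟩
  have hI0 : ∀ x ∈ C.I, ∀ w ∈ C.W, 𝒟.q x w = 0 := fun x hx w hw => hx.2 w hw
  have hWsup : ∀ x, (∀ a, ∀ w ∈ C.W, 𝒟.q x (Res 𝒟 t a w) = 0) → ∀ w ∈ C.W, 𝒟.q x w = 0 := by
    intro x h w hw
    rw [← hξ2 w hw, map_sum]
    exact Finset.sum_eq_zero fun a _ => h a _ (hξ1 a w hw)
  -- `X_a = Γ S_a` mod `I`
  have three : ∀ a, ∀ w ∈ C.W, X a w - Γ (Res 𝒟 t a w) ∈ C.I := by
    intro a w hw
    have hXW : X a w ∈ C.W := by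
      rw [two a w hw]
      exact sub_mem (hS a _ (mapW w hw)) (hKW a w hw)
    refine hIof _ (sub_mem hXW (mapW _ (hS a w hw))) (hWsup _ fun b w' hw' => ?_)
    have h1 : ∀ l, 𝒟.q (t l) (X a w - Γ (Res 𝒟 t a w)) = 0 := by
      intro l
      rw [map_sub, ← one _ (hS a w hw), q_Res t r F1, sub_self]
    rw [← hSA b, Res_eq_zero hG h1, map_zero, LinearMap.zero_apply]
  have comm : ∀ a, ∀ w ∈ C.W, Γ (Res 𝒟 t a w) - Res 𝒟 t a (Γ w) ∈ C.I := by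
    intro a w hw
    have h1 := three a w hw
    rw [two a w hw] at h1
    have := neg_mem (add_mem h1 (hKI a w hw))
    convert this using 1
    abel
  -- self-adjointness
  have hadj : ∀ a u v, 𝒟.q (X a u) v =
      𝒟.q u (opr 𝒟.q (Tt L t) (Gm 𝒟.arm 𝒟.Ω a) (Tt L r) v) := by
    intro a u v
    rw [hX, opr_adj hq, Gm_transpose _ hG.skew]
  have sa : ∀ u ∈ C.W, ∀ v ∈ C.W, 𝒟.q (Γ u) v = 𝒟.q u (Γ v) := by
    intro u hu v hv
    have h1 : ∀ a, 𝒟.q (Γ u) (Res 𝒟 t a (ξ a v)) = 𝒟.q u (X a (ξ a v)) := by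
      intro a
      have hv' := hξ1 a v hv
      rw [← hSA a, hq.symm, hq.symm u, hadj]
      have e : opr 𝒟.q (Tt L t) (Gm 𝒟.arm 𝒟.Ω a) (Tt L r) u = Res 𝒟 t a (Γ u) :=
        opr_congr hG (oneo u hu) t a
      rw [e]
    conv_lhs => rw [← hξ2 v hv]
    rw [map_sum, hΓa v, map_sum]
    exact Finset.sum_congr rfl fun a _ => h1 a
  refine ⟨Γ, ⟨mapW, fun u hu => ?_, sa, comm, oneo, fun a u hu => ?_⟩, two⟩
  · refine hIof _ (mapW u (C.I_le hu)) fun w hw => ?_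
    rw [sa u (C.I_le hu) w hw]
    exact hI0 u hu _ (mapW w hw)
  · have h1 := two a u hu
    have : X a u - Res 𝒟 t a (Γ u) ∈ C.I := by
      rw [h1]
      have := neg_mem (hKI a u hu)
      convert this using 1
      abel
    exact this

end Vale.Agent.P182.H922.S2
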