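import Vale.Agent.P182.H922.BlkC
import Vale.Agent.P182.H922.S2
import Vale.Agent.P182.H532.GSurjC

/-!
# Row (S): self-adjoint families in `W ⊗ W` which commute with the residues modulo `I`
-/

namespace Vale.Agent.P182.H922.S2

open Module Matrix Vale.Agent.P182.H533 Vale.Agent.P182.B1 Vale.Agent.P182.H922
  Vale.Agent.P182.H578 Vale.Agent.P182.H588 Vale.Agent.P182.H181 Vale.Agent.P182.H983

universe u v w

variable {L : Type u} {V : Type v} {J : Type w} [Field L] [AddCommGroup V] [Module L V]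
  [Fintype J] [DecidableEq J] {𝒟 : Cfg L V J} {u : J → L} {t t' : J → V}
  {W I : Submodule L V} {n : ℕ} {U : Fin n → Submodule L V} {d : Fin n → L} {p : Fin 3 → ℕ}
  [FiniteDimensional L V]

/-- the commutants at `t_μ` and at `t` agree modulo `I` -/
def Cen (𝒟 : Cfg L V J) (t t' : J → V) (W I : Submodule L V) (x y : L) : Prop :=
  ∀ M : End L V, (∀ w ∈ W, M w ∈ W) → (∀ w ∈ I, M w ∈ I) →
    (∀ a, ∀ w ∈ W, M (Res 𝒟 (tm t t' x y) a w) - Res 𝒟 (tm t t' x y) a (M w) ∈ I) →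
    ∀ a, ∀ w ∈ W, M (Res 𝒟 t a w) - Res 𝒟 t a (M w) ∈ I

/-- induction over the blocks -/
theorem blk_ind (B : Blk 𝒟 u t t' W I U d p) {f g : End L V}
    (h : ∀ k, ∀ w ∈ U k, f w - g w ∈ I) {w : V} (hw : w ∈ W) : f w - g w ∈ I := by
  have hw' : w ∈ ⨆ k, U k := by rw [B.supU]; exact hw
  refine Submodule.iSup_induction U (motive := fun w => f w - g w ∈ I) hw' h ?_ ?_
  · rw [map_zero, map_zero, sub_zero]; exact zero_mem _
  · intro v w hv hw
    have := add_mem hv hw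
    rw [map_add, map_add]
    convert this using 1
    abel

/-- **Base change**: the class `RelG` at `t_μ` and at `t`. -/
theorem relG_down (B : Blk 𝒟 u t t' W I U d p) (hC : Ctx 𝒟 u) {x y : L}
    (hu : ∀ k, x + y * d k ≠ 0) (hcen : Cen 𝒟 t t' W I x y) {r : J → V} {Γ : End L V}
    (h : RelG 𝒟 W I (tm t t' x y) Γ r) :
    ∃ (Γ' : End L V) (c : Fin n → L), RelG 𝒟 W I t Γ' r ∧
      (∀ k, ∀ w ∈ U k, Γ w - c k • w ∈ I) ∧
      (∀ k, ∀ w ∈ U k, Γ' w - ((x + y * d k) * c k) • w ∈ I) ∧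
      ∀ k, ∀ w ∈ U k, Γ' w - (x + y * d k) • Γ w ∈ I := by
  classical
  have hG := hC.good
  have hq : IsForm 𝒟.q := hG.form
  obtain ⟨σ, hσ1, hσ2⟩ := exists_dec B
  -- the commutant at `t`
  have hcomm := hcen Γ h.mapW h.mapI h.comm
  obtain ⟨c, hc⟩ := B.scal Γ h.mapW h.mapI h.sa hcomm
  set E : End L V := ∑ k, (x + y * d k) • σ k with hE
  have hEa : ∀ w, E w = ∑ k, (x + y * d k) • σ k w := fun w => by
    rw [hE, LinearMap.sum_apply]; rfl
  have hEW : ∀ w, E w ∈ W := fun w => by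
    rw [hEa]
    exact sum_mem fun k _ => Submodule.smul_mem _ _ (U_le B k (hσ1 k w))
  have hEI : ∀ w ∈ I, E w ∈ I := fun w hw => by
    rw [hEa]
    exact sum_mem fun k _ => Submodule.smul_mem _ _ (dec_I' B hG hσ1 hσ2 hw k)
  have hEU : ∀ k, ∀ w ∈ U k, E w - (x + y * d k) • w ∈ I := by
    intro k w hw
    have e1 : E w - (x + y * d k) • w =
        ∑ j, (x + y * d j) • (σ j w - (if j = k then w else 0)) := by
      have e2 : ∑ j, (x + y * d j) • (if j = k then w else 0) = (x + y * d k) • w := by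
        rw [Finset.sum_eq_single k]
        · rw [if_pos rfl]
        · intro j _ hj
          rw [if_neg hj, smul_zero]
        · intro hk; exact absurd (Finset.mem_univ _) hk
      rw [hEa, ← e2, ← Finset.sum_sub_distrib]
      exact Finset.sum_congr rfl fun j _ => (smul_sub _ _ _).symm
    rw [e1]
    exact sum_mem fun j _ => Submodule.smul_mem _ _ (dec_I B hG hσ1 hσ2 hw j)
  -- `t_μ^* = t^* E` on `W`
  have hEt : ∀ w ∈ W, ∀ l, 𝒟.q w (tm t t' x y l) = 𝒟.q (E w) (t l) := by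
    intro w hw l
    have e1 : 𝒟.q w (tm t t' x y l) = ∑ k, 𝒟.q (σ k w) (tm t t' x y l) := by
      conv_lhs => rw [← hσ2 w hw]
      rw [map_sum, LinearMap.sum_apply]
    rw [e1, hEa, map_sum, LinearMap.sum_apply]
    exact Finset.sum_congr rfl fun k _ => star_tm' B hG x y (hσ1 k w) l
  set Γ' : End L V := E * Γ with hΓ'
  have hΓ'a : ∀ w, Γ' w = E (Γ w) := fun w => rfl
  have h3 : ∀ k, ∀ w ∈ U k, Γ' w - (x + y * d k) • Γ w ∈ I := by
    intro k w hw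
    have e1 := hc k w hw
    have e2 := hEI _ e1
    have e3 := Submodule.smul_mem I (c k) (hEU k w hw)
    have e4 := Submodule.smul_mem I (x + y * d k) e1
    have := sub_mem (add_mem e2 e3) e4
    rw [hΓ'a]
    convert this using 1
    simp only [map_sub, map_smul]
    module
  have h2 : ∀ k, ∀ w ∈ U k, Γ' w - ((x + y * d k) * c k) • w ∈ I := by
    intro k w hw
    have e4 := Submodule.smul_mem I (x + y * d k) (hc k w hw)
    have := add_mem (h3 k w hw) e4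
    convert this using 1
    rw [smul_sub, smul_smul]
    abel
  have mapW : ∀ w ∈ W, Γ' w ∈ W := fun w _ => hEW _
  have mapI : ∀ w ∈ I, Γ' w ∈ I := fun w hw => hEI _ (h.mapI w hw)
  have hq0 : ∀ {a b : V}, a - b ∈ I → ∀ w ∈ W, 𝒟.q a w = 𝒟.q b w := by
    intro a b hab w hw
    have := I_perp B hab hw
    rwa [map_sub, LinearMap.sub_apply, sub_eq_zero] at this
  refine ⟨Γ', c, ⟨mapW, mapI, ?_, ?_, ?_, ?_⟩, hc, h2, h3⟩
  · -- self-adjointness
    intro v hv w hw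
    have e1 : ∀ i j, ∀ v ∈ U i, ∀ w ∈ U j, 𝒟.q (Γ' v) w = 𝒟.q v (Γ' w) := by
      intro i j v hv w hw
      rw [hq0 (h2 i v hv) w (U_le B j hw), hq.symm v, hq0 (h2 j w hw) v (U_le B i hv),
        map_smul, map_smul, LinearMap.smul_apply, LinearMap.smul_apply, hq.symm w]
      by_cases hij : i = j
      · rw [hij]
      · rw [B.ortho i j hij v hv w hw, smul_zero, smul_zero]
    have hv' : v ∈ ⨆ k, U k := by rw [B.supU]; exact hv
    have hw' : w ∈ ⨆ k, U k := by rw [B.supU]; exact hw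
    refine Submodule.iSup_induction U (motive := fun v => 𝒟.q (Γ' v) w = 𝒟.q v (Γ' w)) hv'
      (fun i v hv => ?_) ?_ ?_
    · refine Submodule.iSup_induction U (motive := fun w => 𝒟.q (Γ' v) w = 𝒟.q v (Γ' w)) hw'
        (fun j w hw => e1 i j v hv w hw) ?_ ?_
      · rw [map_zero, map_zero, map_zero]
      · intro a b ha hb
        rw [map_add, map_add, map_add, ha, hb]
    · rw [map_zero, map_zero, LinearMap.zero_apply, LinearMap.zero_apply]
    · intro a b ha hb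
      rw [map_add, map_add, map_add, LinearMap.add_apply, LinearMap.add_apply, ha, hb]
  · -- commutation
    intro a w hw
    refine blk_ind B (f := Γ' * Res 𝒟 t a) (g := Res 𝒟 t a * Γ') (fun k w hw => ?_) hw
    have e1 := h3 k _ (Res_U B k a hw)
    have e2 := Res_I B hG a (h3 k w hw)
    have e3 := Submodule.smul_mem I (x + y * d k) (hcomm a w (U_le B k hw))
    have := add_mem (sub_mem e1 e2) e3
    rw [Module.End.mul_apply, Module.End.mul_apply]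
    convert this using 1
    simp only [map_sub, map_smul, smul_sub]
    abel
  · -- the first condition
    intro w hw l
    rw [h.one w hw l, hEt _ (h.mapW w hw)]
    rfl
  · -- the second condition
    intro a w hw
    refine blk_ind B (f := opr 𝒟.q (Tt L r) (Gm 𝒟.arm 𝒟.Ω a) (Tt L t))
      (g := Res 𝒟 t a * Γ') (fun k w hw => ?_) hw
    have hwW := U_le B k hw
    have e1 := h.two a w hwW
    rw [opr_tm B hG x y r a hw] at e1
    -- `S_a(μ) Γ w = u_k² S_a Γ w`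
    have e2 : Res 𝒟 (tm t t' x y) a (Γ w) - (x + y * d k) ^ 2 • Res 𝒟 t a (Γ w) ∈ I := by
      have f1 := hc k w hw
      have f2 := Res_tm_I B hC hu a f1
      have f3 := Submodule.smul_mem I ((x + y * d k) ^ 2) (Res_I B hG a f1)
      have := sub_mem f2 f3
      convert this using 1
      simp only [map_sub, map_smul, Res_tm B hC x y a hw, smul_sub]
      rw [smul_comm (c k)]
      abel
    have e3 := Submodule.smul_mem I (x + y * d k)⁻¹ (add_mem e1 e2)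
    have e4 := Res_I B hG a (h3 k w hw)
    have e5 : (x + y * d k)⁻¹ • (((x + y * d k) •
        opr 𝒟.q (Tt L r) (Gm 𝒟.arm 𝒟.Ω a) (Tt L t) w - Res 𝒟 (tm t t' x y) a (Γ w)) +
        (Res 𝒟 (tm t t' x y) a (Γ w) - (x + y * d k) ^ 2 • Res 𝒟 t a (Γ w))) =
        opr 𝒟.q (Tt L r) (Gm 𝒟.arm 𝒟.Ω a) (Tt L t) w -
          (x + y * d k) • Res 𝒟 t a (Γ w) := by
      rw [sub_add_sub_cancel, smul_sub, smul_smul, smul_smul, inv_mul_cancel₀ (hu k), one_smul,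
        sq, inv_mul_cancel_left₀ (hu k)]
    rw [e5] at e3
    have := sub_mem e3 e4
    rw [Module.End.mul_apply]
    convert this using 1
    simp only [map_sub, map_smul]
    abel

/-- **Row (S), with the witness.** -/
theorem rowS_wit (h2 : (2 : L) ≠ 0) (B : Blk 𝒟 u t t' W I U d p) (hC : Ctx 𝒟 u)
    (hM : MaxCoreU 𝒟 u t) {x y : L} (hu : ∀ k, x + y * d k ≠ 0)
    (hcen : Cen 𝒟 t t' W I x y) {β : Fin 3 → End L V} (hβT : ∀ a, β a ∈ Ten 𝒟.q W W)
    (hβ : ∀ a, IsSA 𝒟.q (β a))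
    (hβc : ∀ a, ∀ w ∈ W, β a (Res 𝒟 (tm t t' x y) a w) -
      Res 𝒟 (tm t t' x y) a (β a w) ∈ I)
    (hsum : ∑ a, (Res 𝒟 (tm t t' x y) a * β a - β a * Res 𝒟 (tm t t' x y) a) = 0) :
    ∃ r ∈ Uu V u, InN 𝒟 (fam 𝒟 (tm t t' x y) β) r ∧
      (∀ l k, 𝒟.q (tm t t' x y l) (r k) = 𝒟.q (r l) (tm t t' x y k)) ∧
      (∀ a, opr 𝒟.q (Tt L (tm t t' x y)) (Gm 𝒟.arm 𝒟.Ω a) (Tt L r) -
        opr 𝒟.q (Tt L r) (Gm 𝒟.arm 𝒟.Ω a) (Tt L (tm t t' x y)) =
          Res 𝒟 (tm t t' x y) a * β a - β a * Res 𝒟 (tm t t' x y) a) ∧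
      ∃ (Γ Γ' : End L V) (c : Fin n → L), RelG 𝒟 W I (tm t t' x y) Γ r ∧
        RelG 𝒟 W I t Γ' r ∧
        (∀ a, ∀ w ∈ W, opr 𝒟.q (Tt L r) (Gm 𝒟.arm 𝒟.Ω a) (Tt L (tm t t' x y)) w =
          Res 𝒟 (tm t t' x y) a (Γ w) - (Res 𝒟 (tm t t' x y) a (β a w) -
            β a (Res 𝒟 (tm t t' x y) a w))) ∧
        (∀ k, ∀ w ∈ U k, Γ w - c k • w ∈ I) ∧
        (∀ k, ∀ w ∈ U k, Γ' w - ((x + y * d k) * c k) • w ∈ I) ∧
        ∀ k, ∀ w ∈ U k, Γ' w - (x + y * d k) • Γ w ∈ I := by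
  have hG := hC.good
  have hq : IsForm 𝒟.q := hG.form
  obtain ⟨C, hCW, hCI⟩ := core_tm B hC hM hu
  have hSA := Res_SA hG (𝒟 := 𝒟) (tm t t' x y)
  have hI0 : ∀ a, ∀ w ∈ C.I, β a w ∈ C.I := by
    intro a w hw
    refine ⟨hCW ▸ (hβT a).1 w, fun v _ => ?_⟩
    rw [hβ]
    exact hw.2 _ (hCW ▸ (hβT a).1 v)
  obtain ⟨r, hr, h1, h3, h4⟩ := SPIN.gsurj_core h2 hC (tm_mem B x y) C hβ
    (fun s v => hCW ▸ (hβT s).1 v) hsum (fun s => by
      refine bar_ext hq C fun w hw => ?_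
      have e1 : ∀ w ∈ C.W, C.S1 hq s (C.P hq w) = C.P hq (Res 𝒟 (tm t t' x y) s w) :=
        fun w hw => (C.P_S hq (hSA) s (C.W_le_perp hq hw)).symm
      have e2 : ∀ w ∈ C.W, C.res hq (β s) (C.P hq w) = C.P hq (β s w) :=
        fun w hw => bar_apply hq C (hI0 s) hw
      have hwS : Res 𝒟 (tm t t' x y) s w ∈ C.W := C.map_W hw
      have hwβ : β s w ∈ C.W := hCW ▸ (hβT s).1 w
      rw [Module.End.mul_apply, Module.End.mul_apply, e1 w hw, e2 _ hwS, e2 w hw, e1 _ hwβ]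
      have e3 := P_W hq C (hCI ▸ hβc s w (hCW ▸ hw))
      rwa [map_sub, sub_eq_zero] at e3)
  have h5 : ∀ a, opr 𝒟.q (Tt L (tm t t' x y)) (Gm 𝒟.arm 𝒟.Ω a) (Tt L r) -
      opr 𝒟.q (Tt L r) (Gm 𝒟.arm 𝒟.Ω a) (Tt L (tm t t' x y)) =
        Res 𝒟 (tm t t' x y) a * β a - β a * Res 𝒟 (tm t t' x y) a := by
    intro a
    refine LinearMap.ext fun v => hq.ext fun w => ?_
    have e1 := h3 a v w
    have e2 : 𝒟.q (opr 𝒟.q (Tt L r) (Gm 𝒟.arm 𝒟.Ω a) (Tt L (tm t t' x y)) v) w =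
        𝒟.q v (opr 𝒟.q (Tt L (tm t t' x y)) (Gm 𝒟.arm 𝒟.Ω a) (Tt L r) w) := by
      rw [opr_adj hq, Gm_transpose _ hG.skew]
    have e3 := hβ a (Res 𝒟 (tm t t' x y) a v) w
    have e4 := hSA a v (β a w)
    simp only [LinearMap.sub_apply, Module.End.mul_apply, map_sub] at e1 ⊢
    linear_combination e1 - e2 + e3 + e4
  obtain ⟨Γ, hΓ, hΓ2⟩ := relG_of hG C h1 h5
    (fun a w hw => by
      rw [LinearMap.sub_apply, Module.End.mul_apply, Module.End.mul_apply]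
      exact sub_mem (C.map_W (hCW ▸ (hβT a).1 w)) (hCW ▸ (hβT a).1 _))
    (fun a w hw => by
      rw [LinearMap.sub_apply, Module.End.mul_apply, Module.End.mul_apply, hCI]
      have := neg_mem (hβc a w (hCW ▸ hw))
      rwa [neg_sub] at this)
  rw [hCW, hCI] at hΓ
  obtain ⟨Γ', c, g1, g2, g3, g4⟩ := relG_down B hC hu hcen hΓ
  refine ⟨r, hr, h4, h1, h5, Γ, Γ', c, hΓ, g1, fun a w hw => ?_, g2, g3, g4⟩
  exact hΓ2 a w (hCW ▸ hw)

/-- **Row (S).** -/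
theorem rowS (h2 : (2 : L) ≠ 0) (B : Blk 𝒟 u t t' W I U d p) (hC : Ctx 𝒟 u)
    (hM : MaxCoreU 𝒟 u t) {x y : L} (hu : ∀ k, x + y * d k ≠ 0)
    (hcen : Cen 𝒟 t t' W I x y) : RowS 𝒟 u t t' W I x y := by
  intro β hβT hβ hβc hsum
  obtain ⟨r, hr, h1, -, -, -, Γ', -, -, h6, -⟩ := rowS_wit h2 B hC hM hu hcen hβT hβ hβc hsum
  exact ⟨r, hr, ⟨Γ', h6⟩, h1⟩

/-- **Row (S) off finitely many lines.** -/
theorem exists_rowS (h2 : (2 : L) ≠ 0) (B : Blk 𝒟 u t t' W I U d p) (hC : Ctx 𝒟 u)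
    (hM : MaxCoreU 𝒟 u t) :
    ∃ F : Set (L × L), F.Finite ∧ (∀ b ∈ F, b ≠ 0) ∧ ∀ x y : L,
      (∀ b ∈ F, b.1 * x + b.2 * y ≠ 0) → (∀ k, x + y * d k ≠ 0) ∧ Cen 𝒟 t t' W I x y ∧
      RowS 𝒟 u t t' W I x y := by
  obtain ⟨F, h1, h3, h4⟩ := exists_lines B hC
  refine ⟨F, h1, h3, fun x y hxy => ?_⟩
  obtain ⟨hu, h5⟩ := h4 x y hxy
  have hcen : Cen 𝒟 t t' W I x y := fun M m1 m2 m3 => (h5 M m1 m2 m3).1
  exact ⟨hu, hcen, rowS h2 B hC hM hu hcen⟩

end Vale.Agent.P182.H922.S2
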