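import Vale.Agent.P182.H664.Lang
import Vale.Agent.P182.H887.Perp
import Mathlib.LinearAlgebra.Matrix.Polynomial
import Mathlib.LinearAlgebra.Basis.VectorSpace
import Mathlib.FieldTheory.IsAlgClosed.Basic

/-!
# The generic extension of a flag

If the flag of an arm of a good, versal and rich configuration does not end with a maximal
isotropic subspace, then it can be extended such that the configuration stays good, versal and
rich.
-/

namespace Vale.Agent.P182.H922

open Module Matrix Vale.Agent.P182.H533 Vale.Agent.P182.B1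

section poly

variable {L V : Type*} [Field L] [AddCommGroup V] [Module L V]

/-- linear independence at `0` implies linear independence at some positive integer -/
theorem exists_linIndep [CharZero L] {n : ℕ} {u0 : Fin n → V} (hu : LinearIndependent L u0)
    (u1 u2 : Fin n → V) : ∃ b : ℕ, b ≠ 0 ∧
      LinearIndependent L (fun j => u0 j + (b • u1 j + (b * b) • u2 j)) := by
  classical
  have hinj : Function.Injective (Fintype.linearCombination L u0) := by
    rw [← LinearMap.ker_eq_bot, LinearMap.ker_eq_bot']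
    intro a ha
    rw [Fintype.linearCombination_apply] at ha
    exact funext (Fintype.linearIndependent_iff.mp hu a ha)
  obtain ⟨π, hπ⟩ := LinearMap.exists_leftInverse_of_injective (Fintype.linearCombination L u0)
    (LinearMap.ker_eq_bot.mpr hinj)
  have hπ0 : ∀ j, π (u0 j) = Pi.single j 1 := by
    intro j
    have h1 := LinearMap.congr_fun hπ (Pi.single j 1)
    rw [LinearMap.comp_apply, LinearMap.id_apply, Fintype.linearCombination_apply_single,
      one_smul] at h1
    exact h1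
  -- the matrices
  let A1 : Matrix (Fin n) (Fin n) L := Matrix.of fun j k => π (u1 j) k
  let A2 : Matrix (Fin n) (Fin n) L := Matrix.of fun j k => π (u2 j) k
  let M : Matrix (Fin n) (Fin n) (Polynomial L) :=
    1 + ((Polynomial.X : Polynomial L) • A1.map Polynomial.C +
      ((Polynomial.X * Polynomial.X : Polynomial L)) • A2.map Polynomial.C)
  have hev : ∀ x : L, M.det.eval x = (1 + (x • A1 + (x * x) • A2)).det := by
    intro x
    rw [← Polynomial.coe_evalRingHom, RingHom.map_det]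
    congr 1
    ext i j
    simp only [M, RingHom.mapMatrix_apply, Matrix.map_apply, Matrix.add_apply, Matrix.smul_apply,
      smul_eq_mul, Polynomial.coe_evalRingHom, Polynomial.eval_add, Polynomial.eval_mul,
      Polynomial.eval_X, Polynomial.eval_C, Matrix.one_apply]
    split_ifs <;> simp
  have hne : M.det ≠ 0 := by
    intro h0
    have h1 := hev 0
    rw [h0, Polynomial.eval_zero] at h1
    simp at h1
  obtain ⟨b, hb⟩ : ∃ b : ℕ, (b : L) ∉ ((M.det * Polynomial.X).roots.toFinset : Set L) := by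
    have hfin : (((M.det * Polynomial.X).roots.toFinset : Set L)).Finite := Finset.finite_toSet _
    by_contra hcon
    push Not at hcon
    exact Set.infinite_of_injective_forall_mem (Nat.cast_injective (R := L)) hcon hfin
  have hp0 : M.det * Polynomial.X ≠ 0 := mul_ne_zero hne Polynomial.X_ne_zero
  have hb' : ¬ (M.det * Polynomial.X).IsRoot (b : L) := by
    intro h
    apply hb
    simp only [Finset.mem_coe, Multiset.mem_toFinset]
    exact (Polynomial.mem_roots hp0).mpr h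
  rw [Polynomial.IsRoot.def, Polynomial.eval_mul, Polynomial.eval_X, mul_eq_zero, not_or] at hb'
  refine ⟨b, fun h => hb'.2 (by rw [h, Nat.cast_zero]), ?_⟩
  have hdet := hb'.1
  rw [hev] at hdet
  rw [Fintype.linearIndependent_iff]
  intro a ha
  have h1 : a ᵥ* (1 + ((b : L) • A1 + ((b : L) * b) • A2)) = 0 := by
    funext k
    have h2 := congrFun (congrArg π ha) k
    rw [map_sum, map_zero, Pi.zero_apply, Finset.sum_apply] at h2
    rw [Pi.zero_apply, ← h2, Matrix.vecMul, dotProduct]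
    refine Finset.sum_congr rfl fun j _ => ?_
    rw [map_smul, map_add, map_add, hπ0, map_nsmul, map_nsmul, Pi.smul_apply, smul_eq_mul,
      Pi.add_apply, Pi.add_apply, Pi.smul_apply, Pi.smul_apply, nsmul_eq_mul, nsmul_eq_mul,
      Matrix.add_apply, Matrix.add_apply, Matrix.smul_apply, Matrix.smul_apply, smul_eq_mul,
      smul_eq_mul, Matrix.one_apply, Pi.single_apply, Nat.cast_mul]
    simp only [eq_comm, A1, A2, Matrix.of_apply]
  have h2 := Matrix.eq_zero_of_vecMul_eq_zero hdet h1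
  intro i
  rw [h2]; rfl

end poly

section conn

variable {L V : Type*} [Field L] [AddCommGroup V] [Module L V] {q : V →ₗ[L] V →ₗ[L] L}

/-- `a c + b c'` -/
def ccomb (a : L) (c : Conn q) (b : L) (c' : Conn q) : Conn q where
  d := { toFun := fun x => a * c.d x + b * c'.d x
         map_zero' := by simp
         map_add' := fun x y => by rw [map_add, map_add]; ring }
  δ := { toFun := fun v => a • c.δ v + b • c'.δ v
         map_zero' := by simp
         map_add' := fun x y => by rw [map_add, map_add, smul_add, smul_add]; abel }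
  leib := fun x y => by
    show a * c.d (x * y) + b * c'.d (x * y) =
      (a * c.d x + b * c'.d x) * y + x * (a * c.d y + b * c'.d y)
    rw [c.leib, c'.leib]; ring
  smul := fun x v => by
    show a • c.δ (x • v) + b • c'.δ (x • v) =
      (a * c.d x + b * c'.d x) • v + x • (a • c.δ v + b • c'.δ v)
    rw [c.smul, c'.smul]; module
  metric := fun u v => by
    show a * c.d (q u v) + b * c'.d (q u v) =
      q (a • c.δ u + b • c'.δ u) v + q u (a • c.δ v + b • c'.δ v)
    rw [c.metric, c'.metric]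
    simp only [map_add, map_smul, LinearMap.add_apply, LinearMap.smul_apply, smul_eq_mul]
    ring

theorem ccomb_d (a : L) (c : Conn q) (b : L) (c' : Conn q) (x : L) :
    (ccomb a c b c').d x = a * c.d x + b * c'.d x := rfl

theorem ccomb_δ (a : L) (c : Conn q) (b : L) (c' : Conn q) (v : V) :
    (ccomb a c b c').δ v = a • c.δ v + b • c'.δ v := rfl

/-- the zero connection -/
def czero (q : V →ₗ[L] V →ₗ[L] L) : Conn q where
  d := 0
  δ := 0
  leib := fun a b => by simp
  smul := fun a v => by simp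
  metric := fun u v => by simp

end conn

section ext

variable {L V J : Type*} [Field L] [AddCommGroup V] [Module L V] {𝒟 : Cfg L V J}

/-- the connections preserving the configuration -/
def IsD (𝒟 : Cfg L V J) (c : Conn 𝒟.q) : Prop :=
  (∀ s i, ∀ v ∈ 𝒟.F s i, c.δ v ∈ 𝒟.F s i) ∧ ∀ l k, c.d (𝒟.Ω l k) = 0

theorem IsD.ccomb {c c' : Conn 𝒟.q} (h : IsD 𝒟 c) (h' : IsD 𝒟 c') (a b : L) :
    IsD 𝒟 (ccomb a c b c') :=
  ⟨fun s i v hv => Submodule.add_mem _ (Submodule.smul_mem _ _ (h.1 s i v hv))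
      (Submodule.smul_mem _ _ (h'.1 s i v hv)), fun l k => by
    rw [ccomb_d, h.2, h'.2, mul_zero, mul_zero, add_zero]⟩

theorem isD_zero : IsD 𝒟 (czero 𝒟.q) :=
  ⟨fun s i _ _ => (𝒟.F s i).zero_mem, fun _ _ => rfl⟩

/-- richness with finitely many linear conditions on the motion of a vector -/
theorem rich_fix (hR : 𝒟.Rich) (v : V) (N : ℕ) (f : Fin N → (V →ₗ[L] L)) (m : ℕ) :
    ∃ (n : Fin m → Conn 𝒟.q) (τ : Fin m → L), (∀ a, IsD 𝒟 (n a)) ∧
      (∀ a b, (n a).d (τ b) = if a = b then 1 else 0) ∧ ∀ a j, f j ((n a).δ v) = 0 := by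
  induction N generalizing m with
  | zero =>
    obtain ⟨n, τ, h1, h2, h3⟩ := hR m
    exact ⟨n, τ, fun a => ⟨fun s i v hv => h1 a s i v hv, fun l k => h2 a l k⟩, h3,
      fun a j => j.elim0⟩
  | succ N ih =>
    obtain ⟨n, τ, h1, h2, h3⟩ := ih (fun j => f j.castSucc) (m + 1)
    set β : Fin (m + 1) → L := fun i => f (Fin.last N) ((n i).δ v) with hβ
    obtain ⟨i0, hi0⟩ : ∃ i0, (∀ i, β i = 0) ∨ β i0 ≠ 0 := by
      by_cases hall : ∀ i, β i = 0
      · exact ⟨0, Or.inl hall⟩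
      · push Not at hall
        obtain ⟨i, hi⟩ := hall
        exact ⟨i, Or.inr hi⟩
    refine ⟨fun j => ccomb 1 (n (i0.succAbove j)) (-(β (i0.succAbove j) / β i0)) (n i0),
      fun j => τ (i0.succAbove j), fun j => (h1 _).ccomb (h1 _) _ _, fun i j => ?_,
      fun i j => ?_⟩
    · rw [ccomb_d, h2, h2, if_neg (Fin.succAbove_ne i0 j).symm, mul_zero, add_zero, one_mul]
      by_cases hij : i = j
      · rw [if_pos hij, if_pos (by rw [hij])]
      · rw [if_neg hij, if_neg (fun h => hij (Fin.succAbove_right_injective h))]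
    · rw [ccomb_δ, map_add, map_smul, map_smul, one_smul, smul_eq_mul]
      refine Fin.lastCases ?_ (fun j => ?_) j
      · show β (i0.succAbove i) + -(β (i0.succAbove i) / β i0) * β i0 = 0
        rcases hi0 with hi0 | hi0
        · rw [hi0, hi0, mul_zero, add_zero]
        · rw [neg_mul, div_mul_cancel₀ _ hi0, add_neg_cancel]
      · rw [h3, h3, mul_zero, add_zero]

/-- the motions of a vector modulo `B` -/
def Mot (𝒟 : Cfg L V J) (B : Submodule L V) (v : V) : Submodule L V where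
  carrier := {w | ∃ c, IsD 𝒟 c ∧ w - c.δ v ∈ B}
  add_mem' := by
    rintro x y ⟨c, hc, hx⟩ ⟨c', hc', hy⟩
    refine ⟨ccomb 1 c 1 c', hc.ccomb hc' _ _, ?_⟩
    rw [ccomb_δ, one_smul, one_smul, add_sub_add_comm]
    exact Submodule.add_mem _ hx hy
  zero_mem' := ⟨czero 𝒟.q, isD_zero, by
    show (0 : V) - 0 ∈ B
    rw [sub_zero]; exact B.zero_mem⟩
  smul_mem' := by
    rintro a x ⟨c, hc, hx⟩
    refine ⟨ccomb a c 0 c, hc.ccomb hc _ _, ?_⟩
    rw [ccomb_δ, zero_smul, add_zero, ← smul_sub]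
    exact Submodule.smul_mem _ _ hx

theorem mem_Mot {B : Submodule L V} {v w : V} :
    w ∈ Mot 𝒟 B v ↔ ∃ c, IsD 𝒟 c ∧ w - c.δ v ∈ B := Iff.rfl

theorem le_Mot (B : Submodule L V) (v : V) : B ≤ Mot 𝒟 B v := fun w hw =>
  ⟨czero 𝒟.q, isD_zero, by show w - 0 ∈ B; rwa [sub_zero]⟩

theorem motion_mem {B : Submodule L V} {v : V} {c : Conn 𝒟.q} (hc : IsD 𝒟 c) :
    c.δ v ∈ Mot 𝒟 B v := ⟨c, hc, by rw [sub_self]; exact B.zero_mem⟩

theorem conn_perp' {s : Fin 3} {i : ℕ} {c : Conn 𝒟.q} (hc : IsD 𝒟 c) :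
    ∀ v ∈ perp 𝒟.q (𝒟.F s i), c.δ v ∈ perp 𝒟.q (𝒟.F s i) := by
  intro v hv w hw
  have h1 := c.metric v w
  rw [hv w hw, map_zero, hv _ (hc.1 s i w hw), add_zero] at h1
  exact h1.symm

variable [FiniteDimensional L V]

/-- the existence of a vector with all motions -/
theorem exists_moving [IsAlgClosed L] [CharZero L] (hG : 𝒟.Good) (hR : 𝒟.Rich) (s : Fin 3) (n0 : ℕ)
    (hdim : 2 * finrank L (𝒟.F s n0) + 2 ≤ finrank L V) :
    ∃ v ∈ perp 𝒟.q (𝒟.F s n0), v ∉ 𝒟.F s n0 ∧ 𝒟.q v v = 0 ∧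
      perp 𝒟.q (𝒟.F s n0 ⊔ Submodule.span L {v}) ≤
        Mot 𝒟 (𝒟.F s n0 ⊔ Submodule.span L {v}) v := by
  classical
  have hq := hG.form
  have h2 : (2 : L) ≠ 0 := two_ne_zero
  set Λ := 𝒟.F s n0 with hΛ
  set P := perp 𝒟.q Λ with hP
  have hΛP : Λ ≤ P := hG.iso s n0
  have hfP : finrank L Λ + finrank L P = finrank L V := H887.finrank_perp hq Λ
  -- an isotropic vector
  have hex : ∃ v ∈ P, v ∉ Λ ∧ 𝒟.q v v = 0 := by
    obtain ⟨x, hxP, hxΛ⟩ : ∃ x ∈ P, x ∉ Λ := by
      by_contra hcon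
      push Not at hcon
      have : finrank L P ≤ finrank L Λ := Submodule.finrank_mono hcon
      omega
    by_cases hxx : 𝒟.q x x = 0
    · exact ⟨x, hxP, hxΛ, hxx⟩
    obtain ⟨y, hyP, hyx, hyΛ⟩ : ∃ y ∈ P, 𝒟.q y x = 0 ∧ y ∉ Λ := by
      by_contra hcon
      push Not at hcon
      have h3 : P ⊓ perp 𝒟.q (Submodule.span L {x}) ≤ Λ := by
        rintro y ⟨hy1, hy2⟩
        exact hcon y hy1 (hy2 x (Submodule.mem_span_singleton_self x))
      have h4 := Submodule.finrank_mono h3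
      have h5 := Submodule.finrank_sup_add_finrank_inf_eq P (perp 𝒟.q (Submodule.span L {x}))
      have h6 := Submodule.finrank_le (P ⊔ perp 𝒟.q (Submodule.span L {x}))
      have h7 := H887.finrank_perp hq (Submodule.span L {x})
      have h8 : finrank L (Submodule.span L {x}) ≤ 1 := by
        have := finrank_span_le_card (R := L) ({x} : Set V)
        simpa using this
      omega
    by_cases hyy : 𝒟.q y y = 0
    · exact ⟨y, hyP, hyΛ, hyy⟩
    obtain ⟨a, ha⟩ := IsAlgClosed.exists_pow_nat_eq (-𝒟.q y y / 𝒟.q x x) (n := 2) (by norm_num)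
    have ha0 : a ≠ 0 := by
      rintro rfl
      rw [zero_pow two_ne_zero] at ha
      have := (div_eq_zero_iff.mp ha.symm).resolve_right hxx
      exact hyy (neg_eq_zero.mp this)
    refine ⟨a • x + y, P.add_mem (P.smul_mem _ hxP) hyP, fun h => ?_, ?_⟩
    · have h3 : 𝒟.q x (a • x + y) = 0 := hxP _ h
      rw [map_add, map_smul, smul_eq_mul, hq.symm x y, hyx, add_zero] at h3
      rcases mul_eq_zero.mp h3 with h | h
      · exact ha0 h
      · exact hxx h
    · simp only [map_add, map_smul, LinearMap.add_apply, LinearMap.smul_apply, smul_eq_mul]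
      rw [hyx, hq.symm x y, hyx]
      have h3 : a * (a * 𝒟.q x x) = -𝒟.q y y := by
        rw [← mul_assoc, ← sq, ha, div_mul_cancel₀ _ hxx]
      linear_combination h3
  -- choose the vector with maximal motion
  let Q : ℕ → Prop := fun r => ∃ v ∈ P, v ∉ Λ ∧ 𝒟.q v v = 0 ∧
    finrank L (Mot 𝒟 (Λ ⊔ Submodule.span L {v}) v) = r
  obtain ⟨v0, hv0P, hv0Λ, hv00⟩ := hex
  have hQ : Q (finrank L (Mot 𝒟 (Λ ⊔ Submodule.span L {v0}) v0)) :=
    ⟨v0, hv0P, hv0Λ, hv00, rfl⟩
  have hbd : ∀ r, Q r → r ≤ finrank L V := by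
    rintro r ⟨v, _, _, _, rfl⟩
    exact Submodule.finrank_le _
  have hmax := Nat.findGreatest_spec (P := Q) (hbd _ hQ) hQ
  obtain ⟨v, hvP, hvΛ, hvv, hvr⟩ := hmax
  refine ⟨v, hvP, hvΛ, hvv, ?_⟩
  have hmax' : ∀ v' ∈ P, v' ∉ Λ → 𝒟.q v' v' = 0 →
      finrank L (Mot 𝒟 (Λ ⊔ Submodule.span L {v'}) v') ≤
        finrank L (Mot 𝒟 (Λ ⊔ Submodule.span L {v}) v) := by
    intro v' h1 h3 h4
    rw [hvr]
    exact Nat.le_findGreatest (Submodule.finrank_le _) ⟨v', h1, h3, h4, rfl⟩
  clear hvr hbd hQ hv00 hv0Λ hv0P v0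
  set B := Λ ⊔ Submodule.span L {v} with hB
  have hvB : v ∈ B := Submodule.mem_sup_right (Submodule.mem_span_singleton_self v)
  have hΛB : Λ ≤ B := le_sup_left
  set U := Mot 𝒟 B v with hU
  -- a hyperbolic partner of `v`
  obtain ⟨f, hfP', hvf, hff⟩ : ∃ f ∈ P, 𝒟.q v f = 1 ∧ 𝒟.q f f = 0 := by
    obtain ⟨f0, hf0, hvf0⟩ : ∃ f0 ∈ P, 𝒟.q v f0 ≠ 0 := by
      by_contra hcon
      push Not at hcon
      apply hvΛ
      rw [← H887.perp_perp hq Λ]
      exact hcon
    set f1 := (𝒟.q v f0)⁻¹ • f0 with hf1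
    have e1 : 𝒟.q v f1 = 1 := by
      rw [hf1, map_smul, smul_eq_mul, inv_mul_cancel₀ hvf0]
    refine ⟨f1 - (𝒟.q f1 f1 / 2) • v, P.sub_mem (P.smul_mem _ hf0) (P.smul_mem _ hvP), ?_, ?_⟩
    · rw [map_sub, map_smul (𝒟.q v) _ v, hvv, smul_zero, sub_zero, e1]
    · simp only [map_sub, map_smul, LinearMap.sub_apply, LinearMap.smul_apply, smul_eq_mul]
      rw [hvv, hq.symm f1 v, e1]
      field_simp
      ring
  have hfv : 𝒟.q f v = 1 := by rw [hq.symm]; exact hvf
  by_contra hcon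
  rw [SetLike.not_le_iff_exists] at hcon
  obtain ⟨w0, hw0, hw0U⟩ := hcon
  have hw0P : w0 ∈ P := fun x hx => hw0 x (hΛB hx)
  have hw0v : 𝒟.q w0 v = 0 := hw0 v hvB
  -- normalise `w`
  obtain ⟨w, hwP, hwv, hwf, hwU⟩ : ∃ w ∈ P, 𝒟.q w v = 0 ∧ 𝒟.q w f = 0 ∧ w ∉ U := by
    refine ⟨w0 - 𝒟.q w0 f • v, P.sub_mem hw0P (P.smul_mem _ hvP), ?_, ?_, fun h => hw0U ?_⟩
    · rw [map_sub, map_smul, LinearMap.sub_apply, LinearMap.smul_apply, hw0v, hvv, smul_zero,
        sub_zero]
    · rw [map_sub, map_smul, LinearMap.sub_apply, LinearMap.smul_apply, hvf, smul_eq_mul, mul_one,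
        sub_self]
    · have h3 : w0 = (w0 - 𝒟.q w0 f • v) + 𝒟.q w0 f • v := by abel
      rw [h3]
      exact U.add_mem h (le_Mot B v (B.smul_mem _ hvB))
  -- a connection fixing `v` modulo `B` and moving a constant
  obtain ⟨c, τ, hc, hcτ, hcv⟩ : ∃ (c : Conn 𝒟.q) (τ : L), IsD 𝒟 c ∧ c.d τ = 1 ∧ c.δ v ∈ B := by
    let b := Module.finBasis L (perp 𝒟.q B)
    obtain ⟨n, τ, h1, h3, h4⟩ := rich_fix hR v _ (fun j => 𝒟.q (b j : V)) 1
    refine ⟨n 0, τ 0, h1 0, by rw [h3, if_pos rfl], ?_⟩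
    rw [← H887.perp_perp hq B]
    intro x hx
    rw [hq.symm]
    have h5 : ((⟨x, hx⟩ : perp 𝒟.q B) : V) = ∑ j, b.repr ⟨x, hx⟩ j • (b j : V) := by
      conv_lhs => rw [← b.sum_repr ⟨x, hx⟩]
      rw [Submodule.coe_sum]
      rfl
    have h6 : x = ∑ j, b.repr ⟨x, hx⟩ j • (b j : V) := h5
    rw [h6, map_sum, LinearMap.sum_apply]
    refine Finset.sum_eq_zero fun j _ => ?_
    rw [map_smul, LinearMap.smul_apply]
    rw [h4 0 j, smul_zero]
  obtain ⟨l0, hl0, y0, hy0, hly⟩ := Submodule.mem_sup.mp hcv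
  obtain ⟨α, rfl⟩ := Submodule.mem_span_singleton.mp hy0
  set ω := c.δ w - α • w with hω
  -- choose the constant
  obtain ⟨τ', hτ', hwa⟩ : ∃ τ' : L, c.d τ' = 1 ∧ w + τ' • ω ∉ U := by
    by_cases h3 : w + τ • ω ∈ U
    · refine ⟨τ + 1, ?_, fun h4 => hwU ?_⟩
      · have h5 : c.d 1 = 0 := by
          have := c.leib 1 1
          rw [mul_one, mul_one, one_mul] at this
          simpa using this
        rw [map_add, hcτ, h5, add_zero]
      · have h5 : w = (w + τ • ω) - τ • ((w + (τ + 1) • ω) - (w + τ • ω)) := by module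
        rw [h5]
        exact U.sub_mem h3 (U.smul_mem _ (U.sub_mem h4 h3))
    · exact ⟨τ, hcτ, h3⟩
  -- the family of isotropic vectors
  set v1 : V := τ' • w with hv1
  set v2 : V := (-(τ' * τ' * 𝒟.q w w) / 2) • f with hv2
  have hv1P : v1 ∈ P := P.smul_mem _ hwP
  have hv2P : v2 ∈ P := P.smul_mem _ hfP'
  set vb : ℕ → V := fun b => v + (b • v1 + (b * b) • v2) with hvb
  have hvbP : ∀ b, vb b ∈ P := fun b => P.add_mem hvP (P.add_mem (P.smul_of_tower_mem b hv1P)
    (P.smul_of_tower_mem (b * b) hv2P))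
  have hvbe : ∀ b : ℕ, vb b = v + (((b : L) * τ') • w +
      ((b : L) * b * (-(τ' * τ' * 𝒟.q w w) / 2)) • f) := by
    intro b
    rw [hvb, hv1, hv2]
    simp only [← Nat.cast_smul_eq_nsmul L, smul_smul, Nat.cast_mul]
  have hvbf : ∀ b, 𝒟.q (vb b) f = 1 := by
    intro b
    rw [hvbe]
    simp only [map_add, map_smul, LinearMap.add_apply, LinearMap.smul_apply, smul_eq_mul]
    rw [hvf, hwf, hff]
    ring
  have hvbΛ : ∀ b, vb b ∉ Λ := by
    intro b h
    have h3 : 𝒟.q f (vb b) = 0 := hfP' _ h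
    rw [hq.symm, hvbf] at h3
    exact one_ne_zero h3
  have hvbb : ∀ b, 𝒟.q (vb b) (vb b) = 0 := by
    intro b
    rw [hvbe]
    simp only [map_add, map_smul, LinearMap.add_apply, LinearMap.smul_apply, smul_eq_mul]
    rw [hvv, hvf, hfv, hwv, hwf, hff, hq.symm v w, hwv, hq.symm f w, hwf]
    ring
  -- the basis of the motions of `v`
  let e := Module.finBasis L U
  choose cj hcj hcj' using fun j => mem_Mot.mp (e j).2
  have hcj'' : ∀ j, ∃ l ∈ Λ, ∃ a : L, (e j : V) - (cj j).δ v = l + a • v := by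
    intro j
    obtain ⟨l, hl, y, hy, hly⟩ := Submodule.mem_sup.mp (hcj' j)
    obtain ⟨a, rfl⟩ := Submodule.mem_span_singleton.mp hy
    exact ⟨l, hl, a, hly.symm⟩
  choose lj hlj aj haj using hcj''
  have hli : LinearIndependent L (Fin.snoc (fun j => (e j : V)) (w + τ' • ω) :
      Fin (finrank L U + 1) → V) := by
    rw [linearIndependent_finSnoc]
    refine ⟨e.linearIndependent.map' U.subtype U.ker_subtype, fun h => hwa ?_⟩
    refine Submodule.span_le.mpr ?_ h
    rintro _ ⟨j, rfl⟩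
    exact (e j).2
  obtain ⟨b, hb0, hbli⟩ := exists_linIndep hli
    (Fin.snoc (fun j => (cj j).δ v1 + aj j • v1) (c.δ v2 - α • v2))
    (Fin.snoc (fun j => (cj j).δ v2 + aj j • v2) 0)
  have hspan : ∀ j, (Fin.snoc (fun j => (e j : V)) (w + τ' • ω) :
      Fin (finrank L U + 1) → V) j + (b • (Fin.snoc (fun j => (cj j).δ v1 + aj j • v1)
      (c.δ v2 - α • v2) : Fin (finrank L U + 1) → V) j + (b * b) •
      (Fin.snoc (fun j => (cj j).δ v2 + aj j • v2) 0 : Fin (finrank L U + 1) → V) j) ∈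
      Mot 𝒟 (Λ ⊔ Submodule.span L {vb b}) (vb b) := by
    have hmem : vb b ∈ Λ ⊔ Submodule.span L {vb b} :=
      Submodule.mem_sup_right (Submodule.mem_span_singleton_self _)
    intro j
    refine Fin.lastCases ?_ (fun j => ?_) j
    · rw [Fin.snoc_last, Fin.snoc_last, Fin.snoc_last, smul_zero, add_zero]
      have h3 : (b : L) ≠ 0 := Nat.cast_ne_zero.mpr hb0
      have h4 : c.δ (vb b) - α • vb b - l0 =
          (b : L) • (w + τ' • ω + b • (c.δ v2 - α • v2)) := by
        have h5 : c.δ (vb b) = c.δ v + (b • c.δ v1 + (b * b) • c.δ v2) := by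
          rw [hvb]
          simp only [map_add, map_nsmul]
        have h6 : c.δ v1 = w + τ' • c.δ w := by
          rw [hv1, c.smul, hτ', one_smul]
        rw [h5, h6, ← hly, hvb, hω]
        simp only [← Nat.cast_smul_eq_nsmul L, hv1, Nat.cast_mul]
        module
      have h5 : w + τ' • ω + b • (c.δ v2 - α • v2) =
          (b : L)⁻¹ • (c.δ (vb b) - α • vb b - l0) := by
        rw [h4, smul_smul (b : L)⁻¹ (b : L), inv_mul_cancel₀ h3, one_smul]
      rw [h5]
      refine Submodule.smul_mem _ _ (Submodule.sub_mem _ (Submodule.sub_mem _ (motion_mem hc)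
        (le_Mot _ _ (Submodule.smul_mem _ _ hmem))) (le_Mot _ _ (Submodule.mem_sup_left hl0)))
    · rw [Fin.snoc_castSucc, Fin.snoc_castSucc, Fin.snoc_castSucc]
      have h4 : (e j : V) + (b • ((cj j).δ v1 + aj j • v1) + (b * b) • ((cj j).δ v2 +
          aj j • v2)) = (cj j).δ (vb b) + (lj j + aj j • vb b) := by
        have h5 : (cj j).δ (vb b) = (cj j).δ v + (b • (cj j).δ v1 + (b * b) • (cj j).δ v2) := by
          rw [hvb]
          simp only [map_add, map_nsmul]
        have h6 : (e j : V) = (cj j).δ v + (lj j + aj j • v) := by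
          rw [← haj j]; abel
        rw [h5, h6, hvb]
        simp only [← Nat.cast_smul_eq_nsmul L, Nat.cast_mul]
        module
      rw [h4]
      exact Submodule.add_mem _ (motion_mem (hcj j)) (Submodule.add_mem _
        (le_Mot _ _ (Submodule.mem_sup_left (hlj j)))
        (le_Mot _ _ (Submodule.smul_mem _ _ hmem)))
  have h3 : finrank L U + 1 ≤ finrank L (Mot 𝒟 (Λ ⊔ Submodule.span L {vb b}) (vb b)) := by
    have h4 : LinearIndependent L (fun j : Fin (finrank L U + 1) =>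
        (⟨_, hspan j⟩ : Mot 𝒟 (Λ ⊔ Submodule.span L {vb b}) (vb b))) :=
      LinearIndependent.of_comp (Submodule.subtype _) hbli
    have h5 := h4.fintype_card_le_finrank
    rwa [Fintype.card_fin] at h5
  have h4 := hmax' (vb b) (hvbP b) (hvbΛ b) (hvbb b)
  omega

/-- the extended flags -/
def extF (𝒟 : Cfg L V J) (s : Fin 3) (n0 : ℕ) (B : Submodule L V) : Fin 3 → ℕ → Submodule L V :=
  fun s' i => if s' = s then (if i ≤ n0 then 𝒟.F s i else B) else 𝒟.F s' i

omit [FiniteDimensional L V] in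
theorem extF_cases (𝒟 : Cfg L V J) (s : Fin 3) (n0 : ℕ) (B : Submodule L V) (s' : Fin 3)
    (i : ℕ) : extF 𝒟 s n0 B s' i = 𝒟.F s' i ∨ (s' = s ∧ n0 < i ∧ extF 𝒟 s n0 B s' i = B) := by
  unfold extF
  by_cases h : s' = s
  · subst h
    by_cases h1 : i ≤ n0
    · left; rw [if_pos rfl, if_pos h1]
    · right; rw [if_pos rfl, if_neg h1]; exact ⟨rfl, by omega, rfl⟩
  · left; rw [if_neg h]

/-- one step of the extension -/
theorem gen_step [IsAlgClosed L] [CharZero L] (hG : 𝒟.Good) (hV : 𝒟.Versal) (hR : 𝒟.Rich)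
    (s : Fin 3) (n0 : ℕ) (htop : ∀ i, n0 ≤ i → 𝒟.F s i = 𝒟.F s n0)
    (hdim : 2 * finrank L (𝒟.F s n0) + 2 ≤ finrank L V) :
    ∃ B : Submodule L V, finrank L B = finrank L (𝒟.F s n0) + 1 ∧
      ({ 𝒟 with F := extF 𝒟 s n0 B } : Cfg L V J).Good ∧
      ({ 𝒟 with F := extF 𝒟 s n0 B } : Cfg L V J).Versal ∧
      ({ 𝒟 with F := extF 𝒟 s n0 B } : Cfg L V J).Rich := by
  classical
  have hq := hG.form
  have h2 : (2 : L) ≠ 0 := two_ne_zero
  obtain ⟨v, hvP, hvΛ, hvv, hmot⟩ := exists_moving hG hR s n0 hdim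
  set Λ := 𝒟.F s n0 with hΛ
  set B := Λ ⊔ Submodule.span L {v} with hB
  have hvB : v ∈ B := Submodule.mem_sup_right (Submodule.mem_span_singleton_self v)
  have hΛB : Λ ≤ B := le_sup_left
  have hv0 : v ≠ 0 := by
    rintro rfl
    exact hvΛ Λ.zero_mem
  have hdisj : Λ ⊓ Submodule.span L {v} = ⊥ := by
    rw [eq_bot_iff]
    rintro x ⟨hx1, hx2⟩
    obtain ⟨a, rfl⟩ := Submodule.mem_span_singleton.mp hx2
    by_cases ha : a = 0
    · rw [ha, zero_smul]; exact Submodule.zero_mem _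
    · exfalso
      apply hvΛ
      have := Λ.smul_mem a⁻¹ hx1
      rwa [smul_smul, inv_mul_cancel₀ ha, one_smul] at this
  have hBdim : finrank L B = finrank L Λ + 1 := by
    have h3 := Submodule.finrank_sup_add_finrank_inf_eq Λ (Submodule.span L {v})
    rw [hdisj, finrank_bot, finrank_span_singleton hv0] at h3
    exact h3
  have hcases : ∀ x ∈ B, ∃ l ∈ Λ, ∃ a : L, x = l + a • v := by
    intro x hx
    obtain ⟨l, hl, y, hy, hly⟩ := Submodule.mem_sup.mp hx
    obtain ⟨a, rfl⟩ := Submodule.mem_span_singleton.mp hy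
    exact ⟨l, hl, a, hly.symm⟩
  have hBB : B ≤ perp 𝒟.q B := by
    intro x hx y hy
    obtain ⟨l, hl, a, rfl⟩ := hcases x hx
    obtain ⟨l', hl', a', rfl⟩ := hcases y hy
    simp only [map_add, map_smul, LinearMap.add_apply, LinearMap.smul_apply, smul_eq_mul]
    have e1 : 𝒟.q l l' = 0 := hG.iso s n0 hl _ hl'
    have e2 : 𝒟.q v l' = 0 := hvP _ hl'
    have e3 : 𝒟.q l v = 0 := by rw [hq.symm]; exact hvP _ hl
    rw [e1, e2, e3, hvv]
    ring
  refine ⟨B, hBdim, ?_, ?_, ?_⟩
  · -- Good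
    refine ⟨hq, fun s' => ?_, fun s' => ?_, fun s' i => ?_, fun s' i => ?_, hG.skew⟩
    · rcases extF_cases 𝒟 s n0 B s' 0 with h | ⟨_, h, _⟩
      · exact h.trans (hG.zero s')
      · omega
    · refine monotone_nat_of_le_succ fun i => ?_
      show extF 𝒟 s n0 B s' i ≤ extF 𝒟 s n0 B s' (i + 1)
      rcases extF_cases 𝒟 s n0 B s' (i + 1) with h | ⟨h3, h4, h⟩
      · rcases extF_cases 𝒟 s n0 B s' i with h' | ⟨h3, h4, h'⟩
        · rw [h, h']; exact hG.mono s' (Nat.le_succ i)
        · exfalso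
          subst h3
          have h5 : extF 𝒟 s' n0 B s' (i + 1) = B := by
            unfold extF
            rw [if_pos rfl, if_neg (by omega)]
          rw [h] at h5
          have h6 := htop (i + 1) (by omega)
          rw [h5] at h6
          exact hvΛ (h6 ▸ hvB)
      · rw [h]
        subst h3
        rcases extF_cases 𝒟 s' n0 B s' i with h' | ⟨h3, h4, h'⟩
        · rw [h']
          exact (hG.mono s' (by omega : i ≤ max i n0)).trans
            (by rw [htop _ (le_max_right _ _)]; exact hΛB)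
        · rw [h']
    · show extF 𝒟 s n0 B s' i ≤ perp 𝒟.q (extF 𝒟 s n0 B s' i)
      rcases extF_cases 𝒟 s n0 B s' i with h | ⟨h3, h4, h⟩
      · rw [h]; exact hG.iso s' i
      · rw [h]; exact hBB
    · show finrank L (extF 𝒟 s n0 B s' (i + 1)) ≤ finrank L (extF 𝒟 s n0 B s' i) + 1
      rcases extF_cases 𝒟 s n0 B s' (i + 1) with h | ⟨h3, h4, h⟩
      · rcases extF_cases 𝒟 s n0 B s' i with h' | ⟨h3, h4, h'⟩
        · rw [h, h']; exact hG.step s' i
        · rw [h, h']
          subst h3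
          rw [htop (i + 1) (by omega), hBdim]
          omega
      · rw [h, hBdim]
        rcases extF_cases 𝒟 s n0 B s' i with h' | ⟨h3', h4', h'⟩
        · rw [h']
          subst h3
          by_cases h5 : n0 ≤ i
          · rw [htop i h5]
          · omega
        · rw [h', hBdim]; omega
  · -- Versal
    intro Y hY η hη
    obtain ⟨n, hn, hnd⟩ := hV Y hY η hη
    set w := n.δ v - Y s v with hw
    have hwB : w ∈ perp 𝒟.q B := by
      intro x hx
      obtain ⟨l, hl, a, rfl⟩ := hcases x hx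
      have e1 : 𝒟.q w l = 0 := by
        have h3 := n.metric v l
        have h4 : 𝒟.q v l = 0 := hvP _ hl
        have h5 : 𝒟.q v (n.δ l - Y s l) = 0 := hvP _ (hn s n0 l hl)
        rw [h4, map_zero] at h3
        rw [map_sub] at h5
        rw [hw, map_sub, LinearMap.sub_apply, hY s]
        linear_combination -h3 - h5
      have e2 : 𝒟.q w v = 0 := by
        have h3 := n.metric v v
        have h4 := hY s v v
        rw [hvv, map_zero, hq.symm v (n.δ v)] at h3
        rw [hq.symm v (Y s v)] at h4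
        have h5 : 2 * 𝒟.q (n.δ v) v = 0 := by linear_combination -h3
        have h6 : 2 * 𝒟.q (Y s v) v = 0 := by linear_combination h4
        rw [hw, map_sub, LinearMap.sub_apply, (mul_eq_zero.mp h5).resolve_left h2,
          (mul_eq_zero.mp h6).resolve_left h2, sub_zero]
      rw [map_add, map_smul, e1, e2, smul_zero, add_zero]
    obtain ⟨c, hc, hcw⟩ := mem_Mot.mp (hmot hwB)
    refine ⟨ccomb 1 n (-1) c, fun s' i x hx => ?_, fun l k => ?_⟩
    · have h3 : ∀ x, (ccomb 1 n (-1) c).δ x - Y s' x = (n.δ x - Y s' x) - c.δ x := by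
        intro x
        rw [ccomb_δ, one_smul, neg_smul, one_smul]
        abel
      change x ∈ extF 𝒟 s n0 B s' i at hx
      show (ccomb 1 n (-1) c).δ x - Y s' x ∈ extF 𝒟 s n0 B s' i
      rcases extF_cases 𝒟 s n0 B s' i with h | ⟨h4, h5, h⟩
      · rw [h] at hx ⊢
        rw [h3]
        exact Submodule.sub_mem _ (hn s' i x hx) (hc.1 s' i x hx)
      · rw [h] at hx ⊢
        subst h4
        obtain ⟨l, hl, a, rfl⟩ := hcases x hx
        have h6 : (ccomb 1 n (-1) c).δ (l + a • v) - Y s' (l + a • v) =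
            ((n.δ l - Y s' l) - c.δ l) + ((ccomb 1 n (-1) c).d a • v +
              a • (w - c.δ v)) := by
          rw [map_add, map_add, (ccomb 1 n (-1) c).smul, map_smul (Y s'), hw, ccomb_δ, ccomb_δ]
          simp only [one_smul, neg_smul]
          module
        rw [h6]
        exact B.add_mem (hΛB (Λ.sub_mem (hn s' n0 l hl) (hc.1 s' n0 l hl)))
          (B.add_mem (B.smul_mem _ hvB) (B.smul_mem _ hcw))
    · rw [ccomb_d]
      show 1 * n.d (𝒟.Ω l k) + -1 * c.d (𝒟.Ω l k) = _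
      rw [hnd, hc.2]; ring
  · -- Rich
    intro m
    let b := Module.finBasis L (perp 𝒟.q B)
    obtain ⟨n, τ, h1, h3, h4⟩ := rich_fix hR v _ (fun j => 𝒟.q (b j : V)) m
    have hfix : ∀ a, (n a).δ v ∈ B := by
      intro a
      rw [← H887.perp_perp hq B]
      intro x hx
      rw [hq.symm]
      have h5 : ((⟨x, hx⟩ : perp 𝒟.q B) : V) = ∑ j, b.repr ⟨x, hx⟩ j • (b j : V) := by
        conv_lhs => rw [← b.sum_repr ⟨x, hx⟩]
        rw [Submodule.coe_sum]
        rfl
      have h6 : x = ∑ j, b.repr ⟨x, hx⟩ j • (b j : V) := h5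
      rw [h6, map_sum, LinearMap.sum_apply]
      refine Finset.sum_eq_zero fun j _ => ?_
      rw [map_smul, LinearMap.smul_apply]
      rw [h4 a j, smul_zero]
    refine ⟨n, τ, fun a s' i x hx => ?_, fun a l k => (h1 a).2 l k, h3⟩
    change x ∈ extF 𝒟 s n0 B s' i at hx
    show (n a).δ x ∈ extF 𝒟 s n0 B s' i
    rcases extF_cases 𝒟 s n0 B s' i with h | ⟨h5, h6, h⟩
    · rw [h] at hx ⊢
      exact (h1 a).1 s' i x hx
    · rw [h] at hx ⊢
      obtain ⟨l, hl, r, rfl⟩ := hcases x hx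
      rw [map_add, (n a).smul]
      exact B.add_mem (hΛB ((h1 a).1 s n0 l hl)) (B.add_mem (B.smul_mem _ hvB)
        (B.smul_mem _ (hfix a)))

/-- **The generic extension.** The flag of an arm can be extended to a flag ending with a maximal
isotropic subspace, such that the configuration stays good, versal and rich. -/
theorem gen_ext [IsAlgClosed L] [CharZero L] (hG : 𝒟.Good) (hV : 𝒟.Versal) (hR : 𝒟.Rich)
    (s : Fin 3) (n0 : ℕ) (htop : ∀ i, n0 ≤ i → 𝒟.F s i = 𝒟.F s n0) :
    ∃ (F' : Fin 3 → ℕ → Submodule L V) (n1 : ℕ), n0 ≤ n1 ∧ (∀ s', s' ≠ s → F' s' = 𝒟.F s') ∧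
      (∀ i, i ≤ n0 → F' s i = 𝒟.F s i) ∧ (∀ i, n1 ≤ i → F' s i = F' s n1) ∧
      finrank L V ≤ 2 * finrank L (F' s n1) + 1 ∧
      ({ 𝒟 with F := F' } : Cfg L V J).Good ∧ ({ 𝒟 with F := F' } : Cfg L V J).Versal ∧
      ({ 𝒟 with F := F' } : Cfg L V J).Rich := by
  obtain ⟨k, hk⟩ : ∃ k, finrank L V ≤ 2 * finrank L (𝒟.F s n0) + 1 + k := ⟨finrank L V, by omega⟩
  induction k generalizing 𝒟 n0 with
  | zero => exact ⟨𝒟.F, n0, le_rfl, fun _ _ => rfl, fun _ _ => rfl, htop, hk, hG, hV, hR⟩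
  | succ k ih =>
    by_cases h : finrank L V ≤ 2 * finrank L (𝒟.F s n0) + 1
    · exact ⟨𝒟.F, n0, le_rfl, fun _ _ => rfl, fun _ _ => rfl, htop, h, hG, hV, hR⟩
    obtain ⟨B, hB, hG', hV', hR'⟩ := gen_step hG hV hR s n0 htop (by omega)
    have hlast : ∀ i, n0 + 1 ≤ i → extF 𝒟 s n0 B s i = B := by
      intro i hi
      unfold extF
      rw [if_pos rfl, if_neg (by omega)]
    obtain ⟨F', n1, h1, h2, h3, h4, h5, h6, h7, h8⟩ := ih (𝒟 := { 𝒟 with F := extF 𝒟 s n0 B })
      hG' hV' hR' (n0 + 1) (fun i hi => by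
        show extF 𝒟 s n0 B s i = extF 𝒟 s n0 B s (n0 + 1)
        rw [hlast i hi, hlast _ le_rfl]) (by
        show finrank L V ≤ 2 * finrank L (extF 𝒟 s n0 B s (n0 + 1)) + 1 + k
        rw [hlast _ le_rfl, hB]
        omega)
    refine ⟨F', n1, by omega, fun s' hs' => ?_, fun i hi => ?_, h4, h5, h6, h7, h8⟩
    · rw [h2 s' hs']
      funext i
      show extF 𝒟 s n0 B s' i = _
      unfold extF
      rw [if_neg hs']
    · rw [h3 i (by omega)]
      show extF 𝒟 s n0 B s i = _
      unfold extF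
      rw [if_pos rfl, if_pos hi]

end ext

end Vale.Agent.P182.H922
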