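import Vale.Agent.P182.H163.Config
import Mathlib.RingTheory.Etale.Kaehler
import Mathlib.RingTheory.Etale.Field
import Mathlib.FieldTheory.IsAlgClosed.AlgebraicClosure

/-!
# Extension of derivations to the algebraic closure
-/

namespace Vale.Agent.P182.H922

open KaehlerDifferential TensorProduct

section ext

variable {L T : Type*} [Field L] [CharZero L] [Algebra ℂ L] [Field T] [Algebra L T] [Algebra ℂ T]
  [IsScalarTower ℂ L T] [Algebra.IsAlgebraic L T]

theorem exists_ext (D : Derivation ℂ L L) :
    ∃ D' : Derivation ℂ T T, ∀ x, D' (algebraMap L T x) = algebraMap L T (D x) := by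
  have : Algebra.FormallyEtale L T := Algebra.FormallyEtale.of_isSeparable L T
  let D1 : Derivation ℂ L T := (Algebra.linearMap L T).compDer D
  let f : T ⊗[L] Ω[L⁄ℂ] →ₗ[T] T := LinearMap.liftBaseChange T D1.liftKaehlerDifferential
  let g : Ω[T⁄ℂ] →ₗ[T] T := f ∘ₗ (tensorKaehlerEquivOfFormallyEtale ℂ L T).symm.toLinearMap
  refine ⟨g.compDer (KaehlerDifferential.D ℂ T), fun x => ?_⟩
  show f ((tensorKaehlerEquivOfFormallyEtale ℂ L T).symm
    (KaehlerDifferential.D ℂ T (algebraMap L T x))) = _
  rw [tensorKaehlerEquivOfFormallyEtale_symm_D_algebraMap]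
  simp only [f, LinearMap.liftBaseChange_tmul, one_smul,
    Derivation.liftKaehlerDifferential_comp_D]
  rfl

end ext

section versal

variable {n : ℕ} {L T : Type*} [Field L] [CharZero L] [Algebra ℂ L] [Field T] [Algebra L T]
  [Algebra ℂ T] [IsScalarTower ℂ L T] [Algebra.IsAlgebraic L T] {J : Type*} [Fintype J]
  [DecidableEq J]

omit [Field L] [CharZero L] [Algebra ℂ L] [Algebra L T] [IsScalarTower ℂ L T]
  [Algebra.IsAlgebraic L T] in
theorem der_sum {ι : Type*} (s : Finset ι) (D : ι → Derivation ℂ T T) (x : T) :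
    (∑ i ∈ s, D i) x = ∑ i ∈ s, D i x := by
  classical
  induction s using Finset.induction_on with
  | empty => simp
  | insert a s ha ih => rw [Finset.sum_insert ha, Finset.sum_insert ha, Derivation.add_apply, ih]

omit [CharZero L] [Algebra.IsAlgebraic L T] in
theorem mp_tower (x : Vale.Agent.P182.so n) :
    mp T x = (mp L x).map (algebraMap L T) := by
  ext b b'
  simp only [mp, Matrix.map_apply]
  exact IsScalarTower.algebraMap_apply ℂ L T _

/-- **Versality passes to algebraic extensions.** -/
theorem versal_ext {e : Fin 3 → Fin n → Fin n ⊕ Fin n → L} {Ω : J → J → L} (hV : Versal e Ω) :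
    Versal (fun s i b => algebraMap L T (e s i b)) (fun l l' => algebraMap L T (Ω l l')) := by
  intro Y hY η hη
  have hT0 : CharZero T := charZero_of_injective_algebraMap (algebraMap L T).injective
  -- the derivations
  have h1 : ∀ (s0 : Fin 3) (i : Fin (Module.finrank ℂ (Vale.Agent.P182.so n))),
      ∃ D : Derivation ℂ T T, (∀ s k b, D (algebraMap L T (e s k b)) =
        algebraMap L T (((if s = s0 then mp L (bso n i) else 0 : Matrix _ _ L).mulVec (e s k)) b)) ∧
        ∀ l l', D (algebraMap L T (Ω l l')) = 0 := by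
    intro s0 i
    obtain ⟨D, hD1, hD2⟩ := hV (fun s => if s = s0 then mp L (bso n i) else 0) (fun s => by
      split_ifs
      · exact isSo_mp _
      · rw [IsSo]; simp) (fun _ _ => 0) (fun _ _ => by simp)
    obtain ⟨D', hD'⟩ := exists_ext (T := T) D
    refine ⟨D', fun s k b => ?_, fun l l' => ?_⟩
    · rw [hD']
      congr 1
      exact congrFun (hD1 s k) b
    · rw [hD', hD2, map_zero]
  have h2 : ∀ l0 l0' : J, ∃ D : Derivation ℂ T T, (∀ s k b, D (algebraMap L T (e s k b)) = 0) ∧
        ∀ l l', D (algebraMap L T (Ω l l')) =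
          (if l = l0 ∧ l' = l0' then 1 else 0) - (if l = l0' ∧ l' = l0 then 1 else 0) := by
    intro l0 l0'
    obtain ⟨D, hD1, hD2⟩ := hV (fun s => 0) (fun s => by rw [IsSo]; simp)
      (fun l l' => (if l = l0 ∧ l' = l0' then 1 else 0) - (if l = l0' ∧ l' = l0 then 1 else 0))
      (fun l l' => by
        rw [neg_sub]
        congr 1 <;> simp only [and_comm])
    obtain ⟨D', hD'⟩ := exists_ext (T := T) D
    refine ⟨D', fun s k b => ?_, fun l l' => ?_⟩
    · rw [hD']
      have := congrFun (hD1 s k) b
      rw [Matrix.zero_mulVec] at this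
      rw [← map_zero (algebraMap L T)]
      congr 1
    · rw [hD', hD2, map_sub]
      split_ifs <;> simp
  choose D1 hD1 hD1' using h1
  choose D2 hD2 hD2' using h2
  refine ⟨∑ s0, ∑ i, cf (Y s0) i • D1 s0 i + ∑ l0, ∑ l0', ((2 : T)⁻¹ * η l0 l0') • D2 l0 l0',
    fun s k => ?_, fun l l' => ?_⟩
  · funext b
    show (∑ s0, ∑ i, cf (Y s0) i • D1 s0 i + ∑ l0, ∑ l0', ((2 : T)⁻¹ * η l0 l0') • D2 l0 l0')
      (algebraMap L T (e s k b)) = _
    have e1 : (∑ s0, ∑ i, cf (Y s0) i • D1 s0 i) (algebraMap L T (e s k b)) =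
        ∑ i, cf (Y s) i * algebraMap L T ((mp L (bso n i)).mulVec (e s k) b) := by
      simp only [der_sum, Derivation.smul_apply, smul_eq_mul]
      rw [Finset.sum_eq_single s]
      · refine Finset.sum_congr rfl fun i _ => ?_
        rw [hD1, if_pos rfl]
      · intro s' _ hs'
        refine Finset.sum_eq_zero fun i _ => ?_
        rw [hD1, if_neg (Ne.symm hs'), Matrix.zero_mulVec]
        simp
      · intro h; exact absurd (Finset.mem_univ _) h
    have e2 : (∑ l0, ∑ l0', ((2 : T)⁻¹ * η l0 l0') • D2 l0 l0') (algebraMap L T (e s k b)) = 0 := by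
      simp only [der_sum, Derivation.smul_apply, smul_eq_mul, hD2,
        mul_zero, Finset.sum_const_zero]
    rw [Derivation.add_apply, e1, e2, add_zero]
    conv_rhs => rw [expand_cf (hY s)]
    rw [Matrix.sum_mulVec, Finset.sum_apply]
    refine Finset.sum_congr rfl fun i _ => ?_
    rw [Matrix.smul_mulVec, Pi.smul_apply, smul_eq_mul, mp_tower (L := L) (T := T)]
    congr 1
    rw [Matrix.mulVec, Matrix.mulVec, dotProduct, dotProduct, map_sum]
    refine Finset.sum_congr rfl fun b' _ => ?_
    rw [map_mul]; rfl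
  · have e1 : (∑ s0, ∑ i, cf (Y s0) i • D1 s0 i) (algebraMap L T (Ω l l')) = 0 := by
      simp only [der_sum, Derivation.smul_apply, smul_eq_mul, hD1',
        mul_zero, Finset.sum_const_zero]
    have e2 : (∑ l0, ∑ l0', ((2 : T)⁻¹ * η l0 l0') • D2 l0 l0') (algebraMap L T (Ω l l')) =
        η l l' := by
      simp only [der_sum, Derivation.smul_apply, smul_eq_mul, hD2']
      simp only [mul_sub, Finset.sum_sub_distrib]
      have e3 : ∑ l0, ∑ l0', (2 : T)⁻¹ * η l0 l0' * (if l = l0 ∧ l' = l0' then 1 else 0) =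
          (2 : T)⁻¹ * η l l' := by
        rw [Finset.sum_eq_single l, Finset.sum_eq_single l']
        · simp
        · intro b _ hb
          rw [if_neg (fun h => hb h.2.symm), mul_zero]
        · intro h; exact absurd (Finset.mem_univ _) h
        · intro b _ hb
          refine Finset.sum_eq_zero fun b' _ => ?_
          rw [if_neg (fun h => hb h.1.symm), mul_zero]
        · intro h; exact absurd (Finset.mem_univ _) h
      have e4 : ∑ l0, ∑ l0', (2 : T)⁻¹ * η l0 l0' * (if l = l0' ∧ l' = l0 then 1 else 0) =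
          (2 : T)⁻¹ * η l' l := by
        rw [Finset.sum_eq_single l', Finset.sum_eq_single l]
        · simp
        · intro b _ hb
          rw [if_neg (fun h => hb h.1.symm), mul_zero]
        · intro h; exact absurd (Finset.mem_univ _) h
        · intro b _ hb
          refine Finset.sum_eq_zero fun b' _ => ?_
          rw [if_neg (fun h => hb h.2.symm), mul_zero]
        · intro h; exact absurd (Finset.mem_univ _) h
      rw [e3, e4, hη l' l]
      have h2 : (2 : T) ≠ 0 := two_ne_zero
      field_simp
      ring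
    rw [Derivation.add_apply, e1, e2, zero_add]

end versal

end Vale.Agent.P182.H922
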