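import Vale.Agent.P182.H163.Config

/-!
# Realisation of deformations which keep the vectors of `t` in place
-/

namespace Vale.Agent.P182.H922

open LieAlgebra.Orthogonal

section real

variable {n : ℕ} {L : Type*} [Field L] [Algebra ℂ L] {J : Type*} [Fintype J] [DecidableEq J]

omit [Algebra ℂ L] in
theorem qf_dot (a b : Fin n ⊕ Fin n → L) : qf a b = a ⬝ᵥ ((JD (Fin n) L).mulVec b) := by
  rw [qf, dotProduct]
  refine Finset.sum_congr rfl fun i _ => ?_
  show _ = a i * ∑ j, JD (Fin n) L i j * b j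
  rw [Finset.mul_sum]
  refine Finset.sum_congr rfl fun j _ => ?_
  ring

omit [Algebra ℂ L] in
theorem qf_skew {X : Matrix (Fin n ⊕ Fin n) (Fin n ⊕ Fin n) L} (hX : IsSo X)
    (v w : Fin n ⊕ Fin n → L) : qf (X.mulVec v) w = - qf v (X.mulVec w) := by
  rw [qf_dot, qf_dot, ← Matrix.vecMul_transpose, ← Matrix.dotProduct_mulVec,
    Matrix.mulVec_mulVec, Matrix.mulVec_mulVec, hX, Matrix.neg_mulVec, dotProduct_neg]

/-- **Realisation.** -/
theorem versal_real {arm : J → Fin 3} {e : Fin 3 → Fin n → Fin n ⊕ Fin n → L} {Ω : J → J → L}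
    (hΩ : ∀ l l', Ω l l' = - Ω l' l) (hV : Versal e Ω) {c : J → ℕ}
    {t : J → Fin n ⊕ Fin n → L} (ht : t ∈ Kc arm e Ω c)
    {X : Fin 3 → Matrix (Fin n ⊕ Fin n) (Fin n ⊕ Fin n) L} (hX : ∀ s, IsSo (X s))
    {η : J → J → L} (hη : ∀ l l', η l l' = - η l' l)
    (hXη : ∀ k, ∑ l, η k l • t l = (X (arm k)).mulVec (uv Ω t k) -
      ∑ l, Ω k l • (X (arm l)).mulVec (t l)) :
    ∃ D : Derivation ℂ L L, (∀ l l', D (Ω l l') = η l l') ∧
      (fun l => Dv D (t l) - (X (arm l)).mulVec (t l)) ∈ Kc arm e Ω c := by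
  obtain ⟨D, hD, hDΩ⟩ := hV X hX η hη
  refine ⟨D, hDΩ, ?_⟩
  have ht1 := (mem_Kc hΩ).mp ht
  rw [mem_Kc hΩ]
  have hm : ∀ l, Dv D (t l) - (X (arm l)).mulVec (t l) ∈ Fl (e (arm l)) (c l) := fun l =>
    Dv_mem (hD (arm l)) (ht1.1 l)
  refine ⟨hm, fun l v hv => ?_⟩
  -- compute `Ω r`
  have h1 : uv Ω (fun l => Dv D (t l) - (X (arm l)).mulVec (t l)) l =
      Dv D (uv Ω t l) - (X (arm l)).mulVec (uv Ω t l) := by
    have h2 : Dv D (uv Ω t l) = ∑ k, (η l k • t k + Ω l k • Dv D (t k)) := by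
      funext b
      rw [Dv, uv, Finset.sum_apply, map_sum, Finset.sum_apply]
      refine Finset.sum_congr rfl fun k _ => ?_
      rw [Pi.smul_apply, smul_eq_mul, Derivation.leibniz, hDΩ, Pi.add_apply, Pi.smul_apply,
        Pi.smul_apply, smul_eq_mul, smul_eq_mul, smul_eq_mul, smul_eq_mul, Dv]
      ring
    rw [h2, Finset.sum_add_distrib, hXη l, uv]
    simp only [smul_sub, Finset.sum_sub_distrib]
    rw [uv]
    abel
  rw [h1]
  have h3 : qf (Dv D v) (uv Ω t l) + qf v (Dv D (uv Ω t l)) = 0 := by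
    rw [← D_qf, ht1.2 l v hv, map_zero]
  have h4 : qf (Dv D v) (uv Ω t l) = qf ((X (arm l)).mulVec v) (uv Ω t l) := by
    have h5 := ht1.2 l _ (Dv_mem (hD (arm l)) hv)
    rw [← qB_apply, map_sub, LinearMap.sub_apply, qB_apply, qB_apply, sub_eq_zero] at h5
    exact h5
  rw [h4, qf_skew (hX (arm l))] at h3
  rw [← qB_apply, map_sub, qB_apply, qB_apply]
  linear_combination h3

end real

end Vale.Agent.P182.H922
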