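import Vale.Agent.P182.H922.Six
import Vale.Agent.P182.H922.Bridge

/-!
# The dichotomy for versal configurations
-/

namespace Vale.Agent.P182.H922

open Module Matrix Vale.Agent.P182.H533 LieAlgebra.Orthogonal

section conf

variable {n : ℕ} {L : Type*} [Field L] {J : Type*} [Fintype J] [DecidableEq J]

/-- the linear map `L^J → V` attached to a family of vectors -/
def Tm (t : J → Fin n ⊕ Fin n → L) : (J → L) →ₗ[L] (Fin n ⊕ Fin n → L) :=
  ∑ k, (LinearMap.proj k).smulRight (t k)

omit [DecidableEq J] in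
theorem Tm_apply (t : J → Fin n ⊕ Fin n → L) (x : J → L) : Tm t x = ∑ k, x k • t k := by
  rw [Tm, LinearMap.sum_apply]
  rfl

theorem Tm_single (t : J → Fin n ⊕ Fin n → L) (k : J) : Tm t (Pi.single k 1) = t k := by
  rw [Tm_apply, Finset.sum_eq_single k]
  · rw [Pi.single_eq_same, one_smul]
  · intro l _ hl
    rw [Pi.single_eq_of_ne hl, zero_smul]
  · intro h; exact absurd (Finset.mem_univ _) h

omit [DecidableEq J] in
theorem Tm_add (t t' : J → Fin n ⊕ Fin n → L) : Tm (t + t') = Tm t + Tm t' := by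
  refine LinearMap.ext fun x => ?_
  rw [LinearMap.add_apply, Tm_apply, Tm_apply, Tm_apply, ← Finset.sum_add_distrib]
  refine Finset.sum_congr rfl fun k _ => ?_
  rw [Pi.add_apply, smul_add]

omit [DecidableEq J] in
theorem Tm_smul (c : L) (t : J → Fin n ⊕ Fin n → L) : Tm (c • t) = c • Tm t := by
  refine LinearMap.ext fun x => ?_
  rw [LinearMap.smul_apply, Tm_apply, Tm_apply, Finset.smul_sum]
  refine Finset.sum_congr rfl fun k _ => ?_
  rw [Pi.smul_apply, smul_comm]

theorem isForm_qB : IsForm (qB n L) where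
  symm := fun u v => by rw [qB_apply, qB_apply, qf_symm]
  nondeg := fun u h => by
    funext b
    have h1 := h (Pi.single (Sum.swap b) 1)
    rw [qB_apply, qf_eq, Finset.sum_eq_single b] at h1
    · rwa [Pi.single_eq_same, mul_one] at h1
    · intro b' _ hb'
      rw [Pi.single_eq_of_ne (fun h => hb' (Sum.swap_leftInverse.injective h)), mul_zero]
    · intro h; exact absurd (Finset.mem_univ _) h

theorem isSo_of_skew {X : Matrix (Fin n ⊕ Fin n) (Fin n ⊕ Fin n) L}
    (h : ∀ a b, qf (X.mulVec a) b = - qf a (X.mulVec b)) : IsSo X := by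
  rw [IsSo]
  ext i j
  have h1 := h (Pi.single i 1) (Pi.single j 1)
  rw [qf_dot, qf_dot, ← Matrix.vecMul_transpose, ← Matrix.dotProduct_mulVec,
    Matrix.mulVec_mulVec, Matrix.mulVec_mulVec, ← dotProduct_neg, ← Matrix.neg_mulVec] at h1
  simpa using h1

/-- the operators in coordinates -/
theorem opr_Tm (arm : J → Fin 3) {Ω : J → J → L} (hΩ : ∀ l l', Ω l l' = - Ω l' l)
    (r r' : J → Fin n ⊕ Fin n → L) (s : Fin 3) (v : Fin n ⊕ Fin n → L) :
    opr (qB n L) (Tm r) (Gm arm (Matrix.of Ω) s) (Tm r') v =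
      ∑ l ∈ Finset.univ.filter (fun l => arm l = s),
        (qf (uv Ω r' l) v • r l + qf (r' l) v • uv Ω r l) := by
  rw [opr_apply, Tm_apply]
  have h1 : ∀ l, (Gm arm (Matrix.of Ω) s *ᵥ ad (qB n L) (Tm r') v) l =
      (if arm l = s then qf (uv Ω r' l) v else 0) -
        ∑ k, if arm k = s then Ω l k * qf (r' k) v else 0 := by
    intro l
    have h2 : (Gm arm (Matrix.of Ω) s *ᵥ ad (qB n L) (Tm r') v) l =
        ∑ k, Gm arm (Matrix.of Ω) s l k * qf (r' k) v := by
      show ∑ k, Gm arm (Matrix.of Ω) s l k * ad (qB n L) (Tm r') v k = _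
      refine Finset.sum_congr rfl fun k _ => ?_
      rw [ad_apply, Tm_single, qB_apply]
    rw [h2, uv, qf_sum_left]
    have h3 : ∀ k, Gm arm (Matrix.of Ω) s l k * qf (r' k) v =
        (if arm l = s then Ω l k * qf (r' k) v else 0) -
          (if arm k = s then Ω l k * qf (r' k) v else 0) := by
      intro k
      rw [Gm_apply, Matrix.of_apply]
      split_ifs <;> ring
    rw [Finset.sum_congr rfl fun k _ => h3 k, Finset.sum_sub_distrib]
    congr 1
    split_ifs
    · rfl
    · exact Finset.sum_const_zero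
  simp only [h1, sub_smul, Finset.sum_sub_distrib, Finset.sum_smul]
  rw [Finset.sum_filter, Finset.sum_comm (f := fun l k =>
    (if arm k = s then Ω l k * qf (r' k) v else 0) • r l), ← Finset.sum_sub_distrib]
  refine Finset.sum_congr rfl fun k _ => ?_
  by_cases hk : arm k = s
  · simp only [hk, if_true]
    rw [sub_eq_add_neg]
    congr 1
    rw [uv, Finset.smul_sum, ← Finset.sum_neg_distrib]
    refine Finset.sum_congr rfl fun l _ => ?_
    rw [hΩ l k, smul_smul, neg_mul, neg_smul, neg_neg, mul_comm]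
  · simp only [hk, if_false, zero_smul, Finset.sum_const_zero, sub_zero]

variable [Algebra ℂ L]

/-- the first order relations -/
theorem kRel {arm : J → Fin 3} {e : Fin 3 → Fin n → Fin n ⊕ Fin n → L} {Ω : J → J → L}
    (hΩ : ∀ l l', Ω l l' = - Ω l' l) (hV : Versal e Ω) (c : J → ℕ) :
    KRel arm (qB n L) (Matrix.of Ω) (Tm '' (Kc arm e Ω c : Set (J → Fin n ⊕ Fin n → L))) where
  F1 := by
    rintro _ ⟨r, hr, rfl⟩ _ ⟨r', hr', rfl⟩ x y
    rw [Tm_apply, Tm_apply, Tm_apply, Tm_apply, qB_apply, qB_apply, qf_sum_left, qf_sum_left]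
    refine Finset.sum_congr rfl fun l _ => ?_
    rw [qf_sum_right, qf_sum_right]
    congr 1
    refine Finset.sum_congr rfl fun k _ => ?_
    rw [F1 hΩ hV hr hr' l k, qf_symm (r k)]
  F2 := by
    rintro _ ⟨r, hr, rfl⟩ _ ⟨r', hr', rfl⟩ s v w
    let X : Matrix (Fin n ⊕ Fin n) (Fin n ⊕ Fin n) L :=
      Matrix.vecMulVec w ((JD (Fin n) L).mulVec v) - Matrix.vecMulVec v ((JD (Fin n) L).mulVec w)
    have hX : ∀ a, X.mulVec a = qf v a • w - qf w a • v := by
      intro a
      have h1 : ∀ p r : Fin n ⊕ Fin n → L, (Matrix.vecMulVec p ((JD (Fin n) L).mulVec r)).mulVec a =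
          qf r a • p := by
        intro p r
        have h2 : qf r a = ((JD (Fin n) L).mulVec r) ⬝ᵥ a := by
          rw [qf_symm, qf_dot, dotProduct_comm]
        rw [h2]
        funext b
        simp only [Matrix.mulVec, Matrix.vecMulVec_apply, dotProduct, Pi.smul_apply, smul_eq_mul]
        rw [Finset.sum_mul]
        refine Finset.sum_congr rfl fun k _ => ?_
        ring
      show (_ - _ : Matrix _ _ L).mulVec a = _
      rw [Matrix.sub_mulVec, h1, h1]
    have hXso : IsSo X := by
      apply isSo_of_skew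
      intro a b
      rw [hX, hX]
      simp only [← qB_apply, map_sub, map_smul, LinearMap.sub_apply, LinearMap.smul_apply,
        smul_eq_mul]
      simp only [qB_apply]
      rw [qf_symm a w, qf_symm a v]
      ring
    have h := F2 hΩ hV hr hr' s hXso
    rw [opr_Tm arm hΩ, opr_Tm arm hΩ, map_sum, LinearMap.sum_apply, map_sum, ← sub_eq_zero,
      ← Finset.sum_sub_distrib, ← neg_eq_zero, ← Finset.sum_neg_distrib, ← h]
    refine Finset.sum_congr rfl fun l _ => ?_
    rw [hX, hX]
    simp only [← qB_apply, map_add, map_sub, map_smul, LinearMap.sub_apply, LinearMap.smul_apply,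
      LinearMap.add_apply, smul_eq_mul]
    simp only [qB_apply]
    rw [qf_symm (uv Ω r' l) v, qf_symm (uv Ω r l) w, qf_symm (r' l) v, qf_symm (r l) w,
      qf_symm (r' l) w, qf_symm (uv Ω r' l) w]
    ring

omit [Algebra ℂ L] in
/-- nilpotency of the residues -/
theorem nilp_Sop {arm : J → Fin 3} {e : Fin 3 → Fin n → Fin n ⊕ Fin n → L} {Ω : J → J → L}
    (hΩ : ∀ l l', Ω l l' = - Ω l' l) (hiso : ∀ s i j, qf (e s i) (e s j) = 0) {c : J → ℕ}
    {t : J → Fin n ⊕ Fin n → L} (ht : t ∈ Kc arm e Ω c) (s : Fin 3) :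
    IsNilpotent (Sop arm (qB n L) (Tm t) (Matrix.of Ω) s) := by
  have ht' := (mem_Kc hΩ).mp ht
  have hmono : ∀ a b, a ≤ b → Fl (e s) a ≤ Fl (e s) b := by
    intro a b hab
    apply Submodule.span_mono
    rintro v ⟨i, hi, rfl⟩
    exact ⟨i, lt_of_lt_of_le hi hab, rfl⟩
  have hall : ∀ a, Fl (e s) a ≤ Fl (e s) n := by
    intro a
    apply Submodule.span_mono
    rintro v ⟨i, _, rfl⟩
    exact ⟨i, i.2, rfl⟩
  have hiso' : ∀ a b, ∀ v ∈ Fl (e s) a, ∀ w ∈ Fl (e s) b, qf v w = 0 := by
    intro a b v hv w hw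
    induction hv using Submodule.span_induction with
    | mem v hv =>
      obtain ⟨i, _, rfl⟩ := hv
      induction hw using Submodule.span_induction with
      | mem w hw =>
        obtain ⟨j, _, rfl⟩ := hw
        exact hiso s i j
      | zero => rw [← qB_apply, map_zero]
      | add w w' _ _ h1 h2 => rw [← qB_apply, map_add, qB_apply, qB_apply, h1, h2, add_zero]
      | smul x w _ h1 => rw [← qB_apply, map_smul, qB_apply, h1, smul_zero]
    | zero => rw [← qB_apply, map_zero, LinearMap.zero_apply]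
    | add w w' _ _ h1 h2 =>
      rw [← qB_apply, map_add, LinearMap.add_apply, qB_apply, qB_apply, h1, h2, add_zero]
    | smul x w _ h1 => rw [← qB_apply, map_smul, LinearMap.smul_apply, qB_apply, h1, smul_zero]
  set S := Sop arm (qB n L) (Tm t) (Matrix.of Ω) s with hS
  have hSv : ∀ v, S v = ∑ l ∈ Finset.univ.filter (fun l => arm l = s),
      (qf (uv Ω t l) v • t l + qf (t l) v • uv Ω t l) := fun v => opr_Tm arm hΩ t t s v
  -- on the flags
  have h1 : ∀ a, ∀ v ∈ Fl (e s) (a + 1), S v ∈ Fl (e s) a := by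
    intro a v hv
    rw [hSv]
    refine Submodule.sum_mem _ fun l hl => ?_
    have hl' : arm l = s := (Finset.mem_filter.mp hl).2
    have h2 := ht'.1 l
    have h3 := ht'.2 l
    rw [hl'] at h2 h3
    rw [hiso' _ _ _ h2 _ hv, zero_smul, add_zero]
    by_cases hc : a + 1 ≤ c l
    · rw [qf_symm, h3 v (hmono _ _ hc hv), zero_smul]
      exact Submodule.zero_mem _
    · exact Submodule.smul_mem _ _ (hmono _ _ (by omega) h2)
  have h1' : ∀ a, ∀ v ∈ Fl (e s) a, (S ^ a) v = 0 := by
    intro a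
    induction a with
    | zero =>
      intro v hv
      have : Fl (e s) 0 = ⊥ := by
        rw [Fl, Submodule.span_eq_bot]
        rintro v ⟨i, hi, _⟩
        exact absurd hi (Nat.not_lt_zero _)
      rw [this, Submodule.mem_bot] at hv
      rw [hv, map_zero]
    | succ a ih =>
      intro v hv
      rw [pow_succ, Module.End.mul_apply]
      exact ih _ (h1 a v hv)
  -- on the orthogonal spaces
  have h4 : ∀ a, a ≤ n → ∀ v, ∀ w ∈ Fl (e s) a, qf w ((S ^ a) v) = 0 := by
    intro a
    induction a with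
    | zero =>
      intro _ v w hw
      have : Fl (e s) 0 = ⊥ := by
        rw [Fl, Submodule.span_eq_bot]
        rintro v ⟨i, hi, _⟩
        exact absurd hi (Nat.not_lt_zero _)
      rw [this, Submodule.mem_bot] at hw
      rw [hw, ← qB_apply, map_zero, LinearMap.zero_apply]
    | succ a ih =>
      intro ha v w hw
      have h5 := ih (by omega) v
      rw [pow_succ', Module.End.mul_apply, hSv]
      set v' := (S ^ a) v
      rw [← qB_apply, map_sum]
      refine Finset.sum_eq_zero fun l hl => ?_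
      have hl' : arm l = s := (Finset.mem_filter.mp hl).2
      have h2 := ht'.1 l
      have h3 := ht'.2 l
      rw [hl'] at h2 h3
      rw [map_add, map_smul, map_smul, qB_apply, qB_apply, hiso' _ _ _ hw _ h2, smul_zero,
        zero_add]
      by_cases hc : c l ≤ a
      · rw [h5 _ (hmono _ _ hc h2), zero_smul]
      · rw [h3 w (hmono _ _ (by omega) hw), smul_zero]
  have h6 : ∀ v, (S ^ (n + 1)) v ∈ Fl (e s) n := by
    intro v
    rw [pow_succ', Module.End.mul_apply, hSv]
    refine Submodule.sum_mem _ fun l hl => ?_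
    have hl' : arm l = s := (Finset.mem_filter.mp hl).2
    have h2 := ht'.1 l
    rw [hl'] at h2
    rw [h4 n le_rfl v _ (hall _ h2), zero_smul, add_zero]
    exact Submodule.smul_mem _ _ (hall _ h2)
  refine ⟨n + (n + 1), ?_⟩
  refine LinearMap.ext fun v => ?_
  rw [pow_add, Module.End.mul_apply, h1' n _ (h6 v)]
  rfl

/-- the realisation hypothesis -/
theorem real_of_versal {arm : J → Fin 3} {e : Fin 3 → Fin n → Fin n ⊕ Fin n → L} {Ω : J → J → L}
    (hΩ : ∀ l l', Ω l l' = - Ω l' l) (hV : Versal e Ω) {c : J → ℕ}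
    {t : J → Fin n ⊕ Fin n → L} (ht : t ∈ Kc arm e Ω c)
    (X : Fin 3 → End L (Fin n ⊕ Fin n → L)) (η : Matrix J J L) (hX : ∀ s, IsSk (qB n L) (X s))
    (hη : ηᵀ = -η)
    (hT : ∀ x, Tm t (η *ᵥ x) + ∑ s, X s (Tm t (Gm arm (Matrix.of Ω) s *ᵥ x)) = 0) :
    ∃ c' : H533.Conn (qB n L), ∃ R ∈ Tm '' (Kc arm e Ω c : Set (J → Fin n ⊕ Fin n → L)),
      (∀ j, c'.δ (Tm t (Pi.single j 1)) = X (arm j) (Tm t (Pi.single j 1)) + R (Pi.single j 1)) ∧
        ∀ i j, c'.d (Matrix.of Ω i j) = η i j := by
  have hXm : ∀ s a, (LinearMap.toMatrix' (X s)).mulVec a = X s a := fun s a => by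
    rw [← Matrix.toLin'_apply, Matrix.toLin'_toMatrix']
  have hη' : ∀ l l', η l l' = - η l' l := fun l l' => by
    have := congrFun (congrFun hη l') l
    rwa [Matrix.transpose_apply, Matrix.neg_apply] at this
  obtain ⟨D, hD, hr⟩ := versal_real hΩ hV ht (X := fun s => LinearMap.toMatrix' (X s))
    (fun s => isSo_of_skew fun a b => by
      rw [hXm, hXm]; exact hX s a b) (η := fun l l' => η l l') hη' (by
      intro k
      have h1 := hT (Pi.single k 1)
      have h2 : Tm t (η *ᵥ Pi.single k 1) = - ∑ l, η k l • t l := by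
        rw [Tm_apply, ← Finset.sum_neg_distrib]
        refine Finset.sum_congr rfl fun l _ => ?_
        rw [Matrix.mulVec_single_one, Matrix.col_apply, hη' l k, neg_smul]
      have h3 : ∀ s, X s (Tm t (Gm arm (Matrix.of Ω) s *ᵥ Pi.single k 1)) =
          ∑ l, ((if arm k = s then Ω k l • X s (t l) else 0) -
            (if arm l = s then Ω k l • X s (t l) else 0)) := by
        intro s
        rw [Tm_apply, map_sum]
        refine Finset.sum_congr rfl fun l _ => ?_
        rw [Matrix.mulVec_single_one, Matrix.col_apply, Gm_apply, Matrix.of_apply, hΩ l k, map_smul]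
        split_ifs <;> simp
      have h4 : ∑ s, X s (Tm t (Gm arm (Matrix.of Ω) s *ᵥ Pi.single k 1)) =
          X (arm k) (uv Ω t k) - ∑ l, Ω k l • X (arm l) (t l) := by
        rw [Finset.sum_congr rfl fun s _ => h3 s, Finset.sum_comm]
        simp only [Finset.sum_sub_distrib, Finset.sum_ite_eq, Finset.mem_univ, if_true]
        rw [uv, map_sum]
        simp only [map_smul]
      rw [h2, h4] at h1
      simp only [hXm]
      have h5 := neg_eq_zero.mpr h1
      rw [neg_add, neg_neg, neg_sub] at h5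
      rw [← sub_eq_zero, ← h5]
      abel)
  refine ⟨{ d := D.toLinearMap.toAddMonoidHom
            δ := { toFun := fun v => Dv D v
                   map_zero' := by funext b; simp [Dv]
                   map_add' := fun u v => by funext b; simp [Dv] }
            leib := fun a b => by
              show D (a * b) = D a * b + a * D b
              rw [Derivation.leibniz, smul_eq_mul, smul_eq_mul]
              ring
            smul := fun a v => by
              show Dv D (a • v) = D a • v + a • Dv D v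
              funext b
              simp only [Dv, Pi.smul_apply, smul_eq_mul, Derivation.leibniz, Pi.add_apply]
              ring
            metric := fun u v => D_qf D u v }, Tm _, ⟨_, hr, rfl⟩, fun j => ?_, fun i j => hD i j⟩
  rw [Tm_single, Tm_single]
  show Dv D (t j) = _
  rw [hXm]
  abel

/-- `t` has a core of maximal dimension among the elements of the kernel -/
def MaxCore (arm : J → Fin 3) (e : Fin 3 → Fin n → Fin n ⊕ Fin n → L) (Ω : J → J → L) (c : J → ℕ)
    (t : J → Fin n ⊕ Fin n → L) : Prop :=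
  t ∈ Kc arm e Ω c ∧ ∀ t' ∈ Kc arm e Ω c,
    ∀ C : Core (qB n L) (Sop arm (qB n L) (Tm t) (Matrix.of Ω)),
    ∀ C' : Core (qB n L) (Sop arm (qB n L) (Tm t') (Matrix.of Ω)),
      finrank L C'.V1 ≤ finrank L C.V1

omit [Algebra ℂ L] in
theorem finrank_core {S : Fin 3 → End L (Fin n ⊕ Fin n → L)} (C C' : Core (qB n L) S) :
    finrank L C.V1 = finrank L C'.V1 := by
  have hW : C.W = C'.W := by
    have h1 : ∀ (C : Core (qB n L) S) m, C.N ≤ m → H533.words S m = C.W := by
      intro C m hm
      induction m, hm using Nat.le_induction with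
      | base => exact C.hN.symm
      | succ m _ ih => rw [H533.words_succ, ih, C.hW]
    rw [← h1 C _ (le_max_left C.N C'.N), ← h1 C' _ (le_max_right C.N C'.N)]
  have h2 : ∀ C : Core (qB n L) S, finrank L C.V1 + finrank L (C.W ⊓ perp (qB n L) C.W : Submodule L _) =
      finrank L C.W := by
    intro C
    have h3 := Submodule.finrank_sup_add_finrank_inf_eq C.V1 (C.W ⊓ perp (qB n L) C.W)
    rw [C.sup, C.disj, finrank_bot] at h3
    omega
  have h3 := h2 C
  have h4 := h2 C'
  rw [← hW] at h4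
  omega

omit [Algebra ℂ L] in
theorem exists_maxCore (arm : J → Fin 3) (e : Fin 3 → Fin n → Fin n ⊕ Fin n → L) (Ω : J → J → L)
    (c : J → ℕ) : ∃ t, MaxCore arm e Ω c t := by
  classical
  let P : ℕ → Prop := fun d => ∃ t ∈ Kc arm e Ω c,
    ∃ C : Core (qB n L) (Sop arm (qB n L) (Tm t) (Matrix.of Ω)), finrank L C.V1 = d
  have hP : ∃ d, P d := by
    obtain ⟨C⟩ := exists_core (qB n L) (Sop arm (qB n L) (Tm (0 : J → Fin n ⊕ Fin n → L))
      (Matrix.of Ω))
    exact ⟨_, 0, Submodule.zero_mem _, C, rfl⟩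
  have hb : ∀ d, P d → d ≤ finrank L (Fin n ⊕ Fin n → L) := by
    rintro d ⟨t, _, C, rfl⟩
    exact Submodule.finrank_le _
  obtain ⟨t, ht, C, hC⟩ := Nat.findGreatest_spec (P := P) (hb _ hP.choose_spec) hP.choose_spec
  refine ⟨t, ht, fun t' ht' C1 C' => ?_⟩
  rw [finrank_core C1 C, hC]
  exact Nat.le_findGreatest (Submodule.finrank_le _) ⟨t', ht', C', rfl⟩

/-- **The dichotomy**: if `t` has maximal core then either its core is in the null case, or every
`t'` in the kernel is a scalar multiple of `t` up to an element `x` all whose residues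
`S_s(x)` span a space of nilpotent operators. -/
theorem dichotomy [IsAlgClosed L] [CharZero L] {arm : J → Fin 3}
    {e : Fin 3 → Fin n → Fin n ⊕ Fin n → L}
    {Ω : J → J → L} (hΩ : ∀ l l', Ω l l' = - Ω l' l) (hV : Versal e Ω)
    (hiso : ∀ s i j, qf (e s i) (e s j) = 0) {c : J → ℕ} {t : J → Fin n ⊕ Fin n → L}
    (ht : MaxCore arm e Ω c t) (C : Core (qB n L) (Sop arm (qB n L) (Tm t) (Matrix.of Ω))) :
    NullCore C isForm_qB ∨ ∀ t' ∈ Kc arm e Ω c, ∃ d : L, ∀ a : Fin 3 → L,
      IsNilpotent (lc (Sop arm (qB n L) (Tm (t' - d • t)) (Matrix.of Ω)) a) := by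
  by_cases hnull : NullCore C isForm_qB
  · exact Or.inl hnull
  right
  intro t' ht'
  have hq : IsForm (qB n L) := isForm_qB
  have hΩ' : (Matrix.of Ω)ᵀ = -(Matrix.of Ω) := by
    ext i j
    rw [Matrix.transpose_apply, Matrix.neg_apply, Matrix.of_apply, Matrix.of_apply, hΩ]
  have hK := kRel (arm := arm) hΩ hV c
  have h2 : (2 : L) ≠ 0 := two_ne_zero
  have hT : Tm t ∈ Tm '' (Kc arm e Ω c : Set (J → Fin n ⊕ Fin n → L)) := ⟨t, ht.1, rfl⟩
  have hT' : Tm t' ∈ Tm '' (Kc arm e Ω c : Set (J → Fin n ⊕ Fin n → L)) := ⟨t', ht', rfl⟩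
  have hSA := Sop_SA arm hq (Tm t) hΩ'
  obtain ⟨D, hDs, hD1, hD2⟩ := C.exists_D hq hSA (hK.compat hq hΩ' hT hT')
  rcases one_eigenvalue_or_null hq h2 hΩ' hK hT (fun X η hX hη hTη =>
    real_of_versal hΩ hV ht.1 X η hX hη hTη) (fun s => nilp_Sop hΩ hiso ht.1 s) C hT' hD1 hD2 hDs
    with ⟨d, hd⟩ | h
  swap
  · exact absurd h hnull
  refine ⟨d, fun a => ?_⟩
  have hx : t' - d • t ∈ Kc arm e Ω c := Submodule.sub_mem _ ht' (Submodule.smul_mem _ _ ht.1)
  have hy : t + (t' - d • t) ∈ Kc arm e Ω c := Submodule.add_mem _ ht.1 hx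
  have hxe : Tm (t' - d • t) = Tm t' - d • Tm t := by
    refine LinearMap.ext fun y => ?_
    rw [LinearMap.sub_apply, LinearMap.smul_apply, Tm_apply, Tm_apply, Tm_apply, Finset.smul_sum,
      ← Finset.sum_sub_distrib]
    refine Finset.sum_congr rfl fun k _ => ?_
    rw [Pi.sub_apply, Pi.smul_apply, smul_sub, smul_comm]
  have hx' : Tm t' - d • Tm t ∈ Tm '' (Kc arm e Ω c : Set (J → Fin n ⊕ Fin n → L)) :=
    ⟨_, hx, hxe⟩
  have hTe : Tm (t + (t' - d • t)) = Tm t + (Tm t' - d • Tm t) := by rw [Tm_add, hxe]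
  have hTx : Tm t + (Tm t' - d • Tm t) ∈ Tm '' (Kc arm e Ω c : Set (J → Fin n ⊕ Fin n → L)) :=
    ⟨_, hy, hTe⟩
  have hmax : ∀ C' : Core (qB n L) (Sop arm (qB n L) (Tm t + (Tm t' - d • Tm t)) (Matrix.of Ω)),
      finrank L C'.V1 ≤ finrank L C.V1 := by
    rw [← hTe]
    exact fun C' => ht.2 _ hy C C'
  obtain ⟨C'⟩ := exists_core (qB n L)
    (Sop arm (qB n L) (Tm t + (Tm t' - d • Tm t)) (Matrix.of Ω))
  rw [hxe]
  exact nilpotent_sub hq hΩ' hK hT hx' hTx C C' (hmax C') hD1 hD2 hd a

end conf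

end Vale.Agent.P182.H922
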