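import Vale.Agent.P182.H922.NullH

/-!
# The null case: `HH s` contains the commutants, and the end

(A) `mem_HH`: for a good parameter `x` and `β` self adjoint commuting with `(1 + x D)² S_s`,
`β (1 + x D)` is in `HH s`.
(C) `HH_end`: an element of all `HH s` is self adjoint.
-/

namespace Vale.Agent.P182.H922

open Module Matrix Vale.Agent.P182.H533 Vale.Agent.P182.B1 Vale.Agent.P182.H578

section core

variable {L V J : Type*} [Field L] [AddCommGroup V] [Module L V] [FiniteDimensional L V]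
  [Fintype J] [DecidableEq J] {𝒟 : Cfg L V J}

section gen

variable {q : V →ₗ[L] V →ₗ[L] L} {ι : Type*} {S : ι → End L V}

omit [FiniteDimensional L V] in
theorem mem_perp_I (C : Core q S) (hI : C.I = ⊥) (v : V) : v ∈ perp q C.I := by
  rw [hI]
  intro w hw
  rw [(Submodule.mem_bot L).mp hw, map_zero]

theorem P_self (C : Core q S) (hq : IsForm q) (hI : C.I = ⊥) {v : V} (hv : v ∈ C.W) :
    (C.P hq v : V) = v := by
  have h1 := C.sub_P_mem_I hq hv
  rw [hI, Submodule.mem_bot, sub_eq_zero] at h1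
  exact h1.symm

theorem P_S' (C : Core q S) (hq : IsForm q) (hS : ∀ s, IsSA q (S s)) (hI : C.I = ⊥) (s : ι)
    (v : V) : C.P hq (S s v) = C.S1 hq s (C.P hq v) := C.P_S hq hS s (mem_perp_I C hI v)

/-- the decomposition of a vector -/
theorem sub_P (C : Core q S) (hq : IsForm q) (hI : C.I = ⊥) (v : V) :
    v - C.P hq v ∈ perp q C.W := C.sub_P_mem hq (mem_perp_I C hI v)

theorem q_P' (C : Core q S) (hq : IsForm q) (hI : C.I = ⊥) {w : V} (hw : w ∈ C.W) (v : V) :
    q (C.P hq v) w = q v w := by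
  have := sub_P C hq hI v w hw
  rw [map_sub, LinearMap.sub_apply, sub_eq_zero] at this
  exact this.symm

end gen

/-- the composition rule for the operators -/
theorem opr_comp {t r : J → V} (h : ∀ l k, 𝒟.q (t l) (r k) = 𝒟.q (r l) (t k)) (φ ψ : J → V)
    (a b : Fin 3) (v : V) :
    opr 𝒟.q (Tt L φ) (Gm 𝒟.arm 𝒟.Ω b) (Tt L t) (opr 𝒟.q (Tt L r) (Gm 𝒟.arm 𝒟.Ω a) (Tt L ψ) v) =
      opr 𝒟.q (Tt L φ) (Gm 𝒟.arm 𝒟.Ω b) (Tt L r)
        (opr 𝒟.q (Tt L t) (Gm 𝒟.arm 𝒟.Ω a) (Tt L ψ) v) := by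
  have key : ∀ x y, 𝒟.q (Tt L t x) (Tt L r y) = 𝒟.q (Tt L r x) (Tt L t y) := by
    intro x y
    rw [Tt_apply, Tt_apply, Tt_apply, Tt_apply]
    simp only [map_sum, map_smul, LinearMap.sum_apply, LinearMap.smul_apply, smul_eq_mul, h]
  rw [opr_apply, opr_apply, opr_apply, opr_apply, ad_comp key]

/-- a family related to `t` gives a compatible family of operators -/
theorem compat_of_rel (hG : 𝒟.Good) {t r : J → V} (h : Rel 𝒟 t r) :
    Compat 𝒟.q (Res 𝒟 t) fun a => opr 𝒟.q (Tt L t) (Gm 𝒟.arm 𝒟.Ω a) (Tt L r) where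
  sa := h.2
  rel a b v := by
    show opr 𝒟.q (Tt L t) (Gm 𝒟.arm 𝒟.Ω b) (Tt L r)
        (opr 𝒟.q (Tt L t) (Gm 𝒟.arm 𝒟.Ω a) (Tt L t) v) =
      opr 𝒟.q (Tt L t) (Gm 𝒟.arm 𝒟.Ω b) (Tt L t) (opr 𝒟.q (Tt L t) (Gm 𝒟.arm 𝒟.Ω a) (Tt L r) v)
    rw [h.swap hG a, opr_comp h.1]

/-- the image of the operators is in the image of `t` -/
theorem W_le_range {t : J → V} (C : Core 𝒟.q (Res 𝒟 t)) : C.W ≤ LinearMap.range (Tt L t) := by
  intro w hw
  rw [← C.hW] at hw
  refine Submodule.iSup_induction (fun s => C.W.map (Res 𝒟 t s))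
    (motive := fun x => x ∈ LinearMap.range (Tt L t)) hw ?_ (zero_mem _)
    (fun x y hx hy => add_mem hx hy)
  rintro s _ ⟨w, -, rfl⟩
  exact ⟨_, rfl⟩

/-- the core parts of the `t l` span -/
theorem ext_core (hG : 𝒟.Good) {t : J → V} (C : Core 𝒟.q (Res 𝒟 t)) {f g : End L C.V1}
    (h : ∀ l, f (C.P hG.form (t l)) = g (C.P hG.form (t l))) : f = g := by
  refine LinearMap.ext fun v => ?_
  obtain ⟨x, hx⟩ := W_le_range C (C.V1_le v.2)
  have h1 : v = ∑ l, x l • C.P hG.form (t l) := by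
    have h2 : C.P hG.form (Tt L t x) = v := by rw [hx, C.P_coe]
    rw [← h2, Tt_apply, map_sum]
    simp only [map_smul]
  rw [h1, map_sum, map_sum]
  simp only [map_smul, h]

/-- the map `om` and linear maps -/
theorem om_lin {V' : Type*} [AddCommGroup V'] [Module L V'] (f : V →ₗ[L] V') (t : J → V) (l : J) :
    f (𝒟.om t l) = ∑ k, 𝒟.Ω l k • f (t k) := by
  rw [Cfg.om, map_sum]
  simp only [map_smul]

/-- **The core part of a family related to `t`** (honest case). -/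
theorem core_eq (hG : 𝒟.Good) {t r : J → V} (h : Rel 𝒟 t r) (C : Core 𝒟.q (Res 𝒟 t))
    (hI : C.I = ⊥) : ∃ M : End L C.V1, IsSA C.q1 M ∧
      (∀ s, M * C.S1 hG.form s = C.S1 hG.form s * M) ∧
      (∀ s, C.res hG.form (opr 𝒟.q (Tt L t) (Gm 𝒟.arm 𝒟.Ω s) (Tt L r)) = C.S1 hG.form s * M) ∧
      (∀ l, C.P hG.form (r l) = M (C.P hG.form (t l))) ∧
      ∀ a, ∀ v ∈ perp 𝒟.q C.W,
        C.P hG.form (opr 𝒟.q (Tt L t) (Gm 𝒟.arm 𝒟.Ω a) (Tt L r) v) = 0 := by
  have hq := hG.form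
  have hSA : ∀ s, IsSA 𝒟.q (Res 𝒟 t s) := Sop_SA 𝒟.arm hq (Tt L t) hG.skew
  have hc := compat_of_rel hG h
  obtain ⟨M, hM, h1, h2⟩ := C.exists_D hq hSA hc
  refine ⟨M, hM, fun s => by rw [← h1, ← h2], h1, fun l => ?_,
    fun a v hv => C.P_eq_zero hq (hc.map_perp C a hv)⟩
  apply (C.isForm hq).ext
  intro w
  have hw : w ∈ ⨆ s, LinearMap.range (C.S1 hq s) := by rw [C.S1_span hq hSA]; trivial
  refine Submodule.iSup_induction (fun s => LinearMap.range (C.S1 hq s))
    (motive := fun x => C.q1 (C.P hq (r l)) x = C.q1 (M (C.P hq (t l))) x) hw ?_ ?_ ?_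
  · rintro s _ ⟨w, rfl⟩
    -- `r^* t = t^* r`
    have e1 : (C.S1 hq s w : V) = Res 𝒟 t s w := by
      rw [C.S1_apply]
      exact P_self C hq hI (C.map_W (C.V1_le w.2))
    rw [C.q_P, e1, hM, C.q_P]
    -- the right hand side
    have e2 : (M (C.S1 hq s w) : V) = opr 𝒟.q (Tt L t) (Gm 𝒟.arm 𝒟.Ω s) (Tt L r) w := by
      have h3 : M (C.S1 hq s w) = C.res hq (opr 𝒟.q (Tt L t) (Gm 𝒟.arm 𝒟.Ω s) (Tt L r)) w := by
        rw [h2]; rfl
      rw [h3, C.res_apply]
      exact P_self C hq hI (hc.map_W C s (C.V1_le w.2))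
    rw [e2, h.swap hG]
    show 𝒟.q (r l) (opr 𝒟.q (Tt L t) (Gm 𝒟.arm 𝒟.Ω s) (Tt L t) w) = _
    rw [opr_apply, opr_apply, Tt_apply, Tt_apply, map_sum, map_sum]
    refine Finset.sum_congr rfl fun k _ => ?_
    rw [map_smul, map_smul, ← h.1 l k]
  · rw [map_zero, map_zero]
  · intro x y hx hy
    rw [map_add, map_add, hx, hy]

/-! ### The base `t + x t'` -/

section base

variable (hG : 𝒟.Good) {t t' : J → V} (C : Core 𝒟.q (Res 𝒟 t)) {D : End L C.V1}

include hG

theorem P_tx (hD : ∀ l, C.P hG.form (t' l) = D (C.P hG.form (t l))) (x : L) (l : J) :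
    C.P hG.form ((t + x • t') l) = (1 + x • D) (C.P hG.form (t l)) := by
  rw [Pi.add_apply, Pi.smul_apply, map_add, map_smul, hD, LinearMap.add_apply,
    LinearMap.smul_apply]
  rfl

theorem P_Ttx (hD : ∀ l, C.P hG.form (t' l) = D (C.P hG.form (t l))) (x : L) (y : J → L) :
    C.P hG.form (Tt L (t + x • t') y) = (1 + x • D) (C.P hG.form (Tt L t y)) := by
  rw [Tt_apply, Tt_apply, map_sum, map_sum, map_sum]
  refine Finset.sum_congr rfl fun l _ => ?_
  rw [map_smul, map_smul, map_smul, P_tx hG C hD]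

theorem P_omx (hD : ∀ l, C.P hG.form (t' l) = D (C.P hG.form (t l))) (x : L) (l : J) :
    C.P hG.form (𝒟.om (t + x • t') l) = (1 + x • D) (C.P hG.form (𝒟.om t l)) := by
  rw [om_eq, om_eq, P_Ttx hG C hD]

theorem P_opr (hD : ∀ l, C.P hG.form (t' l) = D (C.P hG.form (t l))) (x : L) (r : J → V)
    (a : Fin 3) (v : V) :
    C.P hG.form (opr 𝒟.q (Tt L (t + x • t')) (Gm 𝒟.arm 𝒟.Ω a) (Tt L r) v) =
      (1 + x • D) (C.P hG.form (opr 𝒟.q (Tt L t) (Gm 𝒟.arm 𝒟.Ω a) (Tt L r) v)) := by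
  rw [opr_apply, opr_apply, P_Ttx hG C hD]

theorem opr_tx (hDs : IsSA C.q1 D) (hD : ∀ l, C.P hG.form (t' l) = D (C.P hG.form (t l))) (x : L)
    (r : J → V) (a : Fin 3) (v : C.V1) :
    opr 𝒟.q (Tt L r) (Gm 𝒟.arm 𝒟.Ω a) (Tt L (t + x • t')) v =
      opr 𝒟.q (Tt L r) (Gm 𝒟.arm 𝒟.Ω a) (Tt L t) ((1 + x • D) v : C.V1) := by
  rw [opr_apply, opr_apply]
  congr 2
  funext j
  rw [ad_apply, ad_apply, ← C.q_P hG.form, ← C.q_P hG.form, P_Ttx hG C hD]
  have h1 : IsSA C.q1 (1 + x • D) := by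
    intro u w
    rw [LinearMap.add_apply, LinearMap.add_apply, map_add, map_add, LinearMap.add_apply,
      LinearMap.smul_apply, LinearMap.smul_apply, map_smul, map_smul, LinearMap.smul_apply, hDs]
    rfl
  rw [h1]

/-- the residues of `t + x t'` on the core -/
theorem P_Resx (hDs : IsSA C.q1 D) (hDc : ∀ s, D * C.S1 hG.form s = C.S1 hG.form s * D)
    (hD : ∀ l, C.P hG.form (t' l) = D (C.P hG.form (t l))) (x : L) (a : Fin 3) (v : C.V1) :
    C.P hG.form (Res 𝒟 (t + x • t') a v) =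
      ((1 + x • D) ^ 2 * C.S1 hG.form a : End L C.V1) v := by
  have h1 : (1 + x • D) * C.S1 hG.form a = C.S1 hG.form a * (1 + x • D) := by
    rw [add_mul, mul_add, one_mul, mul_one, smul_mul_assoc, mul_smul_comm, hDc]
  show C.P hG.form (opr 𝒟.q (Tt L (t + x • t')) (Gm 𝒟.arm 𝒟.Ω a) (Tt L (t + x • t')) v) = _
  rw [P_opr hG C hD, opr_tx hG C hDs hD]
  show (1 + x • D) (C.S1 hG.form a ((1 + x • D) v)) = _
  rw [pow_two, mul_assoc, h1]
  rfl

/-- the residues of `t + x t'` are compatible with those of `t` -/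
theorem compat_tx (ht : Rel 𝒟 t t') (x : L) :
    Compat 𝒟.q (Res 𝒟 t) (Res 𝒟 (t + x • t')) where
  sa := Sop_SA 𝒟.arm hG.form (Tt L (t + x • t')) hG.skew
  rel a b v := by
    have e : ∀ (c : Fin 3) (u : V), Res 𝒟 (t + x • t') c u =
        Res 𝒟 t c u + (2 * x) • opr 𝒟.q (Tt L t) (Gm 𝒟.arm 𝒟.Ω c) (Tt L t') u +
          (x * x) • Res 𝒟 t' c u := by
      intro c u
      have h1 := LinearMap.congr_fun (ht.swap hG c) u
      show opr 𝒟.q (Tt L (t + x • t')) (Gm 𝒟.arm 𝒟.Ω c) (Tt L (t + x • t')) u = _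
      rw [Tt_add, Tt_smul, opr_add_left, opr_add_right, opr_smul_left, opr_add_right,
        opr_smul_right, opr_smul_right]
      simp only [LinearMap.add_apply, LinearMap.smul_apply]
      rw [← h1]
      show Res 𝒟 t c u + _ + _ = _
      unfold Res Sop
      module
    have h2 := (compat_of_rel hG ht).rel a b v
    have h3 : Res 𝒟 t' b (Res 𝒟 t a v) = Res 𝒟 t b (Res 𝒟 t' a v) := by
      have s1 := fun c u => LinearMap.congr_fun (ht.swap hG c) u
      show opr 𝒟.q (Tt L t') (Gm 𝒟.arm 𝒟.Ω b) (Tt L t')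
          (opr 𝒟.q (Tt L t) (Gm 𝒟.arm 𝒟.Ω a) (Tt L t) v) =
        opr 𝒟.q (Tt L t) (Gm 𝒟.arm 𝒟.Ω b) (Tt L t)
          (opr 𝒟.q (Tt L t') (Gm 𝒟.arm 𝒟.Ω a) (Tt L t') v)
      rw [← opr_comp ht.1 t' t a b v, opr_comp ht.1 t t' a b v, ← s1, ← s1]
    have h2' : opr 𝒟.q (Tt L t) (Gm 𝒟.arm 𝒟.Ω b) (Tt L t') (Res 𝒟 t a v) =
        Res 𝒟 t b (opr 𝒟.q (Tt L t) (Gm 𝒟.arm 𝒟.Ω a) (Tt L t') v) := h2
    rw [e, e, map_add, map_add, map_smul, map_smul, h2', h3]

variable (hI : C.I = ⊥) (ht : Rel 𝒟 t t') (hDs : IsSA C.q1 D)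
  (hDc : ∀ s, D * C.S1 hG.form s = C.S1 hG.form s * D)
  (hD : ∀ l, C.P hG.form (t' l) = D (C.P hG.form (t l)))

include hDc in
omit ht hDs hD in
theorem comm_sq (x : L) (s : Fin 3) :
    (1 + x • D) ^ 2 * C.S1 hG.form s = C.S1 hG.form s * (1 + x • D) ^ 2 := by
  have h1 : (1 + x • D) * C.S1 hG.form s = C.S1 hG.form s * (1 + x • D) := by
    rw [add_mul, mul_add, one_mul, mul_one, smul_mul_assoc, mul_smul_comm, hDc]
  rw [pow_two, mul_assoc, h1, ← mul_assoc, h1, mul_assoc]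

include hI ht hDs hDc hD

/-- the residues of `t + x t'` on `V₁`, without projection -/
theorem Resx_V1 (x : L) (s : Fin 3) (v : C.V1) :
    Res 𝒟 (t + x • t') s v = (((1 + x • D) ^ 2 * C.S1 hG.form s : End L C.V1) v : V) := by
  rw [← P_Resx hG C hDs hDc hD]
  exact (P_self C hG.form hI ((compat_tx hG ht x).map_W C s (C.V1_le v.2))).symm

/-- the image of `V₁` under the residues of `t + x t'` -/
theorem map_Wx {x : L} (hu : IsUnit (1 + x • D)) :
    ⨆ s, C.W.map (Res 𝒟 (t + x • t') s) = C.W := by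
  have hq := hG.form
  have hSA : ∀ s, IsSA 𝒟.q (Res 𝒟 t s) := Sop_SA 𝒟.arm hq (Tt L t) hG.skew
  have hc := compat_tx hG ht x
  apply le_antisymm
  · refine iSup_le fun s => ?_
    rintro _ ⟨w, hw, rfl⟩
    exact hc.map_W C s hw
  · have h1 : (⊤ : Submodule L C.V1) ≤
        (⨆ s, C.W.map (Res 𝒟 (t + x • t') s)).comap C.V1.subtype := by
      rw [← C.S1_span hq hSA]
      refine iSup_le fun s => ?_
      rintro _ ⟨v, rfl⟩
      obtain ⟨g, hg⟩ := (hu.pow 2).exists_right_inv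
      have h2 : C.S1 hq s v = ((1 + x • D) ^ 2 * C.S1 hq s : End L C.V1) (g v) := by
        rw [comm_sq hG C hDc, Module.End.mul_apply, ← Module.End.mul_apply ((1 + x • D) ^ 2),
          hg]
        rfl
      rw [Submodule.mem_comap, Submodule.subtype_apply, h2, ← Resx_V1 hG C hI ht hDs hDc hD]
      exact Submodule.mem_iSup_of_mem s (Submodule.mem_map_of_mem (C.V1_le (g v).2))
    intro w hw
    have h3 := h1 (show C.P hq w ∈ ⊤ from trivial)
    show w ∈ _
    rw [← P_self C hq hI hw]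
    exact h3

/-- the core of `t + x t'` -/
noncomputable def coreX {x : L} (hx : GoodL hG (t' := t') C D x) : Core 𝒟.q (Res 𝒟 (t + x • t')) where
  N := hx.nil.choose
  W := C.W
  hN := by
    apply le_antisymm
    · have h1 := map_Wx hG C hI ht hDs hDc hD hx.unit
      have h2 : ∀ n, C.W ≤ H533.words (Res 𝒟 (t + x • t')) n := by
        intro n
        induction n with
        | zero => exact le_top
        | succ n ih =>
          rw [words_succ]
          conv_lhs => rw [← h1]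
          exact iSup_mono fun s => Submodule.map_mono ih
      exact h2 _
    · exact hx.nil.choose_spec
  hW := map_Wx hG C hI ht hDs hDc hD hx.unit
  V1 := C.V1
  sup := C.sup
  disj := C.disj

theorem resx_eq (x : L) (s : Fin 3) :
    C.res hG.form (Res 𝒟 (t + x • t') s) = (1 + x • D) ^ 2 * C.S1 hG.form s :=
  LinearMap.ext fun v => P_Resx hG C hDs hDc hD x s v

/-- the core part of a family related to `t + x t'` -/
theorem core_eqx {x : L} (hx : GoodL hG (t' := t') C D x) {r : J → V}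
    (hr : Rel 𝒟 (t + x • t') r) : ∃ M : End L C.V1, IsSA C.q1 M ∧
      (∀ s, M * ((1 + x • D) ^ 2 * C.S1 hG.form s) = (1 + x • D) ^ 2 * C.S1 hG.form s * M) ∧
      (∀ s, C.res hG.form (opr 𝒟.q (Tt L (t + x • t')) (Gm 𝒟.arm 𝒟.Ω s) (Tt L r)) =
        (1 + x • D) ^ 2 * C.S1 hG.form s * M) ∧
      (∀ l, C.P hG.form (r l) = M (C.P hG.form ((t + x • t') l))) ∧
      ∀ a, ∀ v ∈ perp 𝒟.q C.W,
        C.P hG.form (opr 𝒟.q (Tt L (t + x • t')) (Gm 𝒟.arm 𝒟.Ω a) (Tt L r) v) = 0 := by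
  have h : ∃ M : End L C.V1, IsSA C.q1 M ∧
      (∀ s, M * C.res hG.form (Res 𝒟 (t + x • t') s) =
        C.res hG.form (Res 𝒟 (t + x • t') s) * M) ∧
      (∀ s, C.res hG.form (opr 𝒟.q (Tt L (t + x • t')) (Gm 𝒟.arm 𝒟.Ω s) (Tt L r)) =
        C.res hG.form (Res 𝒟 (t + x • t') s) * M) ∧
      (∀ l, C.P hG.form (r l) = M (C.P hG.form ((t + x • t') l))) ∧
      ∀ a, ∀ v ∈ perp 𝒟.q C.W,
        C.P hG.form (opr 𝒟.q (Tt L (t + x • t')) (Gm 𝒟.arm 𝒟.Ω a) (Tt L r) v) = 0 :=
    core_eq hG hr (coreX hG C hI ht hDs hDc hD hx) hI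
  simp only [resx_eq hG C hI ht hDs hDc hD] at h
  exact h

theorem sa_one_add (x : L) : IsSA C.q1 (1 + x • D) := by
  intro u w
  rw [LinearMap.add_apply, LinearMap.add_apply, map_add, map_add, LinearMap.add_apply,
    LinearMap.smul_apply, LinearMap.smul_apply, map_smul, map_smul, LinearMap.smul_apply, hDs]
  rfl

theorem comm_one_add (x : L) (s : Fin 3) :
    (1 + x • D) * C.S1 hG.form s = C.S1 hG.form s * (1 + x • D) := by
  rw [add_mul, mul_add, one_mul, mul_one, smul_mul_assoc, mul_smul_comm, hDc]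

/-- **(A), first part**: families related to `t + x t'` have a good core part -/
theorem rm_of_rel {x : L} (hx : GoodL hG (t' := t') C D x) {r : J → V}
    (hr : Rel 𝒟 (t + x • t') r) : Rm hG C r := by
  obtain ⟨M, h1, h2, h3, h4, h5⟩ := core_eqx hG C hI ht hDs hDc hD hx hr
  have h6 : M * D = D * M := hx.central M h1 h2
  have h7 : M * (1 + x • D) = (1 + x • D) * M := by
    rw [mul_add, add_mul, one_mul, mul_one, mul_smul_comm, smul_mul_assoc, h6]
  have hu := hx.unit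
  have hs1 : IsSA C.q1 (1 + x • D) := sa_one_add hG C hI ht hDs hDc hD x
  have h9 := comm_one_add hG C hI ht hDs hDc hD x
  have h7' : M * (1 + x • D) ^ 2 = (1 + x • D) ^ 2 * M := by
    rw [pow_two, ← mul_assoc, h7, mul_assoc, h7, mul_assoc]
  have h8 : ∀ s, M * C.S1 hG.form s = C.S1 hG.form s * M := by
    intro s
    apply (hu.pow 2).mul_left_cancel
    rw [← mul_assoc, ← h7', mul_assoc, h2, mul_assoc]
  refine ⟨⟨M * (1 + x • D), ?_, ?_, ?_⟩, ?_⟩
  · intro u w
    rw [Module.End.mul_apply, h1, hs1, ← Module.End.mul_apply, h7]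
  · intro s
    rw [mul_assoc, h9, ← mul_assoc, h8, mul_assoc]
  · intro l
    have := h4 l
    rw [Module.End.mul_apply, ← P_tx hG C hD]
    exact this
  · intro a v hv
    have h10 := h5 a v hv
    have h11 : (1 + x • D)
        (C.P hG.form (opr 𝒟.q (Tt L t) (Gm 𝒟.arm 𝒟.Ω a) (Tt L r) v)) = 0 := by
      rw [← P_opr hG C hD]
      exact h10
    obtain ⟨g, hg⟩ := hu.exists_left_inv
    have h12 := congrArg g h11
    rw [map_zero, ← Module.End.mul_apply, hg] at h12
    exact h12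

/-- the extension of an endomorphism of `V₁` by zero -/
noncomputable def ext0 (β : End L C.V1) : End L V := C.V1.subtype ∘ₗ β ∘ₗ C.P hG.form

/-- **(A)** -/
theorem mem_HH (h2 : (2 : L) ≠ 0) (hV : 𝒟.Versal) {x : L} (hx : GoodL hG (t' := t') C D x)
    (hxK : t + x • t' ∈ 𝒟.K) (s : Fin 3) {β : End L C.V1} (hβ : IsSA C.q1 β)
    (hc : β * ((1 + x • D) ^ 2 * C.S1 hG.form s) = (1 + x • D) ^ 2 * C.S1 hG.form s * β) :
    β * (1 + x • D) ∈ HH hG C s := by
  have hq := hG.form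
  set β' : End L V := C.V1.subtype ∘ₗ β ∘ₗ C.P hq with hβ'
  have hβa : ∀ v, β' v = (β (C.P hq v) : V) := fun v => rfl
  have hcx := compat_tx hG ht x
  have hSAx : ∀ s, IsSA 𝒟.q (Res 𝒟 (t + x • t') s) := hcx.sa
  have hPS : ∀ v, C.P hq (Res 𝒟 (t + x • t') s v) =
      ((1 + x • D) ^ 2 * C.S1 hq s : End L C.V1) (C.P hq v) := by
    intro v
    have h3 : C.P hq (Res 𝒟 (t + x • t') s (v - C.P hq v)) = 0 :=
      C.P_eq_zero hq (hcx.map_perp C s (sub_P C hq hI v))
    rw [map_sub, map_sub, sub_eq_zero] at h3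
    rw [h3, P_Resx hG C hDs hDc hD]
  have hSAβ : IsSA 𝒟.q β' := by
    have e : ∀ (a : C.V1) (v : V), 𝒟.q (a : V) v = C.q1 a (C.P hq v) := fun a v => by
      rw [hq.symm, ← C.q_P hq, (C.isForm hq).symm]
    intro u v
    rw [hβa, hβa, e, hq.symm u, e, hβ, (C.isForm hq).symm]
  have hcomm : β' * Res 𝒟 (t + x • t') s = Res 𝒟 (t + x • t') s * β' := by
    refine LinearMap.ext fun v => ?_
    rw [Module.End.mul_apply, Module.End.mul_apply, hβa, hβa, hPS,
      Resx_V1 hG C hI ht hDs hDc hD, ← Module.End.mul_apply, hc]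
    rfl
  obtain ⟨r, hF1, hF2, hr⟩ := surj_gen h2 hG hV hxK (β := fun s' => if s' = s then β' else 0)
    (fun s' => by
      by_cases h : s' = s
      · simpa [h] using hSAβ
      · intro u v; simp [h])
    (fun s' => by
      by_cases h : s' = s
      · subst h; simpa using hcomm
      · simp [h])
    (fun k hk => by
      refine Finset.sum_eq_zero fun s' _ => ?_
      by_cases h : s' = s
      · subst h
        rw [if_pos rfl]
        obtain ⟨M, h1, h3, h4, -, -⟩ := core_eqx hG C hI ht hDs hDc hD hx (Rel_K hG hV hxK hk)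
        set X := opr 𝒟.q (Tt L (t + x • t')) (Gm 𝒟.arm 𝒟.Ω s') (Tt L k) with hX
        set τ := (1 + x • D) ^ 2 * C.S1 hG.form s' with hτ
        have e1 : LinearMap.trace L V (β' * X) = LinearMap.trace L C.V1 (β * C.res hq X) := by
          have e2 : β' * X = C.V1.subtype ∘ₗ ((β ∘ₗ C.P hq) ∘ₗ X) := rfl
          rw [e2, LinearMap.trace_comp_comm']
          rfl
        rw [e1, h4, ← mul_assoc, hc, mul_assoc]
        have h5 : Commute τ (β * M) := by
          show τ * (β * M) = β * M * τ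
          rw [← mul_assoc, ← hc, mul_assoc, ← h3, ← mul_assoc]
        have h6 : IsNilpotent τ := by
          obtain ⟨m, hm⟩ := nilp_Res hG hxK s'
          refine ⟨m, ?_⟩
          have h7a : ∀ v : C.V1, (τ v : V) = Res 𝒟 (t + x • t') s' v := fun v =>
            (Resx_V1 hG C hI ht hDs hDc hD x s' v).symm
          have h7 : ∀ n (v : C.V1), ((τ ^ n) v : V) = (Res 𝒟 (t + x • t') s' ^ n) v := by
            intro n
            induction n with
            | zero => intro v; rfl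
            | succ n ih =>
              intro v
              rw [pow_succ, pow_succ, Module.End.mul_apply (τ ^ n) τ v, ih, h7a]
              rfl
          refine LinearMap.ext fun v => Subtype.ext ?_
          rw [h7, hm]
          rfl
        obtain ⟨m, hm⟩ := h6
        have h8 : IsNilpotent (τ * (β * M)) := ⟨m, by rw [h5.mul_pow, hm, zero_mul]⟩
        exact (LinearMap.isNilpotent_trace_of_isNilpotent h8).eq_zero
      · simp [h])
  refine ⟨r, rm_of_rel hG C hI ht hDs hDc hD hx ⟨hF1, hF2⟩, fun l hl => ?_, fun l hl => ?_⟩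
  · have h3 := hr l
    rw [if_pos hl, hβa, hβa, P_tx hG C hD, P_omx hG C hD] at h3
    exact h3
  · have h3 := hr l
    rw [if_neg hl, LinearMap.zero_apply, LinearMap.zero_apply, zero_sub, zero_sub, neg_mem_iff,
      neg_mem_iff] at h3
    exact h3

/-- **(C)** -/
theorem HH_end (hK : ∀ k ∈ 𝒟.K, ∃ a b : L, k = a • t + b • t') {h : End L C.V1}
    (hh : ∀ s, h ∈ HH hG C s) : IsSA C.q1 h := by
  have hq := hG.form
  choose r hr1 hr2 hr3 using hh
  set k : J → V := fun l => (h (C.P hq (t l)) : V) - ∑ s, r s l with hk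
  have homk : ∀ l, 𝒟.om k l = (h (C.P hq (𝒟.om t l)) : V) - ∑ s, 𝒟.om (r s) l := by
    intro l
    have e1 : (h (C.P hq (𝒟.om t l)) : V) = (C.V1.subtype ∘ₗ h ∘ₗ C.P hq) (𝒟.om t l) := rfl
    rw [e1, om_lin]
    unfold Cfg.om
    rw [Finset.sum_comm, ← Finset.sum_sub_distrib]
    refine Finset.sum_congr rfl fun j _ => ?_
    rw [← Finset.smul_sum, ← smul_sub]
    rfl
  have hkK : k ∈ 𝒟.K := by
    refine ⟨fun l => ?_, fun l => ?_⟩
    · have h1 := (hr2 (𝒟.arm l) l rfl).1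
      have h2 : k l = ((h (C.P hq (t l)) : V) - r (𝒟.arm l) l) -
          ∑ s ∈ Finset.univ.erase (𝒟.arm l), r s l := by
        rw [hk]
        have := Finset.add_sum_erase Finset.univ (fun s => r s l) (Finset.mem_univ (𝒟.arm l))
        dsimp only at this ⊢
        rw [← this]
        abel
      rw [h2]
      refine sub_mem h1 (Submodule.sum_mem _ fun s hs => (hr3 s l ?_).1)
      exact fun he => (Finset.mem_erase.mp hs).1 he.symm
    · have h1 := (hr2 (𝒟.arm l) l rfl).2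
      have h2 : 𝒟.om k l = ((h (C.P hq (𝒟.om t l)) : V) - 𝒟.om (r (𝒟.arm l)) l) -
          ∑ s ∈ Finset.univ.erase (𝒟.arm l), 𝒟.om (r s) l := by
        rw [homk]
        have := Finset.add_sum_erase Finset.univ (fun s => 𝒟.om (r s) l)
          (Finset.mem_univ (𝒟.arm l))
        rw [← this]
        abel
      show 𝒟.om k l ∈ _
      rw [h2]
      refine sub_mem h1 (Submodule.sum_mem _ fun s hs => (hr3 s l ?_).2)
      exact fun he => (Finset.mem_erase.mp hs).1 he.symm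
  obtain ⟨a, b, hab⟩ := hK k hkK
  have hM := fun s => (hr1 s).core
  choose M hM1 hM2 hM3 using hM
  have key : h = (∑ s, M s) + a • (1 : End L C.V1) + b • D := by
    apply ext_core hG C
    intro l
    have h1 : C.P hq (k l) = h (C.P hq (t l)) - ∑ s, M s (C.P hq (t l)) := by
      show C.P hq ((h (C.P hq (t l)) : V) - ∑ s, r s l) = _
      rw [map_sub, C.P_coe, map_sum]
      congr 1
      exact Finset.sum_congr rfl fun s _ => hM3 s l
    have h2 : C.P hq (k l) = a • C.P hq (t l) + b • D (C.P hq (t l)) := by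
      rw [hab, Pi.add_apply, Pi.smul_apply, Pi.smul_apply, map_add, map_smul, map_smul, hD]
    rw [LinearMap.add_apply, LinearMap.add_apply, LinearMap.sum_apply, LinearMap.smul_apply,
      LinearMap.smul_apply, Module.End.one_apply, add_assoc, ← h2, h1]
    abel
  rw [key]
  intro u v
  simp only [LinearMap.add_apply, LinearMap.sum_apply, LinearMap.smul_apply, map_add, map_sum,
    map_smul, Module.End.one_apply]
  congr 1
  · congr 1
    exact Finset.sum_congr rfl fun s _ => hM1 s u v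
  · rw [hDs]

end base

end core

end Vale.Agent.P182.H922
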