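import Vale.Agent.P182.H922.Adapt

/-!
# The square-zero vanishing lemma
-/

namespace Vale.Agent.P182.H922

open Module Matrix Vale.Agent.P182.H533

section tr

variable {L V J : Type*} [Field L] [AddCommGroup V] [Module L V] [FiniteDimensional L V]

theorem tr_sym {q : V →ₗ[L] V →ₗ[L] L} (hq : IsForm q) (h2 : (2 : L) ≠ 0) (S : Finset J)
    (x y x' y' : J → V) (h : ∀ v, ∑ l ∈ S, ((q (y l) v • x l + q (x l) v • y l) +
      (q (y' l) v • x' l + q (x' l) v • y' l)) = 0) {M : End L V} (hM : IsSA q M) :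
    ∑ l ∈ S, (q (M (x l)) (y l) + q (M (x' l)) (y' l)) = 0 := by
  have h1 : (∑ l ∈ S, (((q (y l)).smulRight (M (x l)) + (q (x l)).smulRight (M (y l))) +
      ((q (y' l)).smulRight (M (x' l)) + (q (x' l)).smulRight (M (y' l)))) : End L V) = 0 := by
    refine LinearMap.ext fun v => ?_
    have := congrArg M (h v)
    rw [map_zero, map_sum] at this
    rw [LinearMap.zero_apply, ← this, LinearMap.sum_apply]
    refine Finset.sum_congr rfl fun l _ => ?_
    simp only [LinearMap.add_apply, LinearMap.smulRight_apply, map_add, map_smul]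
  have h3 := congrArg (LinearMap.trace L V) h1
  rw [map_zero, map_sum] at h3
  have h4 : (2 : L) * ∑ l ∈ S, (q (M (x l)) (y l) + q (M (x' l)) (y' l)) = 0 := by
    rw [← h3, Finset.mul_sum]
    refine Finset.sum_congr rfl fun l _ => ?_
    simp only [map_add, LinearMap.trace_smulRight]
    rw [hq.symm (y l), hq.symm (x l), hM (y l), hq.symm (y' l), hq.symm (x' l), hM (y' l),
      hq.symm (y l), hq.symm (y' l)]
    ring
  exact (mul_eq_zero.mp h4).resolve_left h2

theorem tr_sym0 {q : V →ₗ[L] V →ₗ[L] L} (hq : IsForm q) (h2 : (2 : L) ≠ 0) (S : Finset J)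
    (x y : J → V) (h : ∀ v, ∑ l ∈ S, (q (y l) v • x l + q (x l) v • y l) = 0)
    {M : End L V} (hM : IsSA q M) : ∑ l ∈ S, q (M (x l)) (y l) = 0 := by
  have h1 := tr_sym hq h2 S x y (fun _ => 0) (fun _ => 0) (fun v => by simpa using h v) hM
  simpa using h1

theorem tr_sym_conn {q : V →ₗ[L] V →ₗ[L] L} (hq : IsForm q) (h2 : (2 : L) ≠ 0) (S : Finset J)
    (x y : J → V) (h : ∀ v, ∑ l ∈ S, (q (y l) v • x l + q (x l) v • y l) = 0) (c : Conn q)
    {M : End L V} (hM : IsSA q M) :
    ∑ l ∈ S, (q (M (c.δ (x l))) (y l) + q (M (x l)) (c.δ (y l))) = 0 := by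
  refine tr_sym hq h2 S (fun l => c.δ (x l)) y x (fun l => c.δ (y l)) (fun v => ?_) hM
  have h1 := congrArg c.δ (h v)
  rw [map_zero, map_sum] at h1
  rw [← h1, ← sub_eq_zero, ← Finset.sum_sub_distrib, ← neg_eq_zero, ← Finset.sum_neg_distrib,
    ← h (c.δ v)]
  refine Finset.sum_congr rfl fun l _ => ?_
  rw [map_add, c.smul, c.smul, c.metric, c.metric, add_smul, add_smul]
  abel

end tr

section core

variable {L V J ι α : Type*} [Field L] [AddCommGroup V] [Module L V]
  [Fintype J] [DecidableEq ι] [LinearOrder α]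

/-- the dual vectors -/
def uu (Ω : Matrix J J L) (t : J → V) (l : J) : V := ∑ k, Ω l k • t k

/-- a configuration with vanishing residues -/
structure Dat (arm : J → ι) (c : J → α) (q : V →ₗ[L] V →ₗ[L] L) (Ω : Matrix J J L)
    (t : J → V) : Prop where
  hq : IsForm q
  span : Submodule.span L (Set.range t) = ⊤
  iso : ∀ l k, arm l = arm k → q (t l) (t k) = 0
  ort : ∀ l k, arm l = arm k → c k ≤ c l → q (uu Ω t l) (t k) = 0
  res : ∀ s v, ∑ l with arm l = s, (q (uu Ω t l) v • t l + q (t l) v • uu Ω t l) = 0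

/-- a flag space -/
def Fsp (L : Type*) [Field L] [Module L V] (arm : J → ι) (c : J → α) (t : J → V) (l : J) :
    Submodule L V :=
  Submodule.span L (t '' {k | arm k = arm l ∧ c k ≤ c l})

/-- the top flag space -/
def Asp (L : Type*) [Field L] [Module L V] (arm : J → ι) (t : J → V) (s : ι) : Submodule L V :=
  Submodule.span L (t '' {k | arm k = s})

open Classical in
/-- the flag -/
noncomputable def Fch (L : Type*) [Field L] [Module L V] (arm : J → ι) (c : J → α) (t : J → V)
    (s : ι) : Finset (Submodule L V) :=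
  insert (Asp L arm t s) ((Finset.univ.filter fun l => arm l = s).image (Fsp L arm c t))

theorem t_mem_Fsp (arm : J → ι) (c : J → α) (t : J → V) (l : J) : t l ∈ Fsp L arm c t l :=
  Submodule.subset_span ⟨l, ⟨rfl, le_rfl⟩, rfl⟩

theorem Fsp_mono {arm : J → ι} {c : J → α} (t : J → V) {k l : J} (h : arm k = arm l)
    (hc : c k ≤ c l) : Fsp L arm c t k ≤ Fsp L arm c t l := by
  apply Submodule.span_mono
  rintro _ ⟨j, ⟨h1, h2⟩, rfl⟩
  exact ⟨j, ⟨h1.trans h, h2.trans hc⟩, rfl⟩

theorem Fsp_le_Asp (arm : J → ι) (c : J → α) (t : J → V) (l : J) :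
    Fsp L arm c t l ≤ Asp L arm t (arm l) := by
  apply Submodule.span_mono
  rintro _ ⟨j, ⟨h1, -⟩, rfl⟩
  exact ⟨j, h1, rfl⟩

theorem Asp_mem (arm : J → ι) (c : J → α) (t : J → V) (s : ι) :
    Asp L arm t s ∈ Fch L arm c t s := by
  classical
  exact Finset.mem_insert_self _ _

theorem Fsp_mem (arm : J → ι) (c : J → α) (t : J → V) (l : J) :
    Fsp L arm c t l ∈ Fch L arm c t (arm l) := by
  classical
  exact Finset.mem_insert_of_mem (Finset.mem_image_of_mem _
    (Finset.mem_filter.mpr ⟨Finset.mem_univ _, rfl⟩))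

theorem mem_Fch {arm : J → ι} {c : J → α} {t : J → V} {s : ι} {W : Submodule L V} :
    W ∈ Fch L arm c t s ↔ W = Asp L arm t s ∨ ∃ l, arm l = s ∧ Fsp L arm c t l = W := by
  classical
  rw [Fch, Finset.mem_insert, Finset.mem_image]
  simp

theorem chain_Fch (arm : J → ι) (c : J → α) (t : J → V) (s : ι) :
    IsChain (· ≤ ·) (Fch L arm c t s : Set (Submodule L V)) := by
  rintro A hA B hB -
  rw [Finset.mem_coe, mem_Fch] at hA hB
  rcases hA with rfl | ⟨l, hl, rfl⟩ <;> rcases hB with rfl | ⟨k, hk, rfl⟩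
  · exact Or.inl le_rfl
  · right; rw [← hk]; exact Fsp_le_Asp arm c t k
  · left; rw [← hl]; exact Fsp_le_Asp arm c t l
  · rcases le_total (c l) (c k) with h | h
    · exact Or.inl (Fsp_mono t (hl.trans hk.symm) h)
    · exact Or.inr (Fsp_mono t (hk.trans hl.symm) h)

variable {arm : J → ι} {c : J → α} {q : V →ₗ[L] V →ₗ[L] L} {Ω : Matrix J J L} {t : J → V}

theorem le_Asp {s : ι} {W : Submodule L V} (hW : W ∈ Fch L arm c t s) : W ≤ Asp L arm t s := by
  rcases mem_Fch.mp hW with rfl | ⟨l, rfl, rfl⟩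
  · exact le_rfl
  · exact Fsp_le_Asp arm c t l

theorem Dat.iso_Asp (D : Dat arm c q Ω t) {s : ι} {v w : V} (hv : v ∈ Asp L arm t s)
    (hw : w ∈ Asp L arm t s) : q v w = 0 := by
  induction hv using Submodule.span_induction with
  | mem v hv =>
    obtain ⟨k, hk, rfl⟩ := hv
    induction hw using Submodule.span_induction with
    | mem w hw =>
      obtain ⟨j, hj, rfl⟩ := hw
      exact D.iso k j (hk.trans hj.symm)
    | zero => rw [map_zero]
    | add w w' _ _ h1 h2 => rw [map_add, h1, h2, add_zero]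
    | smul x w _ h1 => rw [map_smul, h1, smul_zero]
  | zero => rw [map_zero, LinearMap.zero_apply]
  | add v v' _ _ h1 h2 => rw [map_add, LinearMap.add_apply, h1, h2, add_zero]
  | smul x v _ h1 => rw [map_smul, LinearMap.smul_apply, h1, smul_zero]

theorem Dat.iso_Fch (D : Dat arm c q Ω t) (s : ι) : ∀ W ∈ Fch L arm c t s,
    ∀ W' ∈ Fch L arm c t s, ∀ w ∈ W, ∀ w' ∈ W', q w w' = 0 :=
  fun _ hW _ hW' _ hw _ hw' => D.iso_Asp (le_Asp hW hw) (le_Asp hW' hw')

theorem Dat.u_perp (D : Dat arm c q Ω t) {l : J} {v : V} (hv : v ∈ Fsp L arm c t l) :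
    q (uu Ω t l) v = 0 := by
  induction hv using Submodule.span_induction with
  | mem v hv =>
    obtain ⟨k, ⟨hk, hc⟩, rfl⟩ := hv
    exact D.ort l k hk.symm hc
  | zero => rw [map_zero]
  | add w w' _ _ h1 h2 => rw [map_add, h1, h2, add_zero]
  | smul x w _ h1 => rw [map_smul, h1, smul_zero]

/-- an endomorphism mapping every `t k` into its flag space preserves the flag -/
theorem pres_of {s : ι} {X : End L V} (h : ∀ k, arm k = s → X (t k) ∈ Fsp L arm c t k) :
    ∀ W ∈ Fch L arm c t s, ∀ w ∈ W, X w ∈ W := by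
  intro W hW w hw
  rcases mem_Fch.mp hW with rfl | ⟨l, rfl, rfl⟩
  · induction hw using Submodule.span_induction with
    | mem v hv =>
      obtain ⟨k, hk, rfl⟩ := hv
      have := Fsp_le_Asp arm c t k (h k hk)
      rwa [hk] at this
    | zero => rw [map_zero]; exact Submodule.zero_mem _
    | add w w' _ _ h1 h2 => rw [map_add]; exact Submodule.add_mem _ h1 h2
    | smul x w _ h1 => rw [map_smul]; exact Submodule.smul_mem _ _ h1
  · induction hw using Submodule.span_induction with
    | mem v hv =>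
      obtain ⟨k, ⟨hk, hc⟩, rfl⟩ := hv
      exact Fsp_mono t hk hc (h k hk)
    | zero => rw [map_zero]; exact Submodule.zero_mem _
    | add w w' _ _ h1 h2 => rw [map_add]; exact Submodule.add_mem _ h1 h2
    | smul x w _ h1 => rw [map_smul]; exact Submodule.smul_mem _ _ h1

end core

section main

variable {L V J ι α : Type*} [Field L] [AddCommGroup V] [Module L V]
  [Fintype J] [DecidableEq ι] [LinearOrder α]
  (arm : J → ι) (c : J → α) (q : V →ₗ[L] V →ₗ[L] L) (Ω : Matrix J J L) (t : J → V)

/-- the unknowns of the linearised problem -/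
abbrev UU : Type _ := (ι → so q ∅) × (∀ l, Fsp L arm c t l)

/-- the dual of the equations of the linearised problem -/
abbrev WW : Type _ := (∀ l, Fsp L arm c t l) × (ι → sy q ∅)

variable {arm c q t}

/-- the variation of the dual vectors -/
def du (x : UU arm c q t) (l : J) : V :=
  ∑ k, Ω l k • ((x.1 (arm k) : End L V) (t k) + (x.2 k : V)) - (x.1 (arm l) : End L V) (uu Ω t l)

theorem du_add (x y : UU arm c q t) (l : J) : du Ω (x + y) l = du Ω x l + du Ω y l := by
  have h : ∀ k, Ω l k • (((x + y).1 (arm k) : End L V) (t k) + ((x + y).2 k : V)) =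
      Ω l k • ((x.1 (arm k) : End L V) (t k) + (x.2 k : V)) +
        Ω l k • ((y.1 (arm k) : End L V) (t k) + (y.2 k : V)) := by
    intro k
    rw [← smul_add]
    congr 1
    show (((x.1 (arm k) : End L V) (t k) + (y.1 (arm k) : End L V) (t k)) +
      ((x.2 k : V) + (y.2 k : V))) = _
    abel
  rw [du, du, du, Finset.sum_congr rfl fun k _ => h k, Finset.sum_add_distrib]
  show _ - ((x.1 (arm l) : End L V) (uu Ω t l) + (y.1 (arm l) : End L V) (uu Ω t l)) = _
  abel

theorem du_smul (a : L) (x : UU arm c q t) (l : J) : du Ω (a • x) l = a • du Ω x l := by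
  have h : ∀ k, Ω l k • (((a • x).1 (arm k) : End L V) (t k) + ((a • x).2 k : V)) =
      a • Ω l k • ((x.1 (arm k) : End L V) (t k) + (x.2 k : V)) := by
    intro k
    rw [smul_comm a, smul_add a]
    rfl
  rw [du, du, Finset.sum_congr rfl fun k _ => h k, ← Finset.smul_sum, smul_sub]
  rfl

/-- the test vectors -/
def ww (y : WW arm c q t) (l : J) : V := (y.1 l : V) + (y.2 (arm l) : End L V) (t l)

theorem ww_add (x y : WW arm c q t) (l : J) : ww (x + y) l = ww x l + ww y l := by
  show ((x.1 l : V) + (y.1 l : V)) + ((x.2 (arm l) : End L V) (t l) + (y.2 (arm l) : End L V) (t l)) =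
    ((x.1 l : V) + (x.2 (arm l) : End L V) (t l)) + ((y.1 l : V) + (y.2 (arm l) : End L V) (t l))
  abel

theorem ww_smul (a : L) (x : WW arm c q t) (l : J) : ww (a • x) l = a • ww x l := by
  show (a • (x.1 l : V)) + (a • (x.2 (arm l) : End L V) (t l)) =
    a • ((x.1 l : V) + (x.2 (arm l) : End L V) (t l))
  rw [smul_add]

/-- the pairing -/
def PP : UU arm c q t →ₗ[L] WW arm c q t →ₗ[L] L := LinearMap.mk₂ L
  (fun x y => ∑ l, (q (ww y l) (du Ω x l) + q ((y.2 (arm l) : End L V) (x.2 l)) (uu Ω t l)))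
  (fun x x' y => by
    rw [← Finset.sum_add_distrib]
    refine Finset.sum_congr rfl fun l _ => ?_
    have : (((x + x').2 l : V)) = (x.2 l : V) + (x'.2 l : V) := rfl
    rw [du_add, map_add, this, map_add, map_add, LinearMap.add_apply]
    ring)
  (fun a x y => by
    rw [Finset.smul_sum]
    refine Finset.sum_congr rfl fun l _ => ?_
    have : (((a • x).2 l : V)) = a • (x.2 l : V) := rfl
    rw [du_smul, map_smul, this, map_smul, map_smul, LinearMap.smul_apply, smul_add])
  (fun x y y' => by
    rw [← Finset.sum_add_distrib]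
    refine Finset.sum_congr rfl fun l _ => ?_
    have : (((y + y').2 (arm l) : End L V)) = (y.2 (arm l) : End L V) + (y'.2 (arm l) : End L V) := rfl
    rw [ww_add, map_add, LinearMap.add_apply, this, LinearMap.add_apply, map_add,
      LinearMap.add_apply]
    ring)
  (fun a x y => by
    rw [Finset.smul_sum]
    refine Finset.sum_congr rfl fun l _ => ?_
    have : (((a • y).2 (arm l) : End L V)) = a • (y.2 (arm l) : End L V) := rfl
    rw [ww_smul, map_smul, LinearMap.smul_apply, this, LinearMap.smul_apply, map_smul,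
      LinearMap.smul_apply, smul_add])

theorem PP_apply (x : UU arm c q t) (y : WW arm c q t) : PP Ω x y =
    ∑ l, (q (ww y l) (du Ω x l) + q ((y.2 (arm l) : End L V) (x.2 l)) (uu Ω t l)) := rfl

/-- the trivial solutions -/
def Th : (so q ∅ × (∀ s, so q (Fch L arm c t s)) × L) →ₗ[L] UU arm c q t where
  toFun := fun z => (fun s => ⟨(z.1 : End L V) + (z.2.1 s : End L V),
      (so q ∅).add_mem z.1.2 ⟨(z.2.1 s).2.1, fun W hW => absurd hW (Finset.notMem_empty W)⟩⟩,
    fun l => ⟨- (z.2.1 (arm l) : End L V) (t l) + z.2.2 • t l, Submodule.add_mem _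
      (Submodule.neg_mem _ ((z.2.1 (arm l)).2.2 _ (Fsp_mem arm c t l) _ (t_mem_Fsp arm c t l)))
      (Submodule.smul_mem _ _ (t_mem_Fsp arm c t l))⟩)
  map_add' := fun z z' => by
    refine Prod.ext (funext fun s => Subtype.ext ?_) (funext fun l => Subtype.ext ?_)
    · show ((z.1 : End L V) + (z'.1 : End L V)) + ((z.2.1 s : End L V) + (z'.2.1 s : End L V)) =
        ((z.1 : End L V) + (z.2.1 s : End L V)) + ((z'.1 : End L V) + (z'.2.1 s : End L V))
      abel
    · show -((z.2.1 (arm l) : End L V) (t l) + (z'.2.1 (arm l) : End L V) (t l)) +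
        (z.2.2 + z'.2.2) • t l = (- (z.2.1 (arm l) : End L V) (t l) + z.2.2 • t l) +
          (- (z'.2.1 (arm l) : End L V) (t l) + z'.2.2 • t l)
      rw [add_smul]; abel
  map_smul' := fun a z => by
    refine Prod.ext (funext fun s => Subtype.ext ?_) (funext fun l => Subtype.ext ?_)
    · show (a • (z.1 : End L V)) + (a • (z.2.1 s : End L V)) =
        a • ((z.1 : End L V) + (z.2.1 s : End L V))
      rw [smul_add]
    · show -(a • (z.2.1 (arm l) : End L V) (t l)) + (a * z.2.2) • t l =
        a • (- (z.2.1 (arm l) : End L V) (t l) + z.2.2 • t l)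
      rw [smul_add, smul_neg, smul_smul]

/-- the trivial relations -/
def Ps : (sy q ∅ × (∀ s, sy q (Fch L arm c t s))) →ₗ[L] WW arm c q t where
  toFun := fun z => (fun l => ⟨(z.2 (arm l) : End L V) (t l),
      (z.2 (arm l)).2.2 _ (Fsp_mem arm c t l) _ (t_mem_Fsp arm c t l)⟩,
    fun s => ⟨(z.1 : End L V) - (z.2 s : End L V),
      (sy q ∅).sub_mem z.1.2 ⟨(z.2 s).2.1, fun W hW => absurd hW (Finset.notMem_empty W)⟩⟩)
  map_add' := fun z z' => by
    refine Prod.ext (funext fun s => Subtype.ext ?_) (funext fun l => Subtype.ext ?_)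
    · rfl
    · show ((z.1 : End L V) + (z'.1 : End L V)) - ((z.2 l : End L V) + (z'.2 l : End L V)) =
        ((z.1 : End L V) - (z.2 l : End L V)) + ((z'.1 : End L V) - (z'.2 l : End L V))
      abel
  map_smul' := fun a z => by
    refine Prod.ext (funext fun s => Subtype.ext ?_) (funext fun l => Subtype.ext ?_)
    · rfl
    · show (a • (z.1 : End L V)) - (a • (z.2 l : End L V)) =
        a • ((z.1 : End L V) - (z.2 l : End L V))
      rw [smul_sub]

theorem du_Th (z : so q ∅ × (∀ s, so q (Fch L arm c t s)) × L) (l : J) :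
    du Ω (Th z) l = z.2.2 • uu Ω t l - (z.2.1 (arm l) : End L V) (uu Ω t l) := by
  have h1 : ∀ k, Ω l k • (((Th z).1 (arm k) : End L V) (t k) + ((Th z).2 k : V)) =
      (z.1 : End L V) (Ω l k • t k) + z.2.2 • (Ω l k • t k) := by
    intro k
    show Ω l k • (((z.1 : End L V) (t k) + (z.2.1 (arm k) : End L V) (t k)) +
      (- (z.2.1 (arm k) : End L V) (t k) + z.2.2 • t k)) = _
    rw [map_smul, smul_comm z.2.2 (Ω l k), ← smul_add]
    congr 1
    abel
  rw [du, Finset.sum_congr rfl fun k _ => h1 k, Finset.sum_add_distrib, ← map_sum,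
    ← Finset.smul_sum]
  show (z.1 : End L V) (uu Ω t l) + z.2.2 • uu Ω t l -
    ((z.1 : End L V) (uu Ω t l) + (z.2.1 (arm l) : End L V) (uu Ω t l)) = _
  abel

variable {Ω} [Fintype ι] [FiniteDimensional L V]

theorem PP_Th (h2 : (2 : L) ≠ 0) (D : Dat arm c q Ω t)
    (z : so q ∅ × (∀ s, so q (Fch L arm c t s)) × L) (y : WW arm c q t) : PP Ω (Th z) y = 0 := by
  rw [PP_apply, ← Finset.sum_fiberwise Finset.univ arm]
  refine Finset.sum_eq_zero fun s _ => ?_
  have hZ := (z.2.1 s).2.1
  have hA := (y.2 s).2.1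
  have hM : IsSA q ((2 * z.2.2) • (y.2 s : End L V) + ((z.2.1 s : End L V) * (y.2 s : End L V) -
      (y.2 s : End L V) * (z.2.1 s : End L V))) := by
    intro u v
    simp only [LinearMap.add_apply, LinearMap.sub_apply, LinearMap.smul_apply,
      Module.End.mul_apply, map_add, map_sub, map_smul]
    rw [hA u v, hZ, hA u, hA, hZ u]
    ring
  have h1 := tr_sym0 D.hq h2 _ _ _ (D.res s) hM
  rw [← h1]
  refine Finset.sum_congr rfl fun l hl => ?_
  have hl' : arm l = s := (Finset.mem_filter.mp hl).2
  subst hl'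
  have e1 : ((Th z).2 l : V) = - (z.2.1 (arm l) : End L V) (t l) + z.2.2 • t l := rfl
  rw [du_Th, ww, e1]
  have hb : q (y.1 l : V) (uu Ω t l) = 0 := by
    rw [D.hq.symm]; exact D.u_perp (y.1 l).2
  have hZb : q (y.1 l : V) ((z.2.1 (arm l) : End L V) (uu Ω t l)) = 0 := by
    have h3 := hZ (y.1 l : V) (uu Ω t l)
    have h4 : q ((z.2.1 (arm l) : End L V) (y.1 l : V)) (uu Ω t l) = 0 := by
      rw [D.hq.symm]; exact D.u_perp ((z.2.1 (arm l)).2.2 _ (Fsp_mem arm c t l) _ (y.1 l).2)
    rw [h4] at h3
    exact neg_eq_zero.mp h3.symm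
  simp only [LinearMap.add_apply, LinearMap.sub_apply, LinearMap.smul_apply,
    Module.End.mul_apply, map_add, map_sub, map_smul, map_neg, LinearMap.neg_apply, smul_eq_mul]
  rw [hb, hZb, hZ ((y.2 (arm l) : End L V) (t l)) (uu Ω t l)]
  ring

theorem Th_injective (h2 : (2 : L) ≠ 0) (D : Dat arm c q Ω t) (hV : 0 < finrank L V) :
    Function.Injective (Th : (so q ∅ × (∀ s, so q (Fch L arm c t s)) × L) →ₗ[L] UU arm c q t) := by
  rw [injective_iff_map_eq_zero]
  rintro ⟨Z0, Z, a⟩ h
  have h1 : ∀ s, (Z0 : End L V) + (Z s : End L V) = 0 := fun s =>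
    congrArg Subtype.val (congrFun (congrArg Prod.fst h) s)
  have h3 : ∀ l, - (Z (arm l) : End L V) (t l) + a • t l = 0 := fun l =>
    congrArg Subtype.val (congrFun (congrArg Prod.snd h) l)
  have h4 : ∀ l, (Z0 : End L V) (t l) = - (a • t l) := by
    intro l
    have h5 := LinearMap.congr_fun (h1 (arm l)) (t l)
    rw [LinearMap.add_apply, LinearMap.zero_apply] at h5
    rw [eq_neg_of_add_eq_zero_left h5, neg_eq_of_add_eq_zero_left (h3 l)]
  have h5 : ∀ v, (Z0 : End L V) v = - (a • v) := by
    intro v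
    have hv : v ∈ Submodule.span L (Set.range t) := by rw [D.span]; trivial
    induction hv using Submodule.span_induction with
    | mem v hv =>
      obtain ⟨k, rfl⟩ := hv
      exact h4 k
    | zero => rw [map_zero, smul_zero, neg_zero]
    | add w w' _ _ h1 h2 => rw [map_add, h1, h2, smul_add]; abel
    | smul x w _ h1 => rw [map_smul, h1, smul_neg, smul_comm]
  have ha : a = 0 := by
    by_contra ha
    obtain ⟨v, hv⟩ := Module.finrank_pos_iff_exists_ne_zero.mp hV
    apply hv
    apply D.hq.nondeg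
    intro w
    have h6 := Z0.2.1 v w
    rw [h5, h5, map_neg, LinearMap.neg_apply, map_neg, map_smul, map_smul, LinearMap.smul_apply,
      smul_eq_mul, neg_neg] at h6
    have h7 : (2 * a) * q v w = 0 := by linear_combination -h6
    exact (mul_eq_zero.mp h7).resolve_left (mul_ne_zero h2 ha)
  have hZ0 : Z0 = 0 := by
    apply Subtype.ext
    refine LinearMap.ext fun v => ?_
    rw [h5, ha, zero_smul, neg_zero]; rfl
  refine Prod.ext hZ0 (Prod.ext (funext fun s => Subtype.ext ?_) ha)
  have := h1 s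
  rw [hZ0, Submodule.coe_zero, zero_add] at this
  exact this

/-- **The linearised problem is solvable for every variation of `Ω`.** -/
theorem exists_real (h2 : (2 : L) ≠ 0) (D : Dat arm c q Ω t) {η : Matrix J J L}
    (d : L →+ L) (hd : ∀ a b, d (a * b) = d a * b + a * d b) (hη : ∀ i j, d (Ω i j) = η i j) :
    ∃ x : UU arm c q t, ∀ y : WW arm c q t,
      PP Ω x y + ∑ l, q (ww y l) (∑ k, η l k • t k) = 0 := by
  classical
  obtain ⟨c0, hc0, -⟩ := exists_metric_conn D.hq h2 d hd (ℱ := ∅) (by simp [IsChain]) (by simp)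
  choose cs hcs hcF using fun s =>
    exists_metric_conn D.hq h2 d hd (chain_Fch arm c t s) (D.iso_Fch s)
  -- the differences
  let Z : ι → End L V := fun s =>
    { toFun := fun v => c0.δ v - (cs s).δ v
      map_add' := fun u v => by rw [map_add, map_add]; abel
      map_smul' := fun a v => by
        rw [c0.smul, (cs s).smul, hc0, hcs, RingHom.id_apply, smul_sub]; abel }
  have hZ : ∀ s v, Z s v = c0.δ v - (cs s).δ v := fun s v => rfl
  have hZso : ∀ s, Z s ∈ so q ∅ := by
    intro s
    refine ⟨fun u v => ?_, fun W hW => absurd hW (Finset.notMem_empty W)⟩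
    have h3 := c0.metric u v
    have h4 := (cs s).metric u v
    rw [hc0] at h3
    rw [hcs] at h4
    rw [hZ, hZ, map_sub, map_sub, LinearMap.sub_apply]
    linear_combination h4 - h3
  refine ⟨(fun s => ⟨Z s, hZso s⟩, fun l => ⟨(cs (arm l)).δ (t l), hcF (arm l) _ (Fsp_mem arm c t l) _
    (t_mem_Fsp arm c t l)⟩), fun y => ?_⟩
  -- the variation of the dual vectors
  have hu : ∀ e : Conn q, e.d = d → ∀ l, e.δ (uu Ω t l) = ∑ k, η l k • t k + ∑ k, Ω l k • e.δ (t k) := by
    intro e he l
    rw [uu, map_sum, ← Finset.sum_add_distrib]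
    refine Finset.sum_congr rfl fun k _ => ?_
    rw [e.smul, he, hη]
  set x : UU arm c q t := (fun s => ⟨Z s, hZso s⟩, fun l => ⟨(cs (arm l)).δ (t l),
    hcF (arm l) _ (Fsp_mem arm c t l) _ (t_mem_Fsp arm c t l)⟩) with hx
  have hdu : ∀ l, du Ω x l + ∑ k, η l k • t k = (cs (arm l)).δ (uu Ω t l) := by
    intro l
    have h3 : du Ω x l = ∑ k, Ω l k • c0.δ (t k) - (c0.δ (uu Ω t l) - (cs (arm l)).δ (uu Ω t l)) := by
      rw [du]
      congr 1
      refine Finset.sum_congr rfl fun k _ => ?_
      congr 1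
      show (c0.δ (t k) - (cs (arm k)).δ (t k)) + (cs (arm k)).δ (t k) = _
      abel
    rw [h3, hu c0 hc0]
    abel
  rw [PP_apply, ← Finset.sum_add_distrib, ← Finset.sum_fiberwise Finset.univ arm]
  refine Finset.sum_eq_zero fun s _ => ?_
  have h1 := tr_sym_conn D.hq h2 _ _ _ (D.res s) (cs s) (y.2 s).2.1
  rw [← h1]
  refine Finset.sum_congr rfl fun l hl => ?_
  have hl' : arm l = s := (Finset.mem_filter.mp hl).2
  subst hl'
  have h5 : q (y.1 l : V) ((cs (arm l)).δ (uu Ω t l)) = 0 := by
    have h6 := (cs (arm l)).metric (y.1 l : V) (uu Ω t l)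
    have h7 : q (y.1 l : V) (uu Ω t l) = 0 := by
      rw [D.hq.symm]; exact D.u_perp (y.1 l).2
    have h8 : q ((cs (arm l)).δ (y.1 l : V)) (uu Ω t l) = 0 := by
      rw [D.hq.symm]
      exact D.u_perp (hcF (arm l) _ (Fsp_mem arm c t l) _ (y.1 l).2)
    rw [h7, map_zero, h8, zero_add] at h6
    exact h6.symm
  have e1 : (x.2 l : V) = (cs (arm l)).δ (t l) := rfl
  have e2 : q (ww y l) (du Ω x l) + q ((y.2 (arm l) : End L V) (x.2 l : V)) (uu Ω t l) +
      q (ww y l) (∑ k, η l k • t k) = q (ww y l) (du Ω x l + ∑ k, η l k • t k) +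
      q ((y.2 (arm l) : End L V) ((cs (arm l)).δ (t l))) (uu Ω t l) := by
    rw [map_add (q (ww y l)), e1]; ring
  rw [e2, hdu, ww, map_add, LinearMap.add_apply, h5]
  ring

omit [FiniteDimensional L V] [Fintype ι] in
/-- **The relations of the linearised problem.** -/
theorem exists_rel (D : Dat arm c q Ω t) [DecidableEq J] {y : WW arm c q t}
    (hy : ∀ η : Matrix J J L, ηᵀ = -η → ∑ l, q (ww y l) (∑ k, η l k • t k) = 0) :
    y ∈ LinearMap.range (Ps : (sy q ∅ × (∀ s, sy q (Fch L arm c t s))) →ₗ[L] WW arm c q t) := by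
  -- symmetry
  have hsym : ∀ i j, q (ww y i) (t j) = q (ww y j) (t i) := by
    intro i j
    by_cases hij : i = j
    · rw [hij]
    have h1 := hy (Matrix.single i j 1 - Matrix.single j i 1) (by
      rw [Matrix.transpose_sub, Matrix.transpose_single, Matrix.transpose_single, neg_sub])
    have h3 : ∀ l, q (ww y l) (∑ k, (Matrix.single i j 1 - Matrix.single j i 1 : Matrix J J L) l k • t k) =
        (if l = i then q (ww y l) (t j) else 0) - (if l = j then q (ww y l) (t i) else 0) := by
      intro l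
      simp only [Matrix.sub_apply, sub_smul, Finset.sum_sub_distrib, map_sub]
      congr 1
      · by_cases h : l = i
        · subst h
          rw [if_pos rfl, Finset.sum_eq_single j]
          · rw [Matrix.single_apply_same, one_smul]
          · intro k _ hk
            rw [Matrix.single_apply_of_ne _ _ _ _ _ (fun h => hk h.2.symm), zero_smul]
          · intro h; exact absurd (Finset.mem_univ _) h
        · rw [if_neg h, Finset.sum_eq_zero, map_zero]
          intro k _
          rw [Matrix.single_apply_of_ne _ _ _ _ _ (fun h' => h h'.1.symm), zero_smul]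
      · by_cases h : l = j
        · subst h
          rw [if_pos rfl, Finset.sum_eq_single i]
          · rw [Matrix.single_apply_same, one_smul]
          · intro k _ hk
            rw [Matrix.single_apply_of_ne _ _ _ _ _ (fun h => hk h.2.symm), zero_smul]
          · intro h; exact absurd (Finset.mem_univ _) h
        · rw [if_neg h, Finset.sum_eq_zero, map_zero]
          intro k _
          rw [Matrix.single_apply_of_ne _ _ _ _ _ (fun h' => h h'.1.symm), zero_smul]
    rw [Finset.sum_congr rfl fun l _ => h3 l, Finset.sum_sub_distrib,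
      Finset.sum_ite_eq' Finset.univ i, Finset.sum_ite_eq' Finset.univ j,
      if_pos (Finset.mem_univ _), if_pos (Finset.mem_univ _)] at h1
    exact sub_eq_zero.mp h1
  -- the operator
  let T : (J → L) →ₗ[L] V := Fintype.linearCombination L t
  let R : (J → L) →ₗ[L] V := Fintype.linearCombination L (ww y)
  have hT : ∀ x, T x = ∑ k, x k • t k := fun x => rfl
  have hR : ∀ x, R x = ∑ k, x k • ww y k := fun x => rfl
  have hTs : LinearMap.range T = ⊤ := by
    rw [Fintype.range_linearCombination, D.span]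
  have hker : ∀ x, T x = 0 → R x = 0 := by
    intro x hx
    apply D.hq.nondeg
    intro v
    have hv : v ∈ Submodule.span L (Set.range t) := by rw [D.span]; trivial
    induction hv using Submodule.span_induction with
    | mem v hv =>
      obtain ⟨j, rfl⟩ := hv
      have h4 : q (R x) (t j) = q (ww y j) (T x) := by
        rw [hR, hT, map_sum, map_sum, LinearMap.sum_apply]
        refine Finset.sum_congr rfl fun k _ => ?_
        rw [map_smul, map_smul, LinearMap.smul_apply, hsym]
      rw [h4, hx, map_zero]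
    | zero => rw [map_zero]
    | add w w' _ _ h1 h2 => rw [map_add, h1, h2, add_zero]
    | smul x w _ h1 => rw [map_smul, h1, smul_zero]
  obtain ⟨σ, hσ⟩ := LinearMap.exists_rightInverse_of_surjective T hTs
  let B : End L V := R ∘ₗ σ
  have hBT : ∀ x, B (T x) = R x := by
    intro x
    show R (σ (T x)) = R x
    rw [← sub_eq_zero, ← map_sub]
    apply hker
    rw [map_sub]
    have : T (σ (T x)) = T x := LinearMap.congr_fun hσ (T x)
    rw [this, sub_self]
  have hB : ∀ l, B (t l) = ww y l := by
    intro l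
    have h1 : T (Pi.single l 1) = t l := by
      rw [hT, Finset.sum_eq_single l]
      · rw [Pi.single_eq_same, one_smul]
      · intro k _ hk
        rw [Pi.single_eq_of_ne hk, zero_smul]
      · intro h; exact absurd (Finset.mem_univ _) h
    have h3 : R (Pi.single l 1) = ww y l := by
      rw [hR, Finset.sum_eq_single l]
      · rw [Pi.single_eq_same, one_smul]
      · intro k _ hk
        rw [Pi.single_eq_of_ne hk, zero_smul]
      · intro h; exact absurd (Finset.mem_univ _) h
    rw [← h1, hBT, h3]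
  have hBsa : IsSA q B := by
    intro u v
    have hu : u ∈ Submodule.span L (Set.range t) := by rw [D.span]; trivial
    induction hu using Submodule.span_induction with
    | mem u hu =>
      obtain ⟨i, rfl⟩ := hu
      have hv : v ∈ Submodule.span L (Set.range t) := by rw [D.span]; trivial
      induction hv using Submodule.span_induction with
      | mem v hv =>
        obtain ⟨j, rfl⟩ := hv
        rw [hB, hB, hsym, D.hq.symm]
      | zero => rw [map_zero, map_zero, map_zero]
      | add w w' _ _ h1 h2 => rw [map_add, h1, h2, map_add, map_add]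
      | smul x w _ h1 => rw [map_smul, h1, map_smul, map_smul]
    | zero => rw [map_zero, map_zero, LinearMap.zero_apply, LinearMap.zero_apply]
    | add w w' _ _ h1 h2 => rw [map_add, map_add, LinearMap.add_apply, h1, h2, map_add, LinearMap.add_apply]
    | smul x w _ h1 => rw [map_smul, map_smul, LinearMap.smul_apply, h1, map_smul, LinearMap.smul_apply]
  have hB' : ∀ s, B - (y.2 s : End L V) ∈ sy q (Fch L arm c t s) := by
    intro s
    refine ⟨fun u v => ?_, pres_of fun k hk => ?_⟩
    · rw [LinearMap.sub_apply, LinearMap.sub_apply, map_sub, map_sub, LinearMap.sub_apply, hBsa,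
        (y.2 s).2.1]
    · subst hk
      rw [LinearMap.sub_apply, hB, ww, add_sub_cancel_right]
      exact (y.1 k).2
  refine ⟨(⟨B, hBsa, fun W hW => absurd hW (Finset.notMem_empty W)⟩, fun s => ⟨_, hB' s⟩), ?_⟩
  refine Prod.ext (funext fun l => Subtype.ext ?_) (funext fun s => Subtype.ext ?_)
  · show (B - (y.2 (arm l) : End L V)) (t l) = (y.1 l : V)
    rw [LinearMap.sub_apply, hB, ww, add_sub_cancel_right]
  · show B - (B - (y.2 s : End L V)) = (y.2 s : End L V)
    abel

/-- the vertical derivations -/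
def VDer (Ω : Matrix J J L) : Prop := ∀ η : Matrix J J L, ηᵀ = -η →
  ∃ d : L →+ L, (∀ a b, d (a * b) = d a * b + a * d b) ∧ ∀ i j, d (Ω i j) = η i j

/-- **The count.** -/
theorem Dat.finrank_eq_zero (h2 : (2 : L) ≠ 0) (D : Dat arm c q Ω t) (hΩ : VDer Ω) :
    finrank L V = 0 := by
  classical
  by_contra hr
  have hr' : 0 < finrank L V := Nat.pos_of_ne_zero hr
  set P : UU arm c q t →ₗ[L] WW arm c q t →ₗ[L] L := PP Ω with hP
  -- the kernel
  have h1 : finrank L (so q ∅) + ((∑ s, finrank L (so q (Fch L arm c t s))) + 1) ≤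
      finrank L (LinearMap.ker P) := by
    have h3 := LinearMap.finrank_range_of_inj (Th_injective h2 D hr')
    rw [Module.finrank_prod, Module.finrank_prod, Module.finrank_pi_fintype, Module.finrank_self] at h3
    rw [← h3]
    apply Submodule.finrank_mono
    rintro _ ⟨z, rfl⟩
    rw [LinearMap.mem_ker]
    exact LinearMap.ext fun y => PP_Th h2 D z y
  -- the cokernel
  have h3 : finrank L (LinearMap.ker P.flip) ≤
      finrank L (sy q ∅) + ∑ s, finrank L (sy q (Fch L arm c t s)) := by
    have h4 := LinearMap.finrank_range_le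
      (Ps : (sy q ∅ × (∀ s, sy q (Fch L arm c t s))) →ₗ[L] WW arm c q t)
    rw [Module.finrank_prod, Module.finrank_pi_fintype] at h4
    refine le_trans (Submodule.finrank_mono ?_) h4
    intro y hy
    apply exists_rel D
    intro η hη
    obtain ⟨d, hd, hdη⟩ := hΩ η hη
    obtain ⟨x, hx⟩ := exists_real h2 D d hd hdη
    have h5 := hx y
    have h6 : PP Ω x y = 0 := LinearMap.congr_fun (LinearMap.mem_ker.mp hy) x
    rw [h6, zero_add] at h5
    exact h5
  -- the ranks
  have h4 : finrank L (LinearMap.range P.flip) ≤ finrank L (LinearMap.range P) := by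
    have h5 := LinearMap.finrank_range_dualMap_eq_finrank_range P
    rw [← h5]
    apply Submodule.finrank_mono
    rintro _ ⟨y, rfl⟩
    exact ⟨Module.Dual.eval L _ y, rfl⟩
  have h5 := LinearMap.finrank_range_add_finrank_ker P
  have h6 := LinearMap.finrank_range_add_finrank_ker P.flip
  rw [Module.finrank_prod, Module.finrank_pi_fintype (R := L) (M := fun _ : ι => so q ∅),
    Finset.sum_const, Finset.card_univ, smul_eq_mul] at h5
  rw [Module.finrank_prod, Module.finrank_pi_fintype (R := L) (M := fun _ : ι => sy q ∅),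
    Finset.sum_const, Finset.card_univ, smul_eq_mul] at h6
  have h7 := finrank_so_add_le D.hq h2
  have h8 : ∀ s, finrank L (sy q (Fch L arm c t s)) + finrank L (Asp L arm t s) ≤
      finrank L (so q (Fch L arm c t s)) + finrank L V := fun s =>
    finrank_sy_add_le D.hq (chain_Fch arm c t s) (D.iso_Fch s) (Asp_mem arm c t s)
  have h9 := Finset.sum_le_sum fun s (_ : s ∈ (Finset.univ : Finset ι)) => h8 s
  rw [Finset.sum_add_distrib, Finset.sum_add_distrib, Finset.sum_const, Finset.card_univ,
    smul_eq_mul] at h9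
  have h10 : finrank L V ≤ ∑ s, finrank L (Asp L arm t s) := by
    rw [← Module.finrank_pi_fintype]
    let g : (∀ s, Asp L arm t s) →ₗ[L] V := ∑ s, (Asp L arm t s).subtype ∘ₗ LinearMap.proj s
    have hg : Function.Surjective g := by
      rw [← LinearMap.range_eq_top, ← top_le_iff, ← D.span, Submodule.span_le]
      rintro _ ⟨l, rfl⟩
      refine ⟨Pi.single (arm l) ⟨t l, Fsp_le_Asp arm c t l (t_mem_Fsp arm c t l)⟩, ?_⟩
      rw [LinearMap.sum_apply, Finset.sum_eq_single (arm l)]
      · simp
      · intro s _ hs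
        rw [LinearMap.comp_apply, LinearMap.proj_apply, Pi.single_eq_of_ne hs, map_zero]
      · intro h; exact absurd (Finset.mem_univ _) h
    exact LinearMap.finrank_le_finrank_of_surjective hg
  have h11 : 0 < Fintype.card ι := by
    rw [Fintype.card_pos_iff]
    by_contra hι
    rw [not_nonempty_iff] at hι
    rw [Fintype.sum_empty] at h10
    omega
  obtain ⟨M, hM⟩ := Nat.exists_eq_add_of_lt h11
  rw [hM] at h5 h6 h9
  have h12 := Nat.mul_le_mul_left M h7
  generalize finrank L (so q ∅) = dso at *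
  generalize finrank L (sy q ∅) = dsy at *
  generalize finrank L V = r at *
  generalize (∑ s, finrank L (so q (Fch L arm c t s))) = sp at *
  generalize (∑ s, finrank L (sy q (Fch L arm c t s))) = sq at *
  generalize (∑ s, finrank L (Asp L arm t s)) = sa at *
  nlinarith

end main

section final

variable {L J ι α : Type*} [Field L] [Fintype J] [DecidableEq J] [Fintype ι] [DecidableEq ι]
  [LinearOrder α]

/-- **The square-zero vanishing lemma.** -/
theorem n1sq (h2 : (2 : L) ≠ 0) (arm : J → ι) (c : J → α) {Ω : Matrix J J L} (hΩ : Ωᵀ = -Ω)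
    (hV : VDer Ω) {C : Matrix J J L} (hC : Cᵀ = C) (h0 : ∀ l k, arm l = arm k → C l k = 0)
    (h1 : ∀ l k, arm l = arm k → c l ≤ c k → (C * Ω) l k = 0)
    (hG : ∀ s, C * Gm arm Ω s * C = 0) : C = 0 := by
  classical
  have hsymm : ∀ x y : J → L, x ⬝ᵥ (C *ᵥ y) = (C *ᵥ x) ⬝ᵥ y := by
    intro x y
    rw [dotProduct_mulVec, ← Matrix.mulVec_transpose, hC]
  set K : Submodule L (J → L) := LinearMap.ker C.mulVecLin with hK
  have hKm : ∀ x, x ∈ K ↔ C *ᵥ x = 0 := fun x => by rw [hK, LinearMap.mem_ker, mulVecLin_apply]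
  obtain ⟨W, hW⟩ := exists_isCompl K
  let T : (J → L) →ₗ[L] W := W.projectionOnto K hW.symm
  have hTK : ∀ x ∈ K, T x = 0 := fun x hx =>
    (Submodule.projectionOnto_apply_eq_zero_iff hW.symm).mpr hx
  have hTW : ∀ w : W, T w = w := fun w => Submodule.projectionOnto_apply_left hW.symm w
  have hT : ∀ x, C *ᵥ (T x : J → L) = C *ᵥ x := by
    intro x
    have h3 : x - T x ∈ K := by
      rw [← Submodule.projectionOnto_apply_eq_zero_iff hW.symm]
      show T (x - T x) = 0
      rw [map_sub, hTW, sub_self]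
    rw [hKm, Matrix.mulVec_sub, sub_eq_zero] at h3
    exact h3.symm
  let q : W →ₗ[L] W →ₗ[L] L := (Matrix.toLinearMap₂' L C).domRestrict₁₂ W W
  have hq : ∀ u v : W, q u v = (u : J → L) ⬝ᵥ (C *ᵥ (v : J → L)) := fun u v =>
    Matrix.toLinearMap₂'_apply' C _ _
  have hq1 : ∀ u : W, ∀ y, q u (T y) = (u : J → L) ⬝ᵥ (C *ᵥ y) := fun u y => by rw [hq, hT]
  have hq2 : ∀ x, ∀ v : W, q (T x) v = x ⬝ᵥ (C *ᵥ (v : J → L)) := fun x v => by
    rw [hq, hsymm, hT, hsymm]
  have hq12 : ∀ x y, q (T x) (T y) = x ⬝ᵥ (C *ᵥ y) := fun x y => by rw [hq2, hT]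
  have hform : IsForm q := by
    refine ⟨fun u v => by rw [hq, hq, hsymm, dotProduct_comm], fun u hu => ?_⟩
    have h3 : (u : J → L) ∈ K := by
      rw [hKm]
      funext i
      have h4 := hu (T (Pi.single i 1))
      rw [hq1, hsymm] at h4
      simpa using h4
    exact (Submodule.disjoint_def.mp hW.disjoint) _ h3 u.2 |> fun h => Subtype.ext h
  let t : J → W := fun l => T (Pi.single l 1)
  have hTsum : ∀ x : J → L, T x = ∑ k, x k • t k := by
    intro x
    conv_lhs => rw [pi_eq_sum_univ' x]
    rw [map_sum]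
    refine Finset.sum_congr rfl fun k _ => ?_
    rw [map_smul]
  have hu : ∀ l, uu Ω t l = T (Ω l) := fun l => (hTsum _).symm
  have D : Dat arm c q Ω t := by
    refine ⟨hform, ?_, ?_, ?_, ?_⟩
    · rw [eq_top_iff]
      intro v _
      rw [← hTW v, hTsum]
      exact Submodule.sum_mem _ fun k _ => Submodule.smul_mem _ _ (Submodule.subset_span ⟨k, rfl⟩)
    · intro l k hlk
      show q (T _) (T _) = 0
      rw [hq12]
      simpa using h0 l k hlk
    · intro l k hlk hc
      rw [hu]
      show q (T _) (T _) = 0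
      rw [hq12, Matrix.mulVec_single_one]
      have h3 : Ω l ⬝ᵥ C.col k = (Ω * C) l k := rfl
      have h4 : Ω * C = -(C * Ω)ᵀ := by
        rw [Matrix.transpose_mul, hC, hΩ, Matrix.neg_mul, neg_neg]
      rw [h3, h4, Matrix.neg_apply, Matrix.transpose_apply, h1 k l hlk.symm hc, neg_zero]
    · intro s v
      have h3 : T (Gm arm Ω s *ᵥ (C *ᵥ (v : J → L))) = 0 := by
        apply hTK
        rw [hKm, Matrix.mulVec_mulVec, Matrix.mulVec_mulVec, hG, Matrix.zero_mulVec]
      rw [← h3]
      set z := C *ᵥ (v : J → L) with hz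
      have h4 : ∀ l, q (uu Ω t l) v • t l + q (t l) v • uu Ω t l =
          T ((Ω l ⬝ᵥ z) • Pi.single l 1 + z l • Ω l) := by
        intro l
        rw [map_add, map_smul, map_smul, hu, hq2, ← hz]
        have h5 : q (t l) v = z l := by
          show q (T _) v = _
          rw [hq2, ← hz, single_one_dotProduct]
        rw [h5]
      rw [Finset.sum_congr rfl fun l _ => h4 l, ← map_sum]
      congr 1
      funext k
      have h5 : (Gm arm Ω s *ᵥ z) k = ∑ j, ((if arm k = s then Ω k j * z j else 0) -
          (if arm j = s then Ω k j * z j else 0)) := by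
        show ∑ j, Gm arm Ω s k j * z j = _
        refine Finset.sum_congr rfl fun j _ => ?_
        rw [Gm_apply]
        split_ifs <;> ring
      rw [h5, Finset.sum_sub_distrib, Finset.sum_apply]
      simp only [Pi.add_apply, Pi.smul_apply, smul_eq_mul, Pi.single_apply]
      rw [Finset.sum_add_distrib, Finset.sum_filter, Finset.sum_filter, sub_eq_add_neg,
        ← Finset.sum_neg_distrib]
      congr 1
      · rw [Finset.sum_eq_single k]
        · by_cases hk : arm k = s
          · simp only [hk, if_true, mul_one]; rfl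
          · simp only [hk, if_false]; rw [Finset.sum_const_zero]
        · intro j _ hj
          rw [if_neg (Ne.symm hj), mul_zero, ite_self]
        · intro h; exact absurd (Finset.mem_univ _) h
      · refine Finset.sum_congr rfl fun j _ => ?_
        by_cases hj : arm j = s
        · rw [if_pos hj, if_pos hj]
          have : Ω j k = - Ω k j := by
            have := congrFun (congrFun hΩ k) j
            simpa using this
          rw [this]; ring
        · rw [if_neg hj, if_neg hj, neg_zero]
  have h3 := D.finrank_eq_zero h2 hV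
  have h4 : W = ⊥ := Submodule.finrank_eq_zero.mp h3
  have h5 : K = ⊤ := by
    have := hW.sup_eq_top
    rwa [h4, sup_bot_eq] at this
  ext i j
  have h6 : (Pi.single j 1 : J → L) ∈ K := by rw [h5]; trivial
  rw [hKm] at h6
  have := congrFun h6 i
  simpa using this

end final

end Vale.Agent.P182.H922
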