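import Vale.Agent.P182.H922.DichoCfg

/-!
# The critical case

`CritD 𝒟 σ` is the critical situation left over by the reductions (block B1). The three remaining
ingredients are the propositions `HypNull` (block B4), `HypF1` (block B5) and `HypIso` (block B7);
together they show that the critical case does not occur (`crit`).
-/

namespace Vale.Agent.P182.H922

open Module Matrix Vale.Agent.P182.H533 Vale.Agent.P182.B1

universe u v w

section crit

variable {L : Type u} {V : Type v} {J : Type w} [Field L] [AddCommGroup V] [Module L V]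
  [Fintype J]

/-- the critical situation -/
structure CritD (𝒟 : Cfg L V J) (σ : J → J) : Prop where
  good : 𝒟.Good
  versal : 𝒟.Versal
  rich : 𝒟.Rich
  pairing : 𝒟.Pairing σ
  semi : 𝒟.Semistable
  ih : IH.{u, v, w} L J (finrank L V)
  null_th : ∀ S, 𝒟.Iso S → 𝒟.theta S = 0 → ∀ s i, 𝒟.th s i S ≤ 0
  null_col : ∀ S, 𝒟.Iso S → 𝒟.theta S = 0 → ∀ l, 𝒟.th (𝒟.arm l) (𝒟.c l) S = 0
  dim : finrank L 𝒟.K = 2
  corner : ∀ l, 𝒟.arm (σ l) = 𝒟.arm l → 1 ≤ 𝒟.c l → ∀ t ∈ 𝒟.K,
    t l ∈ 𝒟.F (𝒟.arm l) (𝒟.c l - 1) → t (σ l) ∈ 𝒟.F (𝒟.arm l) (𝒟.c l - 1) → t = 0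

end crit

section hyp

variable (L : Type u) (J : Type w) [Field L] [Fintype J] [DecidableEq J]

/-- **Block B4**: in the critical situation a nonzero core is not in the null case. -/
def HypNull : Prop := ∀ (V : Type v) [AddCommGroup V] [Module L V] [FiniteDimensional L V]
  (𝒟 : Cfg L V J) (σ : J → J) (h : CritD 𝒟 σ) (t : J → V), MaxCoreC 𝒟 t →
  ∀ C : Core 𝒟.q (Res 𝒟 t), 0 < finrank L C.V1 → ¬ NullCore C h.good.form

/-- **Block B5** (F1 in general): a nilpotent element of `K` is orthogonal to `K`. -/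
def HypF1 : Prop := ∀ (V : Type v) [AddCommGroup V] [Module L V] [FiniteDimensional L V]
  (𝒟 : Cfg L V J) (σ : J → J), CritD 𝒟 σ → ∀ x ∈ 𝒟.K,
  (∀ a : Fin 3 → L, IsNilpotent (lc (Res 𝒟 x) a)) → ∀ y ∈ 𝒟.K, ∀ l k, 𝒟.q (x l) (y k) = 0

/-- **Block B7**: there is no nonzero isotropic element of `K`. -/
def HypIso : Prop := ∀ (V : Type v) [AddCommGroup V] [Module L V] [FiniteDimensional L V]
  (𝒟 : Cfg L V J) (σ : J → J), CritD 𝒟 σ → ∀ w ∈ 𝒟.K, (∀ l k, 𝒟.q (w l) (w k) = 0) → w = 0

end hyp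

section triv

variable {L V : Type*} [Field L] [AddCommGroup V] [Module L V]

theorem lc_SA {q : V →ₗ[L] V →ₗ[L] L} {S : Fin 3 → End L V} (hS : ∀ s, IsSA q (S s))
    (a : Fin 3 → L) : IsSA q (lc S a) := by
  intro u v
  rw [lc_apply, lc_apply, map_sum, map_sum, LinearMap.sum_apply]
  refine Finset.sum_congr rfl fun s _ => ?_
  rw [map_smul, map_smul, LinearMap.smul_apply, hS]

/-- with a trivial core all linear combinations are nilpotent -/
theorem nilpotent_of_trivial {q : V →ₗ[L] V →ₗ[L] L} (hq : IsForm q) {S : Fin 3 → End L V}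
    (hS : ∀ s, IsSA q (S s)) (C : Core q S) (h0 : C.V1 = ⊥) (a : Fin 3 → L) :
    IsNilpotent (lc S a) := by
  have hW : C.W ≤ perp q C.W := by
    have := C.sup
    rw [h0, bot_sup_eq] at this
    exact inf_eq_left.mp this
  have h1 : ∀ r v, (lc S a ^ r) v ∈ H533.words S r := by
    intro r
    induction r with
    | zero => intro v; trivial
    | succ r ih =>
      intro v
      rw [pow_succ', Module.End.mul_apply, lc_apply, H533.words_succ]
      exact Submodule.sum_mem _ fun s _ => Submodule.smul_mem _ _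
        (Submodule.mem_iSup_of_mem s (Submodule.mem_map_of_mem (ih v)))
  have h2 : ∀ v, (lc S a ^ C.N) v ∈ C.W := fun v => by rw [C.hN]; exact h1 _ v
  have h3 : ∀ r u v, q ((lc S a ^ r) u) v = q u ((lc S a ^ r) v) := by
    intro r
    induction r with
    | zero => intro u v; simp
    | succ r ih =>
      intro u v
      rw [pow_succ', Module.End.mul_apply, lc_SA hS a, ih, ← Module.End.mul_apply, ← pow_succ,
        pow_succ']
  refine ⟨C.N + C.N, ?_⟩
  refine LinearMap.ext fun v => ?_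
  rw [LinearMap.zero_apply]
  apply hq.nondeg
  intro w
  rw [pow_add, Module.End.mul_apply, h3]
  exact hW (h2 v) _ (h2 w)

end triv

section main

variable {L : Type u} {J : Type w} [Field L] [Fintype J] [DecidableEq J] [IsAlgClosed L]
  [CharZero L]

/-- **The critical case does not occur.** -/
theorem crit (h4 : HypNull.{u, v, w} L J) (h5 : HypF1.{u, v, w} L J)
    (h7 : HypIso.{u, v, w} L J) {V : Type v} [AddCommGroup V] [Module L V]
    [FiniteDimensional L V] (𝒟 : Cfg L V J) (σ : J → J) : ¬ CritD 𝒟 σ := by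
  intro h
  obtain ⟨t, ht⟩ := exists_maxCoreC 𝒟
  obtain ⟨C⟩ := exists_core 𝒟.q (Res 𝒟 t)
  have hSA : ∀ x : J → V, ∀ s, IsSA 𝒟.q (Res 𝒟 x s) := fun x s =>
    Sop_SA 𝒟.arm h.good.form (Tt L x) h.good.skew s
  by_cases h0 : finrank L C.V1 = 0
  · -- the trivial core
    obtain ⟨x, hx⟩ : ∃ x : 𝒟.K, x ≠ 0 := by
      apply (Module.finrank_pos_iff_exists_ne_zero (R := L)).mp
      rw [h.dim]; norm_num
    apply hx
    apply Subtype.ext
    apply h7 V 𝒟 σ h _ x.2
    intro l k
    refine h5 V 𝒟 σ h _ x.2 (fun a => ?_) _ x.2 l k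
    obtain ⟨C'⟩ := exists_core 𝒟.q (Res 𝒟 (x : J → V))
    have h1 := ht.2 _ x.2 C C'
    rw [h0, Nat.le_zero, Submodule.finrank_eq_zero] at h1
    exact nilpotent_of_trivial h.good.form (hSA _) C' h1 a
  · -- the dichotomy
    rcases dichotomyC h.good h.versal ht C with hn | hd
    · exact h4 V 𝒟 σ h t ht C (Nat.pos_of_ne_zero h0) hn
    obtain ⟨x, hx, hxt⟩ : ∃ x ∈ 𝒟.K, x ∉ Submodule.span L {t} := by
      by_contra hcon
      push Not at hcon
      have h1 : finrank L 𝒟.K ≤ finrank L (Submodule.span L {t}) :=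
        Submodule.finrank_mono (fun x hx => hcon x hx)
      have h2 : finrank L (Submodule.span L {t}) ≤ 1 := by
        have := finrank_span_le_card (R := L) ({t} : Set (J → V))
        simpa using this
      rw [h.dim] at h1
      omega
    obtain ⟨d, hd⟩ := hd x hx
    have hy : x - d • t ∈ 𝒟.K := Submodule.sub_mem _ hx (Submodule.smul_mem _ _ ht.1)
    have h1 := h7 V 𝒟 σ h _ hy fun l k => h5 V 𝒟 σ h _ hy hd _ hy l k
    apply hxt
    rw [sub_eq_zero.mp h1]
    exact Submodule.smul_mem _ _ (Submodule.mem_span_singleton_self t)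

end main

end Vale.Agent.P182.H922
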