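import Vale.Agent.P182.H922.Six2
import Vale.Agent.P182.H922.Crit
import Vale.Agent.P182.H578.Hyp
import Vale.Agent.P182.H664.Frame

/-!
# The critical case, second form

The null case (block B4) is only needed if `D` has at least three distinct eigenvalues on the
core (`HypNull3`): if `D` has at most two distinct eigenvalues then `K` contains two nonzero
elements `x`, `y` with `q (x l) (y k) = 0` for all `l`, `k`, and this is excluded by
LEMMA TWO (`HypTwo`).
-/

namespace Vale.Agent.P182.H922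

open Module Matrix Vale.Agent.P182.H533 Vale.Agent.P182.B1 Vale.Agent.P182.H578

universe u v w

section pair

variable {L V J : Type*} [Field L] [AddCommGroup V] [Module L V] [FiniteDimensional L V]
  [Fintype J] [DecidableEq J] {𝒟 : Cfg L V J}

/-- a pair of elements of the kernel with nilpotent mixed operators is orthogonal -/
theorem gram_pair [IsAlgClosed L] [CharZero L] (hG : 𝒟.Good) (hV : 𝒟.Versal)
    (hS : 𝒟.Semistable) {x y : J → V} (hx : x ∈ 𝒟.K) (hy : y ∈ 𝒟.K)
    (hn : ∀ a : Fin 3 → L,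
      IsNilpotent (lc (fun s => opr 𝒟.q (Tt L x) (Gm 𝒟.arm 𝒟.Ω s) (Tt L y)) a)) (l k : J) :
    𝒟.q (x l) (y k) = 0 := by
  classical
  have hK := kRelC hG hV
  have hX : Tt L x ∈ Tt L '' (𝒟.K : Set (J → V)) := ⟨x, hx, rfl⟩
  have hY : Tt L y ∈ Tt L '' (𝒟.K : Set (J → V)) := ⟨y, hy, rfl⟩
  have hg : ∀ l k, H578.gram 𝒟.q (Tt L x) (Tt L y) l k = 𝒟.q (x l) (y k) := fun l k => by
    rw [H578.gram_apply, Tt_single, Tt_single]
  have hsym : ∀ l k, 𝒟.q (x l) (y k) = 𝒟.q (x k) (y l) := by
    intro l k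
    have h1 := hK.F1 _ hX _ hY (Pi.single l 1) (Pi.single k 1)
    rw [Tt_single, Tt_single, Tt_single, Tt_single] at h1
    rw [h1, hG.form.symm]
  have hx0 : ∀ l, 𝒟.C l = ⊥ → x l = 0 := fun l h => by
    have := hx.1 l
    rw [h] at this
    exact this
  let c' : J → ℕ := fun l => if 𝒟.C l = ⊥ then 0 else 𝒟.c l
  have hc0 : ∀ l, 𝒟.c l = 0 → 𝒟.C l = ⊥ := fun l h => by
    show 𝒟.F (𝒟.arm l) (𝒟.c l) = ⊥
    rw [h, hG.zero]
  have hc' : ∀ l, 1 ≤ c' l ↔ 𝒟.C l ≠ ⊥ := by
    intro l
    by_cases h : 𝒟.C l = ⊥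
    · simp [c', h]
    · simp only [c', if_neg h, ne_eq, h, not_false_eq_true, iff_true]
      rw [Nat.one_le_iff_ne_zero]
      exact fun h' => h (hc0 l h')
  have hmain : H578.gram 𝒟.q (Tt L x) (Tt L y) = 0 := by
    refine N1_general (arm := 𝒟.arm) (c := c') hG.skew (vder_of_versal hV) ?_ ?_ ?_ ?_ ?_ ?_
    · intro s
      have h1 := card_of_semistable hG hS s
      simp only [hc']
      exact h1
    · ext l k
      rw [Matrix.transpose_apply, hg, hg]
      exact hsym k l
    · intro l k hlk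
      rw [hg]
      have h1 : x l ∈ 𝒟.F (𝒟.arm l) (max (𝒟.c l) (𝒟.c k)) :=
        hG.mono _ (le_max_left _ _) (hx.1 l)
      have h2 : y k ∈ 𝒟.F (𝒟.arm l) (max (𝒟.c l) (𝒟.c k)) := by
        rw [hlk]
        exact hG.mono _ (le_max_right _ _) (hy.1 k)
      exact hG.iso _ _ h1 _ h2
    · intro l k hlk hc
      have h1 : (H578.gram 𝒟.q (Tt L x) (Tt L y) * 𝒟.Ω) l k = - 𝒟.q (x l) (𝒟.om y k) := by
        rw [Matrix.mul_apply]
        unfold Cfg.om
        rw [map_sum, ← Finset.sum_neg_distrib]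
        refine Finset.sum_congr rfl fun j _ => ?_
        have := congrFun (congrFun hG.skew k) j
        rw [Matrix.transpose_apply, Matrix.neg_apply] at this
        rw [hg, map_smul, smul_eq_mul, this]
        ring
      rw [h1, neg_eq_zero]
      by_cases hl : 𝒟.C l = ⊥
      · rw [hx0 l hl, map_zero, LinearMap.zero_apply]
      · have h2 : 𝒟.c l ≤ 𝒟.c k := by
          have h3 : c' l = 𝒟.c l := if_neg hl
          have h4 : c' k ≤ 𝒟.c k := by
            show (if 𝒟.C k = ⊥ then 0 else 𝒟.c k) ≤ 𝒟.c k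
            split_ifs <;> omega
          omega
        have h5 : x l ∈ 𝒟.C k := by
          have := hG.mono (𝒟.arm l) h2 (hx.1 l)
          rw [hlk] at this
          exact this
        rw [hG.form.symm]
        exact hy.2 k _ h5
    · intro l k hl
      have : 𝒟.C l = ⊥ := by
        by_contra h
        have := (hc' l).2 h
        omega
      rw [hg, hx0 l this, map_zero, LinearMap.zero_apply]
    · intro a
      obtain ⟨m, hm⟩ := hn a
      have hlc : opr 𝒟.q (Tt L y) (∑ s, a s • Gm 𝒟.arm 𝒟.Ω s) (Tt L x) =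
          lc (fun s => opr 𝒟.q (Tt L x) (Gm 𝒟.arm 𝒟.Ω s) (Tt L y)) a := by
        rw [opr_sum, lc]
        exact Finset.sum_congr rfl fun s _ => by rw [hK.swap hG.form hG.skew hY hX]
      refine ⟨m + 1, ?_⟩
      apply Matrix.mulVec_injective
      funext v
      rw [pow_gram, hlc, hm, LinearMap.zero_apply, Matrix.zero_mulVec]
      have : ad 𝒟.q (Tt L x) (0 : V) = 0 := map_zero _
      rw [this, Matrix.mulVec_zero]
  have := congrFun (congrFun hmain l) k
  rw [hg] at this
  exact this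

end pair

section hyp

variable (L : Type u) (J : Type w) [Field L] [Fintype J] [DecidableEq J]

/-- **LEMMA TWO**: in the critical situation two elements of `K` with `q (x l) (y k) = 0` for all
`l`, `k` are not both nonzero. -/
def HypTwo : Prop := ∀ (V : Type v) [AddCommGroup V] [Module L V] [FiniteDimensional L V]
  (𝒟 : Cfg L V J) (σ : J → J), CritD 𝒟 σ → ∀ x ∈ 𝒟.K, ∀ y ∈ 𝒟.K,
  (∀ l k, 𝒟.q (x l) (y k) = 0) → x = 0 ∨ y = 0

/-- **Block B4** for at least three distinct eigenvalues: let `t` have a core `V₁` of maximal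
dimension, `K = ⟨t, t'⟩`, and let the self adjoint endomorphism `D` of `V₁`, given by `t'`, have at
least three distinct eigenvalues. Then it is not the null case. -/
def HypNull3 : Prop := ∀ (V : Type v) [AddCommGroup V] [Module L V] [FiniteDimensional L V]
  (𝒟 : Cfg L V J) (σ : J → J) (_ : B1.Crit 𝒟 σ) (h : CritD 𝒟 σ) (t : J → V), MaxCoreC 𝒟 t →
  ∀ C : Core 𝒟.q (Res 𝒟 t), 0 < finrank L C.V1 → ∀ t' ∈ 𝒟.K, ∀ D : End L C.V1, IsSA C.q1 D →
  (∀ s, C.res h.good.form (opr 𝒟.q (Tt L t) (Gm 𝒟.arm 𝒟.Ω s) (Tt L t')) =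
    C.S1 h.good.form s * D) →
  (∀ s, C.res h.good.form (opr 𝒟.q (Tt L t) (Gm 𝒟.arm 𝒟.Ω s) (Tt L t')) =
    D * C.S1 h.good.form s) →
  (∃ a b c : L, a ≠ b ∧ a ≠ c ∧ b ≠ c ∧ D.HasEigenvalue a ∧ D.HasEigenvalue b ∧
    D.HasEigenvalue c) → ¬ NullCore C h.good.form

end hyp

section main

variable {L : Type u} {V : Type v} {J : Type w} [Field L] [AddCommGroup V] [Module L V]
  [Fintype J] [DecidableEq J]

theorem critD_of_crit {𝒟 : Cfg L V J} {σ : J → J} (h : B1.Crit.{u, v, w} 𝒟 σ) :
    CritD 𝒟 σ where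
  good := h.good
  versal := h.versal
  rich := h.rich
  pairing := h.pairing
  semi := h.semistable
  ih := h.ih
  null_th := fun S hS h0 => (h.null S hS h0).1
  null_col := fun S hS h0 => (h.null S hS h0).2
  dim := h.finrank_K
  corner := h.corner

variable [IsAlgClosed L] [CharZero L] [FiniteDimensional L V]

/-- **The critical case does not occur**, given the case of three eigenvalues and LEMMA TWO. -/
theorem crit2 (h4 : HypNull3.{u, v, w} L J) (h2 : HypTwo.{u, v, w} L J) (𝒟 : Cfg L V J)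
    (σ : J → J) : ¬ B1.Crit.{u, v, w} 𝒟 σ := by
  intro hB
  have h := critD_of_crit hB
  have h5 : HypF1.{u, v, w} L J := hypF1 L J
  have h7 : HypIso.{u, v, w} L J := by
    intro V _ _ _ 𝒟 σ h x hx hxx
    rcases h2 V 𝒟 σ h x hx x hx hxx with h | h <;> exact h
  obtain ⟨t, ht⟩ := exists_maxCoreC 𝒟
  obtain ⟨C⟩ := exists_core 𝒟.q (Res 𝒟 t)
  have hSA : ∀ x : J → V, ∀ s, IsSA 𝒟.q (Res 𝒟 x s) := fun x s =>
    Sop_SA 𝒟.arm h.good.form (Tt L x) h.good.skew s
  by_cases h0 : finrank L C.V1 = 0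
  · -- the trivial core
    obtain ⟨x, hx⟩ : ∃ x : 𝒟.K, x ≠ 0 := by
      apply (Module.finrank_pos_iff_exists_ne_zero (R := L)).mp
      rw [h.dim]; norm_num
    apply hx
    apply Subtype.ext
    apply h7 V 𝒟 σ h _ x.2
    intro l k
    refine h5 V 𝒟 σ h _ x.2 (fun a => ?_) _ x.2 l k
    obtain ⟨C'⟩ := exists_core 𝒟.q (Res 𝒟 (x : J → V))
    have h1 := ht.2 _ x.2 C C'
    rw [h0, Nat.le_zero, Submodule.finrank_eq_zero] at h1
    exact nilpotent_of_trivial h.good.form (hSA _) C' h1 a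
  · -- a second element
    obtain ⟨t', ht', htt'⟩ : ∃ x ∈ 𝒟.K, x ∉ Submodule.span L {t} := by
      by_contra hcon
      push Not at hcon
      have h1 : finrank L 𝒟.K ≤ finrank L (Submodule.span L {t}) :=
        Submodule.finrank_mono (fun x hx => hcon x hx)
      have h2 : finrank L (Submodule.span L {t}) ≤ 1 := by
        have := finrank_span_le_card (R := L) ({t} : Set (J → V))
        simpa using this
      rw [h.dim] at h1
      omega
    have hq : IsForm 𝒟.q := h.good.form
    have hK := kRelC h.good h.versal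
    have hTm : ∀ x ∈ 𝒟.K, Tt L x ∈ Tt L '' (𝒟.K : Set (J → V)) := fun x hx => ⟨x, hx, rfl⟩
    have hSA' := Sop_SA 𝒟.arm hq (Tt L t) h.good.skew
    obtain ⟨D, hDs, hD1, hD2⟩ := C.exists_D hq hSA'
      (hK.compat hq h.good.skew (hTm _ ht.1) (hTm _ ht'))
    -- the key consequence of LEMMA TWO: not at most two eigenvalues
    have key : ∀ a b : L, ¬ ∀ μ, D.HasEigenvalue μ → μ = a ∨ μ = b := by
      intro a b hab
      have hnil := nilp_of_two D hab
      have hmem : ∀ d : L, t' - d • t ∈ 𝒟.K := fun d =>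
        Submodule.sub_mem _ ht' (Submodule.smul_mem _ _ ht.1)
      have hTe : ∀ d : L, Tt L (t' - d • t) = Tt L t' - d • Tt L t := fun d => by
        rw [Tt_sub, Tt_smul]
      have hop : ∀ (d : L) s, opr 𝒟.q (Tt L t) (Gm 𝒟.arm 𝒟.Ω s) (Tt L (t' - d • t)) =
          opr 𝒟.q (Tt L t) (Gm 𝒟.arm 𝒟.Ω s) (Tt L t') +
            (-d) • Res 𝒟 t s := by
        intro d s
        have hxe : Tt L (t' - d • t) = Tt L t' + (-d) • Tt L t := by
          rw [hTe, neg_smul, sub_eq_add_neg]
        rw [hxe, opr_add_right, opr_smul_right]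
        rfl
      have e1 : ∀ (d : L) s, (-d) • C.S1 hq s = -(d • C.S1 hq s) := fun d s =>
        LinearMap.ext fun v => Subtype.ext (neg_smul d (C.S1 hq s v : V))
      have hDd1 : ∀ (d : L) s,
          C.res hq (opr 𝒟.q (Tt L t) (Gm 𝒟.arm 𝒟.Ω s) (Tt L (t' - d • t))) =
          C.S1 hq s * (D - d • (1 : End L C.V1)) := by
        intro d s
        rw [hop, C.res_add, C.res_smul, C.res_S, hD1, mul_sub, mul_smul_comm, mul_one, e1,
          ← sub_eq_add_neg]
      have hDd2 : ∀ (d : L) s,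
          C.res hq (opr 𝒟.q (Tt L t) (Gm 𝒟.arm 𝒟.Ω s) (Tt L (t' - d • t))) =
          (D - d • (1 : End L C.V1)) * C.S1 hq s := by
        intro d s
        rw [hop, C.res_add, C.res_smul, C.res_S, hD2, sub_mul, smul_mul_assoc, one_mul, e1,
          ← sub_eq_add_neg]
      have hnp : ∀ c : Fin 3 → L, IsNilpotent (lc (fun s => opr 𝒟.q (Tt L (t' - a • t))
          (Gm 𝒟.arm 𝒟.Ω s) (Tt L (t' - b • t))) c) := by
        intro c
        refine nilpotent_pair hq h.good.skew hK (hTm _ ht.1) (x := Tt L (t' - a • t))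
          (y := Tt L (t' - b • t)) (fun r => ?_) (fun r => ?_) (hTm _ (hmem b)) C ?_ (hDd1 a)
          (hDd2 a) (hDd1 b) (hDd2 b) hnil c
        · rw [← Tt_smul]
          exact hTm _ (Submodule.smul_mem _ _ (hmem a))
        · rw [← Tt_smul, ← Tt_add]
          exact hTm _ (Submodule.add_mem _ ht.1 (Submodule.smul_mem _ _ (hmem a)))
        · intro r
          rw [← Tt_smul, ← Tt_add]
          exact fun C' => ht.2 _ (Submodule.add_mem _ ht.1 (Submodule.smul_mem _ _ (hmem a))) C C'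
      have h3 := gram_pair h.good h.versal h.semi (hmem a) (hmem b) hnp
      have h4 : ∀ d : L, t' - d • t ≠ 0 := by
        intro d hd
        apply htt'
        rw [sub_eq_zero.mp hd]
        exact Submodule.smul_mem _ _ (Submodule.mem_span_singleton_self t)
      rcases h2 V 𝒟 σ h _ (hmem a) _ (hmem b) h3 with h5 | h5
      · exact h4 a h5
      · exact h4 b h5
    -- there are at least three eigenvalues
    obtain ⟨a, ha, -⟩ : ∃ a, D.HasEigenvalue a ∧ True := by
      by_contra hcon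
      push Not at hcon
      exact key 0 0 fun μ hμ => absurd trivial (by simpa using hcon μ hμ)
    obtain ⟨b, hb, hab⟩ : ∃ b, D.HasEigenvalue b ∧ a ≠ b := by
      by_contra hcon
      push Not at hcon
      exact key a a fun μ hμ => Or.inl (hcon μ hμ).symm
    obtain ⟨c, hc, hac, hbc⟩ : ∃ c, D.HasEigenvalue c ∧ a ≠ c ∧ b ≠ c := by
      by_contra hcon
      push Not at hcon
      exact key a b fun μ hμ => by
        by_cases h6 : a = μ
        · exact Or.inl h6.symm
        · exact Or.inr (hcon μ hμ h6).symm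
    -- the dichotomy
    rcases dichotomyC h.good h.versal ht C with hn | hd
    · exact h4 V 𝒟 σ hB h t ht C (Nat.pos_of_ne_zero h0) t' ht' D hDs hD1 hD2
        ⟨a, b, c, hab, hac, hbc, ha, hb, hc⟩ hn
    obtain ⟨d, hd⟩ := hd t' ht'
    have hy : t' - d • t ∈ 𝒟.K := Submodule.sub_mem _ ht' (Submodule.smul_mem _ _ ht.1)
    have h1 := h7 V 𝒟 σ h _ hy fun l k => h5 V 𝒟 σ h _ hy hd _ hy l k
    apply htt'
    rw [sub_eq_zero.mp h1]
    exact Submodule.smul_mem _ _ (Submodule.mem_span_singleton_self t)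

end main

end Vale.Agent.P182.H922
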