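import Vale.Agent.P182.H533.Conn
import Mathlib.LinearAlgebra.Matrix.SesquilinearForm

/-!
# Adapted bases, metric connections preserving a chain, dimension counts
-/

namespace Vale.Agent.P182.H922

open Module Matrix Vale.Agent.P182.H533

section adapted

variable {L V : Type*} [Field L] [AddCommGroup V] [Module L V]

theorem exists_adapted_set : ∀ (n : ℕ) (𝒞 : Finset (Submodule L V)), 𝒞.card = n →
    IsChain (· ≤ ·) (𝒞 : Set (Submodule L V)) → ∀ s : Set V, LinearIndepOn L id s →
    (∀ W ∈ 𝒞, s ⊆ W) → ∃ b : Set V, s ⊆ b ∧ LinearIndepOn L id b ∧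
      ∀ W ∈ 𝒞, W ≤ Submodule.span L (b ∩ W) := by
  classical
  intro n
  induction n with
  | zero =>
    intro 𝒞 hcard _ s hs _
    rw [Finset.card_eq_zero] at hcard
    subst hcard
    exact ⟨s, subset_rfl, hs, fun W hW => absurd hW (Finset.notMem_empty W)⟩
  | succ n ih =>
    intro 𝒞 hcard hc s hs hsW
    have hne : 𝒞.Nonempty := by
      rw [← Finset.card_pos, hcard]; exact Nat.succ_pos n
    obtain ⟨W, hW⟩ := 𝒞.exists_minimal hne
    have hle : ∀ W' ∈ 𝒞, W ≤ W' := by
      intro W' hW'
      rcases hc.total hW.prop hW' with h | h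
      · exact h
      · exact hW.le_of_le hW' h
    obtain ⟨b, hb, hsb, hWb, hbi⟩ := exists_linearIndepOn_id_extension hs (hsW W hW.prop)
    obtain ⟨b', hb', hi, hsp⟩ := ih (𝒞.erase W) (by rw [Finset.card_erase_of_mem hW.prop, hcard]; rfl)
      (hc.mono (by simp)) b hbi (fun W' hW' => hb.trans (hle W' (Finset.mem_of_mem_erase hW')))
    refine ⟨b', hsb.trans hb', hi, fun W' hW' => ?_⟩
    by_cases h : W' = W
    · subst h
      exact le_trans hWb (Submodule.span_mono (Set.subset_inter hb' hb))
    · exact hsp W' (Finset.mem_erase.mpr ⟨h, hW'⟩)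

/-- a basis adapted to a chain -/
theorem exists_adapted_basis [FiniteDimensional L V] (𝒞 : Finset (Submodule L V))
    (hc : IsChain (· ≤ ·) (𝒞 : Set (Submodule L V))) :
    ∃ b : Basis (Fin (finrank L V)) L V, ∀ W ∈ 𝒞, ∀ v ∈ W, ∀ i, b.repr v i ≠ 0 → b i ∈ W := by
  classical
  obtain ⟨b, -, hb, hsp⟩ := exists_adapted_set _ (insert ⊤ 𝒞) rfl (by
    rw [Finset.coe_insert]
    exact hc.insert fun W _ _ => Or.inr le_top) ∅ (linearIndepOn_empty L id) (fun _ _ => Set.empty_subset _)
  have htop : ⊤ ≤ Submodule.span L (Set.range ((↑) : b → V)) := by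
    have := hsp ⊤ (Finset.mem_insert_self _ _)
    rw [Subtype.range_coe]
    simpa using this
  let B : Basis b L V := Basis.mk (v := ((↑) : b → V)) hb htop
  have hB : ∀ i, B i = i := fun i => Basis.mk_apply _ _ i
  have hfin : Finite b := Module.Finite.finite_basis B
  have : Fintype b := Fintype.ofFinite b
  have hcard : Fintype.card b = finrank L V := (Module.finrank_eq_card_basis B).symm
  let e : b ≃ Fin (finrank L V) := Fintype.equivFinOfCardEq hcard
  refine ⟨B.reindex e, ?_⟩
  intro W hW v hv i hi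
  have h1 : v ∈ Submodule.span L (B '' {x | (x : V) ∈ W}) := by
    have h2 := hsp W (Finset.mem_insert_of_mem hW) hv
    refine Submodule.span_mono ?_ h2
    rintro x ⟨hx1, hx2⟩
    exact ⟨⟨x, hx1⟩, hx2, hB _⟩
  rw [Basis.mem_span_image] at h1
  rw [Basis.reindex_apply, hB]
  apply h1
  rw [Finset.mem_coe, Finsupp.mem_support_iff]
  simpa using hi

end adapted

section conn

variable {L V : Type*} [Field L] [AddCommGroup V] [Module L V] [FiniteDimensional L V]

omit [FiniteDimensional L V] in
/-- a finite family of subspaces together with their orthogonal complements -/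
theorem chain_perp {q : V →ₗ[L] V →ₗ[L] L} [DecidableEq (Submodule L V)]
    {ℱ : Finset (Submodule L V)} (hc : IsChain (· ≤ ·) (ℱ : Set (Submodule L V)))
    (hiso : ∀ W ∈ ℱ, ∀ W' ∈ ℱ, ∀ w ∈ W, ∀ w' ∈ W', q w w' = 0) :
    IsChain (· ≤ ·) ((ℱ ∪ ℱ.image (perp q) : Finset (Submodule L V)) : Set (Submodule L V)) := by
  have hp : ∀ {W W' : Submodule L V}, W ≤ W' → perp q W' ≤ perp q W :=
    fun h v hv w hw => hv w (h hw)
  have h1 : ∀ W ∈ ℱ, ∀ W' ∈ ℱ, W ≤ perp q W' := fun W hW W' hW' w hw w' hw' =>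
    hiso W hW W' hW' w hw w' hw'
  rintro A hA B hB -
  rw [Finset.mem_coe, Finset.mem_union, Finset.mem_image] at hA hB
  rcases hA with hA | ⟨A, hA, rfl⟩ <;> rcases hB with hB | ⟨B, hB, rfl⟩
  · exact hc.total hA hB
  · exact Or.inl (h1 A hA B hB)
  · exact Or.inr (h1 B hB A hA)
  · rcases hc.total hA hB with h | h
    · exact Or.inr (hp h)
    · exact Or.inl (hp h)

theorem perp_perp_le {q : V →ₗ[L] V →ₗ[L] L} (hq : IsForm q) (W : Submodule L V) :
    perp q (perp q W) ≤ W := by
  intro v hv
  by_contra h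
  obtain ⟨f, hf, hfW⟩ := Submodule.exists_dual_map_eq_bot_of_notMem h inferInstance
  apply hf
  obtain ⟨u, rfl⟩ := hq.eqv.surjective f
  rw [hq.eqv_apply, hq.symm]
  apply hv
  intro w hw
  have : q u w ∈ Submodule.map (hq.eqv u) W := ⟨w, hw, rfl⟩
  rw [hfW] at this
  exact (Submodule.mem_bot L).mp this

/-- **Type constancy.** A derivation lifts to a metric connection preserving a given chain of
isotropic subspaces. -/
theorem exists_metric_conn {q : V →ₗ[L] V →ₗ[L] L} (hq : IsForm q) (h2 : (2 : L) ≠ 0)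
    (d : L →+ L) (hd : ∀ a b, d (a * b) = d a * b + a * d b)
    {ℱ : Finset (Submodule L V)} (hc : IsChain (· ≤ ·) (ℱ : Set (Submodule L V)))
    (hiso : ∀ W ∈ ℱ, ∀ W' ∈ ℱ, ∀ w ∈ W, ∀ w' ∈ W', q w w' = 0) :
    ∃ c : Conn q, c.d = d ∧ ∀ W ∈ ℱ, ∀ w ∈ W, c.δ w ∈ W := by
  classical
  obtain ⟨b, hb⟩ := exists_adapted_basis _ (chain_perp hc hiso)
  let δ0 : V →+ V :=
    { toFun := fun v => ∑ i, d (b.repr v i) • b i
      map_zero' := by simp
      map_add' := fun u v => by simp [add_smul, Finset.sum_add_distrib] }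
  have hδ0 : ∀ v, δ0 v = ∑ i, d (b.repr v i) • b i := fun v => rfl
  have hsm : ∀ a v, δ0 (a • v) = d a • v + a • δ0 v := by
    intro a v
    rw [hδ0, hδ0]
    conv_rhs => rw [← b.sum_repr v]
    rw [Finset.smul_sum, Finset.smul_sum, ← Finset.sum_add_distrib]
    refine Finset.sum_congr rfl fun i _ => ?_
    rw [map_smul, Finsupp.smul_apply, smul_eq_mul, hd, add_smul, smul_smul, smul_smul, b.sum_repr]
  have hpres : ∀ W ∈ ℱ ∪ ℱ.image (perp q), ∀ w ∈ W, δ0 w ∈ W := by
    intro W hW w hw
    rw [hδ0]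
    refine Submodule.sum_mem _ fun i _ => ?_
    by_cases h : b.repr w i = 0
    · rw [h, map_zero, zero_smul]; exact Submodule.zero_mem _
    · exact Submodule.smul_mem _ _ (hb W hW w hw i h)
  let C : V →ₗ[L] V →ₗ[L] L := LinearMap.mk₂ L
    (fun u v => (2 : L)⁻¹ * (d (q u v) - q (δ0 u) v - q u (δ0 v)))
    (fun u u' v => by simp only [map_add, LinearMap.add_apply]; ring)
    (fun a u v => by
      simp only [map_smul, LinearMap.smul_apply, smul_eq_mul, hsm, map_add, LinearMap.add_apply, hd]
      ring)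
    (fun u v v' => by simp only [map_add]; ring)
    (fun a u v => by
      simp only [map_smul, smul_eq_mul, hsm, map_add, hd]
      ring)
  have hC : ∀ u v, C u v = (2 : L)⁻¹ * (d (q u v) - q (δ0 u) v - q u (δ0 v)) := fun u v => rfl
  obtain ⟨X, hX⟩ := hq.exists_end C
  refine ⟨{ d := d, δ := δ0 + X.toAddMonoidHom, leib := hd, smul := ?_, metric := ?_ }, rfl, ?_⟩
  · intro a v
    show δ0 (a • v) + X (a • v) = d a • v + a • (δ0 v + X v)
    rw [hsm, map_smul, smul_add, add_assoc]
  · intro u v
    show d (q u v) = q (δ0 u + X u) v + q u (δ0 v + X v)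
    have h3 : q u (X v) = C u v := by
      rw [hq.symm, hX, hC, hC, hq.symm v u, hq.symm (δ0 v) u, hq.symm v (δ0 u)]
      ring
    rw [map_add, LinearMap.add_apply, map_add, hX, h3, hC]
    field_simp
    ring
  · intro W hW w hw
    show δ0 w + X w ∈ W
    refine Submodule.add_mem _ (hpres W (Finset.mem_union_left _ hW) w hw) (perp_perp_le hq W ?_)
    intro v hv
    have h4 := hpres W (Finset.mem_union_left _ hW) w hw
    have h5 := hpres (perp q W) (Finset.mem_union_right _ (Finset.mem_image_of_mem _ hW)) v hv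
    rw [hX, hC, hq.symm w v, hv w hw, hq.symm (δ0 w), hv _ h4, hq.symm w, h5 w hw, map_zero]
    simp

end conn

section dims

variable {L V : Type*} [Field L] [AddCommGroup V] [Module L V]

/-- the skew endomorphisms -/
def so (q : V →ₗ[L] V →ₗ[L] L) (ℱ : Finset (Submodule L V)) : Submodule L (End L V) where
  carrier := {X | IsSk q X ∧ ∀ W ∈ ℱ, ∀ w ∈ W, X w ∈ W}
  add_mem' := by
    rintro X Y ⟨hX, hX'⟩ ⟨hY, hY'⟩
    refine ⟨fun u v => ?_, fun W hW w hw => Submodule.add_mem _ (hX' W hW w hw) (hY' W hW w hw)⟩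
    rw [LinearMap.add_apply, LinearMap.add_apply, map_add, map_add, LinearMap.add_apply, hX, hY,
      neg_add]
  zero_mem' := ⟨fun u v => by simp, fun W _ w _ => Submodule.zero_mem _⟩
  smul_mem' := by
    rintro a X ⟨hX, hX'⟩
    refine ⟨fun u v => ?_, fun W hW w hw => Submodule.smul_mem _ _ (hX' W hW w hw)⟩
    rw [LinearMap.smul_apply, LinearMap.smul_apply, map_smul, map_smul, LinearMap.smul_apply, hX,
      smul_neg]

/-- the self-adjoint endomorphisms -/
def sy (q : V →ₗ[L] V →ₗ[L] L) (ℱ : Finset (Submodule L V)) : Submodule L (End L V) where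
  carrier := {X | IsSA q X ∧ ∀ W ∈ ℱ, ∀ w ∈ W, X w ∈ W}
  add_mem' := by
    rintro X Y ⟨hX, hX'⟩ ⟨hY, hY'⟩
    refine ⟨fun u v => ?_, fun W hW w hw => Submodule.add_mem _ (hX' W hW w hw) (hY' W hW w hw)⟩
    rw [LinearMap.add_apply, LinearMap.add_apply, map_add, map_add, LinearMap.add_apply, hX, hY]
  zero_mem' := ⟨fun u v => by simp, fun W _ w _ => Submodule.zero_mem _⟩
  smul_mem' := by
    rintro a X ⟨hX, hX'⟩
    refine ⟨fun u v => ?_, fun W hW w hw => Submodule.smul_mem _ _ (hX' W hW w hw)⟩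
    rw [LinearMap.smul_apply, LinearMap.smul_apply, map_smul, map_smul, LinearMap.smul_apply, hX]

theorem mem_so {q : V →ₗ[L] V →ₗ[L] L} {ℱ : Finset (Submodule L V)} {X : End L V} :
    X ∈ so q ℱ ↔ IsSk q X ∧ ∀ W ∈ ℱ, ∀ w ∈ W, X w ∈ W := Iff.rfl

theorem mem_sy {q : V →ₗ[L] V →ₗ[L] L} {ℱ : Finset (Submodule L V)} {X : End L V} :
    X ∈ sy q ℱ ↔ IsSA q X ∧ ∀ W ∈ ℱ, ∀ w ∈ W, X w ∈ W := Iff.rfl

/-- change signs below the diagonal and kill the diagonal -/
def Tri (n : ℕ) (L : Type*) [Field L] : Matrix (Fin n) (Fin n) L →ₗ[L] Matrix (Fin n) (Fin n) L where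
  toFun := fun M => Matrix.of fun i j => if i < j then M i j else if j < i then - M i j else 0
  map_add' := fun M N => by
    ext i j
    simp only [Matrix.of_apply, Matrix.add_apply]
    split_ifs <;> ring
  map_smul' := fun a M => by
    ext i j
    simp only [Matrix.of_apply, Matrix.smul_apply, RingHom.id_apply, smul_eq_mul]
    split_ifs <;> ring

theorem Tri_apply {n : ℕ} (M : Matrix (Fin n) (Fin n) L) (i j : Fin n) :
    Tri n L M i j = if i < j then M i j else if j < i then - M i j else 0 := rfl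

variable [FiniteDimensional L V]

/-- the matrix of the form `q (X u) v` -/
noncomputable def eM {n : ℕ} {q : V →ₗ[L] V →ₗ[L] L} (hq : IsForm q) (b : Basis (Fin n) L V) :
    End L V ≃ₗ[L] Matrix (Fin n) (Fin n) L :=
  (LinearEquiv.congrRight hq.eqv).trans (LinearMap.toMatrix₂ b b)

theorem eM_apply {n : ℕ} {q : V →ₗ[L] V →ₗ[L] L} (hq : IsForm q) (b : Basis (Fin n) L V)
    (X : End L V) (i j : Fin n) : eM hq b X i j = q (X (b i)) (b j) := by
  rw [eM, LinearEquiv.trans_apply, LinearMap.toMatrix₂_apply]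
  rfl

theorem eM_symm_apply {n : ℕ} {q : V →ₗ[L] V →ₗ[L] L} (hq : IsForm q) (b : Basis (Fin n) L V)
    (M : Matrix (Fin n) (Fin n) L) (i j : Fin n) : q ((eM hq b).symm M (b i)) (b j) = M i j := by
  rw [← eM_apply hq, LinearEquiv.apply_symm_apply]

theorem isSk_iff {n : ℕ} {q : V →ₗ[L] V →ₗ[L] L} (hq : IsForm q) (b : Basis (Fin n) L V)
    (X : End L V) : IsSk q X ↔ ∀ i j, eM hq b X i j = - eM hq b X j i := by
  constructor
  · intro h i j
    rw [eM_apply, eM_apply, h, hq.symm]
  · intro h
    have h1 : q ∘ₗ X = -(q ∘ₗ X).flip := by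
      refine LinearMap.ext_basis b b fun i j => ?_
      have := h i j
      rw [eM_apply, eM_apply] at this
      simpa using this
    intro u v
    have := LinearMap.congr_fun₂ h1 u v
    simp only [LinearMap.comp_apply, LinearMap.neg_apply, LinearMap.flip_apply] at this
    rw [this, hq.symm]

theorem isSA_iff {n : ℕ} {q : V →ₗ[L] V →ₗ[L] L} (hq : IsForm q) (b : Basis (Fin n) L V)
    (X : End L V) : IsSA q X ↔ ∀ i j, eM hq b X i j = eM hq b X j i := by
  constructor
  · intro h i j
    rw [eM_apply, eM_apply, h, hq.symm]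
  · intro h
    have h1 : q ∘ₗ X = (q ∘ₗ X).flip := by
      refine LinearMap.ext_basis b b fun i j => ?_
      have := h i j
      rw [eM_apply, eM_apply] at this
      simpa using this
    intro u v
    have := LinearMap.congr_fun₂ h1 u v
    simp only [LinearMap.comp_apply, LinearMap.flip_apply] at this
    rw [this, hq.symm]

/-- **The first dimension count.** -/
theorem finrank_so_add_le {q : V →ₗ[L] V →ₗ[L] L} (hq : IsForm q) (h2 : (2 : L) ≠ 0) :
    finrank L (so q ∅) + finrank L V ≤ finrank L (sy q ∅) := by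
  classical
  let b := Module.finBasis L V
  let f : (so q ∅ × (Fin (finrank L V) → L)) →ₗ[L] End L V :=
    (eM hq b).symm.toLinearMap ∘ₗ
      ((Tri _ L ∘ₗ (eM hq b).toLinearMap ∘ₗ (so q ∅).subtype) ∘ₗ LinearMap.fst L _ _ +
        Matrix.diagonalLinearMap (Fin (finrank L V)) L L ∘ₗ LinearMap.snd L _ _)
  have hf : ∀ x i j, eM hq b (f x) i j =
      (if i < j then eM hq b x.1 i j else if j < i then - eM hq b x.1 i j else 0) +
        (if i = j then x.2 i else 0) := by
    intro x i j
    show eM hq b ((eM hq b).symm (Tri _ L (eM hq b x.1) + Matrix.diagonal x.2)) i j = _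
    rw [LinearEquiv.apply_symm_apply, Matrix.add_apply, Tri_apply, Matrix.diagonal_apply]
  have hx1 : ∀ x : (so q ∅ × (Fin (finrank L V) → L)), ∀ i j,
      eM hq b x.1 i j = - eM hq b x.1 j i := fun x => (isSk_iff hq b _).mp x.1.2.1
  have hmem : ∀ x, f x ∈ sy q ∅ := by
    intro x
    refine ⟨(isSA_iff hq b _).mpr fun i j => ?_, fun W hW => absurd hW (Finset.notMem_empty W)⟩
    rw [hf, hf]
    rcases lt_trichotomy i j with h | h | h
    · rw [if_pos h, if_neg h.not_gt, if_pos h, if_neg h.ne, if_neg h.ne', hx1 x i j]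
    · subst h; rfl
    · rw [if_pos h, if_neg h.not_gt, if_pos h, if_neg h.ne, if_neg h.ne', hx1 x i j, neg_neg]
  have hinj : Function.Injective (f.codRestrict (sy q ∅) hmem) := by
    rw [injective_iff_map_eq_zero]
    intro x hx
    have hx' : f x = 0 := congrArg Subtype.val hx
    have h3 : ∀ i j, (if i < j then eM hq b x.1 i j else if j < i then - eM hq b x.1 i j else 0) +
        (if i = j then x.2 i else 0) = 0 := by
      intro i j
      rw [← hf, hx', map_zero]; rfl
    refine Prod.ext ?_ ?_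
    · apply Subtype.ext
      apply (eM hq b).injective
      ext i j
      rw [Prod.fst_zero, Submodule.coe_zero, map_zero, Matrix.zero_apply]
      rcases lt_trichotomy i j with h | h | h
      · have := h3 i j
        rwa [if_pos h, if_neg h.ne, add_zero] at this
      · subst h
        have := hx1 x i i
        have h4 : (2 : L) * eM hq b x.1 i i = 0 := by linear_combination this
        exact (mul_eq_zero.mp h4).resolve_left h2
      · have := h3 i j
        rw [if_neg h.not_gt, if_pos h, if_neg h.ne', add_zero, neg_eq_zero] at this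
        exact this
    · funext i
      have := h3 i i
      simpa using this
  have := LinearMap.finrank_le_finrank_of_injective hinj
  rwa [Module.finrank_prod, Module.finrank_fin_fun] at this

/-- **The second dimension count.** -/
theorem finrank_sy_add_le {q : V →ₗ[L] V →ₗ[L] L} (hq : IsForm q)
    {ℱ : Finset (Submodule L V)} (hc : IsChain (· ≤ ·) (ℱ : Set (Submodule L V)))
    (hiso : ∀ W ∈ ℱ, ∀ W' ∈ ℱ, ∀ w ∈ W, ∀ w' ∈ W', q w w' = 0) {A : Submodule L V} (hA : A ∈ ℱ) :
    finrank L (sy q ℱ) + finrank L A ≤ finrank L (so q ℱ) + finrank L V := by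
  classical
  obtain ⟨b, hb⟩ := exists_adapted_basis _ (chain_perp hc hiso)
  -- the zero pattern
  have hpat : ∀ (X : End L V) (W : Submodule L V), W ∈ ℱ → ((∀ w ∈ W, X w ∈ W) ↔
      ∀ i j, b i ∈ W → b j ∈ perp q W → eM hq b X i j = 0) := by
    intro X W hW
    constructor
    · intro h i j hi hj
      rw [eM_apply, hq.symm]
      exact hj _ (h _ hi)
    · intro h w hw
      apply perp_perp_le hq
      intro v hv
      have h1 := hb W (Finset.mem_union_left _ hW) w hw
      have h3 := hb (perp q W) (Finset.mem_union_right _ (Finset.mem_image_of_mem _ hW)) v hv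
      rw [← b.sum_repr w, ← b.sum_repr v, map_sum X, map_sum q, LinearMap.sum_apply]
      refine Finset.sum_eq_zero fun i _ => ?_
      rw [map_sum]
      refine Finset.sum_eq_zero fun j _ => ?_
      by_cases hi : b.repr w i = 0
      · rw [hi, zero_smul, map_zero, map_zero, LinearMap.zero_apply]
      by_cases hj : b.repr v j = 0
      · rw [hj, zero_smul, map_zero]
      rw [map_smul, map_smul, map_smul, LinearMap.smul_apply, ← eM_apply hq, h i j (h1 i hi) (h3 j hj),
        smul_zero, smul_zero]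
  let I := {i : Fin (finrank L V) // b i ∉ A}
  let g : sy q ℱ →ₗ[L] End L V :=
    (eM hq b).symm.toLinearMap ∘ₗ Tri _ L ∘ₗ (eM hq b).toLinearMap ∘ₗ (sy q ℱ).subtype
  have hg : ∀ x i j, eM hq b (g x) i j =
      (if i < j then eM hq b x i j else if j < i then - eM hq b x i j else 0) := by
    intro x i j
    show eM hq b ((eM hq b).symm (Tri _ L (eM hq b x))) i j = _
    rw [LinearEquiv.apply_symm_apply, Tri_apply]
  have hx1 : ∀ x : sy q ℱ, ∀ i j, eM hq b x i j = eM hq b x j i :=
    fun x => (isSA_iff hq b _).mp x.2.1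
  have hmem : ∀ x, g x ∈ so q ℱ := by
    intro x
    refine ⟨(isSk_iff hq b _).mpr fun i j => ?_, fun W hW => (hpat _ W hW).mpr fun i j hi hj => ?_⟩
    · rw [hg, hg]
      rcases lt_trichotomy i j with h | h | h
      · rw [if_pos h, if_neg h.not_gt, if_pos h, hx1 x i j, neg_neg]
      · subst h; simp
      · rw [if_pos h, if_neg h.not_gt, if_pos h, hx1 x i j]
    · have := (hpat _ W hW).mp (x.2.2 W hW) i j hi hj
      rw [hg, this]
      simp
  let f : sy q ℱ →ₗ[L] (so q ℱ × (I → L)) :=
    (g.codRestrict (so q ℱ) hmem).prod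
      (LinearMap.pi fun i : I => (Matrix.entryLinearMap L L i.1 i.1) ∘ₗ (eM hq b).toLinearMap ∘ₗ
        (sy q ℱ).subtype)
  have hinj : Function.Injective f := by
    rw [injective_iff_map_eq_zero]
    intro x hx
    have hx' : g x = 0 := congrArg (fun y => (y.1 : End L V)) hx
    have hx2 : ∀ i : I, eM hq b x i.1 i.1 = 0 := fun i => congrFun (congrArg Prod.snd hx) i
    apply Subtype.ext
    apply (eM hq b).injective
    ext i j
    rw [Submodule.coe_zero, map_zero, Matrix.zero_apply]
    have h3 : (if i < j then eM hq b x i j else if j < i then - eM hq b x i j else 0) = 0 := by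
      rw [← hg, hx', map_zero]; rfl
    rcases lt_trichotomy i j with h | h | h
    · rwa [if_pos h] at h3
    · subst h
      by_cases hi : b i ∈ A
      · rw [eM_apply]
        exact hiso A hA A hA _ (x.2.2 A hA _ hi) _ hi
      · exact hx2 ⟨i, hi⟩
    · rwa [if_neg h.not_gt, if_pos h, neg_eq_zero] at h3
  have h4 := LinearMap.finrank_le_finrank_of_injective hinj
  rw [Module.finrank_prod, Module.finrank_fintype_fun_eq_card] at h4
  have h5 : finrank L A ≤ Fintype.card {i : Fin (finrank L V) // b i ∈ A} := by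
    have h6 : A ≤ Submodule.span L (Set.range fun i : {i : Fin (finrank L V) // b i ∈ A} => b i) := by
      intro v hv
      rw [← b.sum_repr v]
      refine Submodule.sum_mem _ fun i _ => ?_
      by_cases h : b.repr v i = 0
      · rw [h, zero_smul]; exact Submodule.zero_mem _
      · exact Submodule.smul_mem _ _ (Submodule.subset_span
          ⟨⟨i, hb A (Finset.mem_union_left _ hA) v hv i h⟩, rfl⟩)
    exact (Submodule.finrank_mono h6).trans (finrank_range_le_card _)
  have h7 : Fintype.card {i : Fin (finrank L V) // b i ∈ A} + Fintype.card I = finrank L V := by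
    rw [Fintype.card_subtype_compl, Fintype.card_fin]
    have := Fintype.card_subtype_le (fun i : Fin (finrank L V) => b i ∈ A)
    rw [Fintype.card_fin] at this
    omega
  omega

end dims

end Vale.Agent.P182.H922
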