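import Vale.Agent.P182.H922.BlkA
import Vale.Agent.P182.H398.Nak
import Vale.Agent.P182.H746.Twist

/-!
# The core and the commutant at the base points `t_μ`
-/

namespace Vale.Agent.P182.H922.S2

open Module Matrix Vale.Agent.P182.H533 Vale.Agent.P182.B1 Vale.Agent.P182.H922
  Vale.Agent.P182.H578 Vale.Agent.P182.H588 Vale.Agent.P182.H181 Vale.Agent.P182.H983

universe u v w

variable {L : Type u} {V : Type v} {J : Type w} [Field L] [AddCommGroup V] [Module L V]
  [Fintype J] [DecidableEq J] {𝒟 : Cfg L V J} {u : J → L} {t t' : J → V}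
  {W I : Submodule L V} {n : ℕ} {U : Fin n → Submodule L V} {d : Fin n → L} {p : Fin 3 → ℕ}
  [FiniteDimensional L V]

/-- a core with given stable image -/
theorem exists_core_W {S : Fin 3 → End L V} {q : V →ₗ[L] V →ₗ[L] L} {W : Submodule L V}
    (h1 : ∃ N, W = words S N) (h2 : ⨆ a, W.map (S a) = W) : ∃ C : Core q S, C.W = W := by
  obtain ⟨N, hN⟩ := h1
  obtain ⟨c, hc⟩ := exists_isCompl (W ⊓ perp q W)
  refine ⟨⟨N, W, hN, h2, c ⊓ W, ?_, ?_⟩, rfl⟩
  · rw [sup_comm, ← sup_inf_assoc_of_le _ inf_le_left, hc.sup_eq_top, top_inf_eq]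
  · rw [inf_right_comm, inf_comm c, hc.inf_eq_bot, bot_inf_eq]

theorem core_I (B : Blk 𝒟 u t t' W I U d p) {S : Fin 3 → End L V} (C : Core 𝒟.q S)
    (hC : C.W = W) : C.I = I := by
  rw [Core.I, hC, B.I_eq]

theorem words_le_of {S : Fin 3 → End L V} {W : Submodule L V} (h : ⨆ a, W.map (S a) = W)
    (n : ℕ) : W ≤ words S n := by
  induction n with
  | zero => exact le_top
  | succ n ih =>
    rw [words_succ]
    conv_lhs => rw [← h]
    exact iSup_mono fun a => Submodule.map_mono ih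

/-- **The stable image is the same at `t_μ`.** -/
theorem words_tm (B : Blk 𝒟 u t t' W I U d p) (hC : Ctx 𝒟 u) (hM : MaxCoreU 𝒟 u t) {x y : L}
    (hu : ∀ k, x + y * d k ≠ 0) : ∃ N, W = words (Res 𝒟 (tm t t' x y)) N := by
  have hq : IsForm 𝒟.q := hC.good.form
  obtain ⟨C, hCW⟩ := exists_core_W (q := 𝒟.q) B.W_eq B.sumW
  obtain ⟨C'⟩ := exists_core 𝒟.q (Res 𝒟 (tm t t' x y))
  have hS := Res_SA hC.good (𝒟 := 𝒟) (tm t t' x y)
  have hsum := sumW_tm B hC hu
  have h1 : W ≤ C'.W := by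
    rw [C'.hN]
    exact words_le_of hsum _
  -- the projection of `V1` to `V1'` is injective
  have hI' : ∀ v ∈ C.V1, v ∈ C'.I → v = 0 := by
    intro v hv hvI
    have h2 : v ∈ C.I := ⟨C.V1_le hv, fun w hw => hvI.2 w (h1 (hCW ▸ hw))⟩
    have h3 : v ∈ C.V1 ⊓ (C.W ⊓ perp 𝒟.q C.W) := ⟨hv, h2⟩
    rw [C.disj] at h3
    exact (Submodule.mem_bot L).mp h3
  have hle : C.V1 ≤ C'.W := C.V1_le.trans (hCW.le.trans h1)
  set π : C.V1 →ₗ[L] C'.V1 := C'.P hq ∘ₗ C.V1.subtype with hπ
  have hπi : Function.Injective π := by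
    rw [injective_iff_map_eq_zero]
    intro v hv
    have h2 := C'.sub_P_mem_I hq (hle v.2)
    have h3 : (C'.P hq (v : V)) = 0 := hv
    rw [h3, Submodule.coe_zero, sub_zero] at h2
    exact Subtype.ext (hI' v v.2 h2)
  have hdim : finrank L C'.V1 ≤ finrank L C.V1 := hM.2 _ (tm_mem B x y) C C'
  have hπs : Function.Surjective π := by
    have h2 := LinearMap.finrank_le_finrank_of_injective hπi
    exact (LinearMap.injective_iff_surjective_of_finrank_eq_finrank (le_antisymm h2 hdim)).mp hπi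
  -- `W' = V1 + I'`
  have hW' : C'.W ≤ W ⊔ C'.I := by
    intro w hw
    obtain ⟨v, hv⟩ := hπs (C'.P hq w)
    have h2 := C'.sub_P_mem_I hq hw
    have h3 := C'.sub_P_mem_I hq (hle v.2)
    have h4 : C'.P hq (v : V) = C'.P hq w := hv
    rw [h4] at h3
    have h5 : w = (v : V) + ((w - C'.P hq w) - ((v : V) - C'.P hq w)) := by abel
    rw [h5]
    exact Submodule.add_mem_sup (hCW ▸ C.V1_le v.2) (sub_mem h2 h3)
  have key : ∀ n, C'.W ≤ W ⊔ H398.wo (Res 𝒟 (tm t t' x y)) C'.I n := by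
    intro n
    induction n with
    | zero => exact hW'
    | succ n ih =>
      conv_lhs => rw [← C'.hW]
      refine iSup_le fun a => ?_
      rintro _ ⟨w, hw, rfl⟩
      obtain ⟨v, hv, i, hi, rfl⟩ := Submodule.mem_sup.mp (ih hw)
      rw [map_add]
      exact Submodule.add_mem_sup
        (hsum.le (Submodule.mem_iSup_of_mem a (Submodule.mem_map_of_mem hv)))
        (H398.mem_wo_succ hi a)
  have h6 := key C'.N
  rw [H398.wo_I hq hS C', sup_bot_eq] at h6
  exact ⟨C'.N, by rw [← C'.hN]; exact le_antisymm h1 h6⟩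

/-- **The core at `t_μ`.** -/
theorem core_tm (B : Blk 𝒟 u t t' W I U d p) (hC : Ctx 𝒟 u) (hM : MaxCoreU 𝒟 u t) {x y : L}
    (hu : ∀ k, x + y * d k ≠ 0) :
    ∃ C : Core 𝒟.q (Res 𝒟 (tm t t' x y)), C.W = W ∧ C.I = I := by
  obtain ⟨C, h⟩ := exists_core_W (q := 𝒟.q) (words_tm B hC hM hu) (sumW_tm B hC hu)
  exact ⟨C, h, core_I B C h⟩

section bar

variable {q : V →ₗ[L] V →ₗ[L] L} {S : Fin 3 → End L V}

/-- the operator induced on the core -/
noncomputable def bar (hq : IsForm q) (C : Core q S) (T : End L V) : End L C.V1 :=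
  C.P hq ∘ₗ T ∘ₗ C.V1.subtype

theorem P_W (hq : IsForm q) (C : Core q S) {w : V} (hw : w ∈ C.I) : C.P hq w = 0 :=
  C.P_eq_zero hq (C.I_le_perp hw)

theorem bar_apply (hq : IsForm q) (C : Core q S) {T : End L V} (hT : ∀ w ∈ C.I, T w ∈ C.I)
    {w : V} (hw : w ∈ C.W) : bar hq C T (C.P hq w) = C.P hq (T w) := by
  have h1 := P_W hq C (hT _ (C.sub_P_mem_I hq hw))
  rw [map_sub, map_sub, sub_eq_zero] at h1
  exact h1.symm

theorem mem_I_of_P (hq : IsForm q) (C : Core q S) {w : V} (hw : w ∈ C.W) (h : C.P hq w = 0) :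
    w ∈ C.I := by
  have h1 := C.sub_P_mem_I hq hw
  rwa [h, Submodule.coe_zero, sub_zero] at h1

theorem bar_ext (hq : IsForm q) (C : Core q S) {A A' : End L C.V1}
    (h : ∀ w ∈ C.W, A (C.P hq w) = A' (C.P hq w)) : A = A' := by
  refine LinearMap.ext fun v => ?_
  have h1 := h v (C.V1_le v.2)
  rwa [C.P_coe] at h1

end bar

/-- **The commutant at the base points `t_μ`, off finitely many lines.** -/
theorem exists_lines (B : Blk 𝒟 u t t' W I U d p) (hC : Ctx 𝒟 u) :
    ∃ F : Set (L × L), F.Finite ∧ (∀ b ∈ F, b ≠ 0) ∧ ∀ x y : L,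
      (∀ b ∈ F, b.1 * x + b.2 * y ≠ 0) → (∀ k, x + y * d k ≠ 0) ∧
      ∀ M : End L V, (∀ w ∈ W, M w ∈ W) → (∀ w ∈ I, M w ∈ I) →
        (∀ a, ∀ w ∈ W, M (Res 𝒟 (tm t t' x y) a w) - Res 𝒟 (tm t t' x y) a (M w) ∈ I) →
        (∀ a, ∀ w ∈ W, M (Res 𝒟 t a w) - Res 𝒟 t a (M w) ∈ I) ∧
        ∀ i j, d i ≠ d j → ∀ v ∈ U i, ∀ w ∈ U j, 𝒟.q v (M w) = 0 := by
  classical
  have hG := hC.good
  have hq : IsForm 𝒟.q := hG.form
  obtain ⟨C, hCW⟩ := exists_core_W (q := 𝒟.q) B.W_eq B.sumW
  have hCI : C.I = I := core_I B C hCW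
  obtain ⟨σ, hσ1, hσ2⟩ := exists_dec B
  have hσI : ∀ k, ∀ w ∈ C.I, σ k w ∈ C.I := fun k w hw => by
    rw [hCI] at hw ⊢
    exact dec_I' B hG hσ1 hσ2 hw k
  -- the projections
  set P : Fin n → End L C.V1 := fun k => bar hq C (σ k) with hP
  have hPa : ∀ k, ∀ w ∈ C.W, P k (C.P hq w) = C.P hq (σ k w) := fun k w hw =>
    bar_apply hq C (hσI k) hw
  have hσW : ∀ k w, σ k w ∈ C.W := fun k w => hCW ▸ U_le B k (hσ1 k w)
  have hPU : ∀ j k, ∀ w ∈ U k, P j (C.P hq w) = if j = k then C.P hq w else 0 := by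
    intro j k w hw
    have hwW : w ∈ C.W := hCW ▸ U_le B k hw
    rw [hPa j w hwW]
    have h1 := P_W hq C (hCI ▸ dec_I B hG hσ1 hσ2 hw j)
    rw [map_sub, sub_eq_zero] at h1
    rw [h1]
    split_ifs
    · rfl
    · rw [map_zero]
  have hPP : ∀ i j, P i * P j = if i = j then P i else 0 := by
    intro i j
    refine bar_ext hq C fun w hw => ?_
    rw [Module.End.mul_apply, hPa j w hw, hPU i j _ (hσ1 j w)]
    split_ifs with h
    · rw [h, hPa j w hw]
    · rfl
  have hP1 : ∑ k, P k = 1 := by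
    refine bar_ext hq C fun w hw => ?_
    rw [LinearMap.sum_apply, Finset.sum_congr rfl fun k _ => hPa k w hw, ← map_sum,
      hσ2 w (hCW ▸ hw)]
    rfl
  have hS1 : ∀ a, ∀ w ∈ C.W, C.S1 hq a (C.P hq w) = C.P hq (Res 𝒟 t a w) := fun a w hw =>
    (C.P_S hq (Res_SA hG t) a (C.W_le_perp hq hw)).symm
  have hPS : ∀ k a, P k * C.S1 hq a = C.S1 hq a * P k := by
    intro k a
    refine bar_ext hq C fun w hw => ?_
    have hw' : w ∈ ⨆ k, U k := by rw [B.supU]; exact hCW ▸ hw
    refine Submodule.iSup_induction U (motive := fun w => (P k * C.S1 hq a) (C.P hq w) =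
      (C.S1 hq a * P k) (C.P hq w)) hw' ?_ ?_ ?_
    · intro j w hw
      have hwW : w ∈ C.W := hCW ▸ U_le B j hw
      rw [Module.End.mul_apply, Module.End.mul_apply, hS1 a w hwW,
        hPU k j _ (Res_U B j a hw), hPU k j w hw]
      split_ifs
      · rw [hS1 a w hwW]
      · rw [map_zero]
    · rw [map_zero, map_zero, map_zero]
    · intro v w hv hw
      rw [map_add, map_add, map_add, hv, hw]
  -- the groups
  set κ := {c : L // c ∈ Finset.univ.image d} with hκ
  set Q : κ → End L C.V1 := fun c => ∑ k with d k = c.1, P k with hQ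
  set D : End L C.V1 := ∑ k, d k • P k with hD
  have hDP : ∀ k, ∀ w ∈ U k, D (C.P hq w) = d k • C.P hq w := by
    intro k w hw
    rw [hD, LinearMap.sum_apply, Finset.sum_eq_single k]
    · rw [LinearMap.smul_apply, hPU k k w hw, if_pos rfl]
    · intro j _ hj
      rw [LinearMap.smul_apply, hPU j k w hw, if_neg hj, smul_zero]
    · intro hk; exact absurd (Finset.mem_univ _) hk
  have hQU : ∀ (c : κ) k, ∀ w ∈ U k, Q c (C.P hq w) = if d k = c.1 then C.P hq w else 0 := by
    intro c k w hw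
    rw [hQ]
    simp only [LinearMap.sum_apply]
    rw [Finset.sum_congr rfl fun j _ => hPU j k w hw, Finset.sum_ite_eq']
    by_cases h : d k = c.1
    · rw [if_pos h, if_pos (by simp [h])]
    · rw [if_neg h, if_neg (by simp [h])]
  have ext' : ∀ {A A' : End L C.V1}, (∀ k, ∀ w ∈ U k, A (C.P hq w) = A' (C.P hq w)) →
      A = A' := by
    intro A A' h
    refine bar_ext hq C fun w hw => ?_
    have hw' : w ∈ ⨆ k, U k := by rw [B.supU]; exact hCW ▸ hw
    refine Submodule.iSup_induction U (motive := fun w => A (C.P hq w) = A' (C.P hq w)) hw'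
      h ?_ ?_
    · rw [map_zero, map_zero, map_zero]
    · intro v w hv hw
      rw [map_add, map_add, map_add, hv, hw]
  have hcsum : ∀ k, ∀ f : κ → C.V1, ∑ c : κ, (if d k = c.1 then f c else 0) =
      f ⟨d k, Finset.mem_image_of_mem d (Finset.mem_univ k)⟩ := by
    intro k f
    rw [Finset.sum_eq_single ⟨d k, Finset.mem_image_of_mem d (Finset.mem_univ k)⟩]
    · rw [if_pos rfl]
    · intro c _ hc
      rw [if_neg fun h => hc (Subtype.ext h.symm)]
    · intro hk; exact absurd (Finset.mem_univ _) hk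
  have hdiag : Diag D Q (fun c : κ => c.1) := by
    refine ⟨fun c => ?_, fun c c' hcc => ?_, ?_, Subtype.val_injective, ?_⟩
    · refine ext' fun k w hw => ?_
      rw [Module.End.mul_apply, hQU c k w hw]
      split_ifs with h
      · rw [hQU c k w hw, if_pos h]
      · rw [map_zero]
    · refine ext' fun k w hw => ?_
      rw [Module.End.mul_apply, hQU c' k w hw]
      split_ifs with h
      · rw [hQU c k w hw, if_neg fun h' => hcc (Subtype.ext (h'.symm.trans h))]
        rfl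
      · rw [map_zero]
        rfl
    · refine ext' fun k w hw => ?_
      rw [LinearMap.sum_apply, Finset.sum_congr rfl fun c _ => hQU c k w hw, hcsum]
      rfl
    · refine ext' fun k w hw => ?_
      rw [hDP k w hw, LinearMap.sum_apply]
      have h1 : ∀ c : κ, (c.1 • Q c) (C.P hq w) = if d k = c.1 then c.1 • C.P hq w else 0 := by
        intro c
        rw [LinearMap.smul_apply, hQU c k w hw]
        split_ifs
        · rfl
        · rw [smul_zero]
      rw [Finset.sum_congr rfl fun c _ => h1 c, hcsum]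
  have hQS : ∀ c a, Q c * C.S1 hq a = C.S1 hq a * Q c := by
    intro c a
    rw [hQ]
    simp only [Finset.sum_mul, Finset.mul_sum]
    exact Finset.sum_congr rfl fun k _ => hPS k a
  have hker : ∀ v : C.V1, (∀ a, C.S1 hq a v = 0) → v = 0 := by
    intro v hv
    have h1 : (v : V) ∈ I := by
      refine B.soc v (hCW ▸ C.V1_le v.2) fun a => ?_
      rw [← hCI]
      exact mem_I_of_P hq C (C.map_W (C.V1_le v.2)) (hv a)
    rw [← hCI] at h1
    have h2 : (v : V) ∈ C.V1 ⊓ (C.W ⊓ perp 𝒟.q C.W) := ⟨v.2, h1⟩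
    rw [C.disj] at h2
    exact Subtype.ext ((Submodule.mem_bot L).mp h2)
  obtain ⟨F, hF1, hF2, hF3⟩ := H746.central_lines hker hdiag hQS
  refine ⟨F, hF1, hF2, fun x y hxy => ?_⟩
  obtain ⟨h1, h2, h3⟩ := hF3 x y hxy
  have hu : ∀ k, x + y * d k ≠ 0 := fun k =>
    h1 ⟨d k, Finset.mem_image_of_mem d (Finset.mem_univ k)⟩
  refine ⟨hu, fun M mW mI mC => ?_⟩
  have hMI : ∀ w ∈ C.I, M w ∈ C.I := fun w hw => by rw [hCI] at hw ⊢; exact mI w hw
  have hMW : ∀ w ∈ C.W, M w ∈ C.W := fun w hw => by rw [hCW] at hw ⊢; exact mW w hw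
  -- the residues at `t_μ` on the core
  have hτ : ∀ a, ∀ w ∈ C.W, ((x • (1 : End L C.V1) + y • D) ^ 2 * C.S1 hq a) (C.P hq w) =
      C.P hq (Res 𝒟 (tm t t' x y) a w) := by
    intro a w hw
    have hw' : w ∈ ⨆ k, U k := by rw [B.supU]; exact hCW ▸ hw
    refine Submodule.iSup_induction U (motive := fun w =>
      ((x • (1 : End L C.V1) + y • D) ^ 2 * C.S1 hq a) (C.P hq w) =
      C.P hq (Res 𝒟 (tm t t' x y) a w)) hw' ?_ ?_ ?_
    · intro k w hw
      have hwW : w ∈ C.W := hCW ▸ U_le B k hw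
      have e1 : ∀ v ∈ U k, (x • (1 : End L C.V1) + y • D) (C.P hq v) =
          (x + y * d k) • C.P hq v := by
        intro v hv
        rw [LinearMap.add_apply, LinearMap.smul_apply, LinearMap.smul_apply, hDP k v hv,
          smul_smul, Module.End.one_apply, ← add_smul]
      rw [Module.End.mul_apply, hS1 a w hwW, sq, Module.End.mul_apply,
        e1 _ (Res_U B k a hw), map_smul, e1 _ (Res_U B k a hw), Res_tm B hC x y a hw,
        map_smul, smul_smul, sq]
    · rw [map_zero, map_zero, map_zero, map_zero]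
    · intro v w hv hw
      rw [map_add, map_add, map_add, map_add, hv, hw]
  have hcomm : bar hq C M * D = D * bar hq C M := by
    refine h3 _ fun a => bar_ext hq C fun w hw => ?_
    have hwS : Res 𝒟 (tm t t' x y) a w ∈ C.W := by
      rw [hCW]
      exact (sumW_tm B hC hu).le
        (Submodule.mem_iSup_of_mem a (Submodule.mem_map_of_mem (hCW ▸ hw)))
    rw [Module.End.mul_apply, hτ a w hw, bar_apply hq C hMI hwS, Module.End.mul_apply,
      bar_apply hq C hMI hw, hτ a _ (hMW w hw)]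
    have h4 := P_W hq C (hCI ▸ mC a w (hCW ▸ hw))
    rwa [map_sub, sub_eq_zero] at h4
  -- the components of `M w`
  have hcomp : ∀ i j, d i ≠ d j → ∀ w ∈ U j, σ i (M w) ∈ I := by
    intro i j hij w hw
    have hwW : w ∈ C.W := hCW ▸ U_le B j hw
    have e1 : D (C.P hq (M w)) = d j • C.P hq (M w) := by
      rw [← bar_apply hq C hMI hwW, ← Module.End.mul_apply, ← hcomm, Module.End.mul_apply,
        hDP j w hw, map_smul]
    have e2 : P i * D = d i • P i := by
      rw [hD, Finset.mul_sum, Finset.sum_eq_single i]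
      · rw [mul_smul_comm, hPP, if_pos rfl]
      · intro k _ hk
        rw [mul_smul_comm, hPP, if_neg (Ne.symm hk), smul_zero]
      · intro hk; exact absurd (Finset.mem_univ _) hk
    have e3 := congrArg (P i) e1
    rw [← Module.End.mul_apply, e2, LinearMap.smul_apply, map_smul, ← sub_eq_zero,
      ← sub_smul] at e3
    have e4 := (smul_eq_zero.mp e3).resolve_left (sub_ne_zero.2 hij)
    rw [hPa i _ (hMW w hwW)] at e4
    rw [← hCI]
    exact mem_I_of_P hq C (hσW i _) e4
  constructor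
  · intro a w hw
    have hw' : w ∈ ⨆ k, U k := by rw [B.supU]; exact hw
    refine Submodule.iSup_induction U (motive := fun w =>
      M (Res 𝒟 t a w) - Res 𝒟 t a (M w) ∈ I) hw' ?_ ?_ ?_
    · intro j w hw
      have hwW : w ∈ W := U_le B j hw
      have e1 := mC a w hwW
      rw [Res_tm B hC x y a hw, map_smul] at e1
      have e2 : Res 𝒟 (tm t t' x y) a (M w) - (x + y * d j) ^ 2 • Res 𝒟 t a (M w) ∈ I := by
        have e3 : M w = ∑ k, σ k (M w) := (hσ2 _ (mW w hwW)).symm
        rw [e3, map_sum, map_sum, Finset.smul_sum, ← Finset.sum_sub_distrib]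
        refine sum_mem fun k _ => ?_
        by_cases hk : d k = d j
        · rw [Res_tm B hC x y a (hσ1 k _), hk, sub_self]
          exact zero_mem _
        · have e4 := hcomp k j hk w hw
          exact sub_mem (Res_tm_I B hC hu a e4)
            (Submodule.smul_mem _ _ (Res_I B hG a e4))
      have e5 : (x + y * d j) ^ 2 • (M (Res 𝒟 t a w) - Res 𝒟 t a (M w)) ∈ I := by
        have := add_mem e1 e2
        convert this using 1
        rw [smul_sub]
        abel
      have e6 := Submodule.smul_mem I ((x + y * d j) ^ 2)⁻¹ e5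
      rwa [smul_smul, inv_mul_cancel₀ (pow_ne_zero 2 (hu j)), one_smul] at e6
    · simp
    · intro v w hv hw
      have := add_mem hv hw
      convert this using 1
      simp only [map_add]
      abel
  · intro i j hij v hv w hw
    have e3 : M w = ∑ k, σ k (M w) := (hσ2 _ (mW w (U_le B j hw))).symm
    rw [e3, map_sum]
    refine Finset.sum_eq_zero fun k _ => ?_
    by_cases hk : k = i
    · rw [hk, hq.symm]
      exact I_perp B (hcomp i j hij w hw) (U_le B i hv)
    · exact B.ortho i k (Ne.symm hk) v hv _ (hσ1 k _)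

/-- self-adjoint elements of the commutant at good base points are scalars on the blocks -/
theorem scal_tm (B : Blk 𝒟 u t t' W I U d p) {M : End L V} (mW : ∀ w ∈ W, M w ∈ W)
    (mI : ∀ w ∈ I, M w ∈ I) (mS : ∀ v ∈ W, ∀ w ∈ W, 𝒟.q (M v) w = 𝒟.q v (M w))
    (h : ∀ a, ∀ w ∈ W, M (Res 𝒟 t a w) - Res 𝒟 t a (M w) ∈ I) :
    ∃ c : Fin n → L, ∀ k, ∀ w ∈ U k, M w - c k • w ∈ I :=
  B.scal M mW mI mS h

end Vale.Agent.P182.H922.S2
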