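import Vale.Agent.P182.H922.Split

/-!
# Idempotents from two eigenvalues
-/

namespace Vale.Agent.P182.H922

open Module Polynomial

noncomputable section

variable {L : Type*} [Field L] {W : Type*} [AddCommGroup W] [Module L W] [FiniteDimensional L W]

/-- Either `D` has exactly one eigenvalue, or there is a nontrivial idempotent which is a
polynomial in `D`. -/
theorem nilp_or_idem [IsAlgClosed L] (D : W →ₗ[L] W) :
    (∃ d : L, IsNilpotent (D - d • (1 : Module.End L W))) ∨
    ∃ f : L[X], aeval D f ∘ₗ aeval D f = aeval D f ∧ aeval D f ≠ 0 ∧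
      aeval D f ≠ LinearMap.id := by
  rcases subsingleton_or_nontrivial W with hW | hW
  · left
    exact ⟨0, 1, LinearMap.ext fun x => Subsingleton.elim _ _⟩
  obtain ⟨μ, hμ⟩ := Module.End.exists_eigenvalue (K := L) (V := W) D
  -- minimal polynomial
  set m := minpoly L D with hm
  have hm0 : m ≠ 0 := minpoly.ne_zero (Algebra.IsIntegral.isIntegral D)
  have hroot : m.IsRoot μ := (Module.End.hasEigenvalue_iff_isRoot).mp hμ
  obtain ⟨g, hg, hgr⟩ := Polynomial.exists_eq_pow_rootMultiplicity_mul_and_not_dvd m hm0 μ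
  set r := m.rootMultiplicity μ with hr
  have hcop : IsCoprime ((X - C μ) ^ r) g :=
    IsCoprime.pow_left ((Polynomial.irreducible_X_sub_C μ).coprime_iff_not_dvd.mpr hgr)
  have hr0 : 0 < r := (Polynomial.rootMultiplicity_pos hm0).mpr hroot
  by_cases hgu : IsUnit g
  · left
    refine ⟨μ, r, ?_⟩
    have h1 : aeval D m = 0 := minpoly.aeval L D
    rw [hg, map_mul] at h1
    obtain ⟨u, hu⟩ := hgu
    have h2 : aeval D g * aeval D (↑u⁻¹ : L[X]) = 1 := by
      rw [← map_mul, ← hu, Units.mul_inv, map_one]
    have h3 : aeval D ((X - C μ) ^ r) = 0 := by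
      calc aeval D ((X - C μ) ^ r) = aeval D ((X - C μ) ^ r) * (aeval D g *
          aeval D (↑u⁻¹ : L[X])) := by rw [h2, mul_one]
        _ = 0 := by rw [← mul_assoc, h1, zero_mul]
    have h4 : aeval D ((X - C μ) ^ r) = (D - μ • (1 : Module.End L W)) ^ r := by
      rw [map_pow, map_sub, aeval_X, aeval_C, Algebra.algebraMap_eq_smul_one]
    rw [← h4, h3]
  · right
    obtain ⟨a, b, hab⟩ := hcop
    have h1 : aeval D m = 0 := minpoly.aeval L D
    have h1' : aeval D ((X - C μ) ^ r * g) = 0 := by rw [← hg]; exact h1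
    refine ⟨b * g, ?_, ?_, ?_⟩
    · have h2 : b * g * (b * g) = b * g - a * b * ((X - C μ) ^ r * g) := by
        have : b * g = 1 - a * (X - C μ) ^ r := by rw [← hab]; ring
        calc b * g * (b * g) = b * g * (1 - a * (X - C μ) ^ r) := by rw [← this]
          _ = _ := by ring
      rw [← Module.End.mul_eq_comp, ← map_mul, h2, map_sub, map_mul (aeval D) (a * b), h1',
        mul_zero, sub_zero]
    · intro h3
      -- then `a (X-μ)^r` acts as 1, so `(X-μ)^r`-part invertible; but μ is an eigenvalue
      obtain ⟨v, hv⟩ := hμ.exists_hasEigenvector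
      have h4 : aeval D (a * (X - C μ) ^ r + b * g) v = v := by rw [hab, map_one]; rfl
      rw [map_add, h3, add_zero, map_mul, Module.End.mul_apply, map_pow, map_sub, aeval_X,
        aeval_C, Algebra.algebraMap_eq_smul_one] at h4
      obtain ⟨r', hr'⟩ := Nat.exists_eq_succ_of_ne_zero hr0.ne'
      have h5 : (D - μ • (1 : Module.End L W)) v = 0 := by
        rw [LinearMap.sub_apply, LinearMap.smul_apply, Module.End.one_apply, hv.apply_eq_smul,
          sub_self]
      rw [hr', pow_succ, Module.End.mul_apply, h5, map_zero, map_zero] at h4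
      exact hv.2 h4.symm
    · intro h3
      -- then `(X-μ)^r` is invertible modulo m, so `g` kills: minimality
      have h4 : aeval D (a * (X - C μ) ^ r) = 0 := by
        have h5 : aeval D (a * (X - C μ) ^ r + b * g) = 1 := by rw [hab, map_one]
        rw [map_add, h3] at h5
        have h6 : (LinearMap.id : W →ₗ[L] W) = (1 : Module.End L W) := rfl
        rw [h6] at h5
        exact add_eq_right.mp h5
      have h5 : aeval D ((X - C μ) ^ r) = 0 := by
        have h6 : (X - C μ) ^ r = (X - C μ) ^ r * (a * (X - C μ) ^ r) +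
            b * ((X - C μ) ^ r * g) := by
          calc (X - C μ) ^ r = (X - C μ) ^ r * (a * (X - C μ) ^ r + b * g) := by
                rw [hab, mul_one]
            _ = _ := by ring
        rw [h6, map_add, map_mul, h4, mul_zero, map_mul, h1', mul_zero, add_zero]
      have h7 : m ∣ (X - C μ) ^ r := minpoly.dvd L D h5
      -- so `g` divides `(X - μ)^r` and is coprime to it
      have h8 : g ∣ (X - C μ) ^ r := (Dvd.intro_left _ hg.symm).trans h7
      exact hgu ((IsCoprime.symm ⟨a, b, hab⟩).isUnit_of_dvd' dvd_rfl h8)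

end

end Vale.Agent.P182.H922
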