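import Vale.Agent.P182.H922.Null
import Vale.Agent.P182.H922.Idem
import Vale.Agent.P182.H533.Dich

/-!
# One eigenvalue or the null case
-/

namespace Vale.Agent.P182.H922

open Module Matrix Vale.Agent.P182.H533

section dicho

variable {L V J : Type*} [Field L] [AddCommGroup V] [Module L V] [FiniteDimensional L V]
  [Fintype J] [DecidableEq J] {arm : J → Fin 3}

/-- The null case: on the core all Jordan blocks of `S_s` have one and the same size `p_s`, and
`Σ 1 / p_s = 1`. -/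
def NullCore {q : V →ₗ[L] V →ₗ[L] L} {S : Fin 3 → End L V} (C : Core q S) (hq : IsForm q) : Prop :=
  ∃ p : Fin 3 → ℕ, (∀ s, C.S1 hq s ^ p s = 0) ∧
    (∀ s, finrank L C.V1 = p s * finrank L (LinearMap.ker (C.S1 hq s))) ∧
    ∑ s, finrank L (LinearMap.ker (C.S1 hq s)) = finrank L C.V1

theorem S1_pow {q : V →ₗ[L] V →ₗ[L] L} (hq : IsForm q) {S : Fin 3 → End L V}
    (hS : ∀ s, IsSA q (S s)) (C : Core q S) (s : Fin 3) (m : ℕ) (v : C.V1) :
    (C.S1 hq s ^ m) v = C.P hq ((S s ^ m) v) ∧ (S s ^ m) (v : V) ∈ C.W := by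
  induction m with
  | zero => exact ⟨by simp [C.P_coe], by simpa using C.V1_le v.2⟩
  | succ m ih =>
    rw [pow_succ', pow_succ', Module.End.mul_apply, Module.End.mul_apply, ih.1]
    exact ⟨(C.P_S hq hS s (C.W_le_perp hq ih.2)).symm, C.map_W ih.2⟩

theorem S1_nilp {q : V →ₗ[L] V →ₗ[L] L} (hq : IsForm q) {S : Fin 3 → End L V}
    (hS : ∀ s, IsSA q (S s)) (C : Core q S) (hn : ∀ s, IsNilpotent (S s)) (s : Fin 3) :
    IsNilpotent (C.S1 hq s) := by
  obtain ⟨m, hm⟩ := hn s
  refine ⟨m, ?_⟩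
  ext v
  rw [(S1_pow hq hS C s m v).1, hm]
  simp

theorem aeval_SA {W : Type*} [AddCommGroup W] [Module L W] {q : W →ₗ[L] W →ₗ[L] L}
    {D : End L W} (hD : IsSA q D) (f : Polynomial L) : IsSA q (Polynomial.aeval D f) := by
  have hpow : ∀ n, IsSA q (D ^ n) := by
    intro n
    induction n with
    | zero => intro u v; simp
    | succ n ih =>
      intro u v
      rw [pow_succ', Module.End.mul_apply, hD, ih, ← Module.End.mul_apply, ← pow_succ, pow_succ']
  induction f using Polynomial.induction_on' with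
  | add f g hf hg =>
    intro u v
    rw [map_add, LinearMap.add_apply, LinearMap.add_apply, map_add, map_add,
      LinearMap.add_apply, hf, hg]
  | monomial n a =>
    intro u v
    rw [Polynomial.aeval_monomial, Module.End.mul_apply, Module.End.mul_apply,
      Module.algebraMap_end_apply, Module.algebraMap_end_apply, map_smul, map_smul,
      LinearMap.smul_apply, hpow n]

/-- **One eigenvalue or the null case.** -/
theorem one_eigenvalue_or_null [IsAlgClosed L] {q : V →ₗ[L] V →ₗ[L] L} (hq : IsForm q)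
    (h2 : (2 : L) ≠ 0) {Ω : Matrix J J L} (hΩ : Ωᵀ = -Ω) {K : Set ((J → L) →ₗ[L] V)}
    (hK : KRel arm q Ω K) {T : (J → L) →ₗ[L] V} (hT : T ∈ K)
    (hreal : ∀ (X : Fin 3 → End L V) (η : Matrix J J L), (∀ s, IsSk q (X s)) → ηᵀ = -η →
      (∀ x, T (η *ᵥ x) + ∑ s, X s (T (Gm arm Ω s *ᵥ x)) = 0) →
      ∃ c : H533.Conn q, ∃ R ∈ K, (∀ j, c.δ (T (Pi.single j 1)) =
        X (arm j) (T (Pi.single j 1)) + R (Pi.single j 1)) ∧ ∀ i j, c.d (Ω i j) = η i j)
    (hn : ∀ s, IsNilpotent (Sop arm q T Ω s)) (C : Core q (Sop arm q T Ω))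
    {R0 : (J → L) →ₗ[L] V} (hR0 : R0 ∈ K) {D : End L C.V1}
    (hD1 : ∀ a, C.res hq (opr q T (Gm arm Ω a) R0) = C.S1 hq a * D)
    (hD2 : ∀ a, C.res hq (opr q T (Gm arm Ω a) R0) = D * C.S1 hq a) (hDs : IsSA C.q1 D) :
    (∃ d : L, IsNilpotent (D - d • (1 : End L C.V1))) ∨ NullCore C hq := by
  rcases nilp_or_idem D with h | ⟨f, hf1, hf2, hf3⟩
  · exact Or.inl h
  right
  have hSA := Sop_SA arm hq T hΩ
  have hnd : (C.q1 : LinearMap.BilinForm L C.V1).Nondegenerate :=
    ⟨(C.isForm hq).nondeg, fun y h => (C.isForm hq).nondeg y fun x => by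
      rw [(C.isForm hq).symm]; exact h x⟩
  have hcomm : ∀ s, D * C.S1 hq s = C.S1 hq s * D := fun s => by rw [← hD2, ← hD1]
  have hcommf : ∀ s, Polynomial.aeval D f * C.S1 hq s = C.S1 hq s * Polynomial.aeval D f := by
    intro s
    have h3 : Commute (C.S1 hq s) D := (hcomm s).symm
    have h4 : Polynomial.aeval D f ∈ Algebra.adjoin L {D} :=
      Polynomial.aeval_mem_adjoin_singleton L D
    have h5 : Algebra.adjoin L {D} ≤ Subalgebra.centralizer L {C.S1 hq s} := by
      rw [Algebra.adjoin_le_iff, Set.singleton_subset_iff, SetLike.mem_coe,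
        Subalgebra.mem_centralizer_iff]
      intro g hg
      rw [Set.mem_singleton_iff.mp hg]
      exact h3
    exact ((Subalgebra.mem_centralizer_iff L).mp (h5 h4) _ rfl).symm
  have hsum : ∑ s, C.S1 hq s = 0 := by
    ext v
    have h3 : (∑ s, C.S1 hq s) v = C.P hq ((∑ s, Sop arm q T Ω s) v) := by
      rw [LinearMap.sum_apply, LinearMap.sum_apply, map_sum]
      rfl
    have h4 : ∑ s, Sop arm q T Ω s = 0 := by
      ext w
      have h5 := Gm_sum arm Ω
      have h6 : (∑ s, Sop arm q T Ω s) w = T ((∑ s, Gm arm Ω s) *ᵥ ad q T w) := by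
        rw [LinearMap.sum_apply, Matrix.sum_mulVec, map_sum]
        rfl
      rw [h6, h5, Matrix.zero_mulVec, map_zero]
      rfl
    rw [h3, h4]
    simp
  refine split_null (B := C.q1) (S := C.S1 hq) (P := Polynomial.aeval D f) hnd
    (C.isForm hq).symm h2 (fun s => C.S1_SA hq hSA s) (S1_nilp hq hSA C hn) hsum
    (C.iInf_ker hq hSA) hf1 (aeval_SA hDs f) (fun s => hcommf s) hf2 hf3 ?_
  intro A B hA hB
  exact hK.hess hq h2 hΩ hT hreal C hR0 hD1 (Polynomial.aeval_mem_adjoin_singleton L D)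
    hA.1 hA.2 hB.2

end dicho

end Vale.Agent.P182.H922
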