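import Vale.Agent.P182.H533.Core

/-!
# Comparison of cores
-/

namespace Vale.Agent.P182.H922

open Module Vale.Agent.P182.H533

section compare

variable {L V ι : Type*} [Field L] [AddCommGroup V] [Module L V] [FiniteDimensional L V]
  {q : V →ₗ[L] V →ₗ[L] L}

omit [FiniteDimensional L V] in
theorem mem_iSup_map [Fintype ι] {S : ι → End L V} {M : Submodule L V} {x : V} :
    x ∈ (⨆ s, M.map (S s)) ↔ ∃ v : ι → V, (∀ s, v s ∈ M) ∧ x = ∑ s, S s (v s) := by
  classical
  constructor
  · intro hx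
    rw [Submodule.mem_iSup_iff_exists_finsupp] at hx
    obtain ⟨f, hf, rfl⟩ := hx
    choose v hv hv' using hf
    refine ⟨v, hv, ?_⟩
    rw [Finsupp.sum_fintype _ _ (fun _ => rfl)]
    exact Finset.sum_congr rfl fun s _ => (hv' s).symm
  · rintro ⟨v, hv, rfl⟩
    exact Submodule.sum_mem _ fun s _ => Submodule.mem_iSup_of_mem s ⟨v s, hv s, rfl⟩

/-- **Comparison of cores.** -/
theorem compare [Fintype ι] (hq : IsForm q) {S S' : ι → End L V} (hS' : ∀ s, IsSA q (S' s))
    (C : Core q S) (C' : Core q S')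
    (hW : ∀ s, ∀ w ∈ C.W, S' s w ∈ C.W) (hI : ∀ s, ∀ i ∈ C.I, S' s i ∈ C.I)
    (hspan : ⨆ s, LinearMap.range ((C.P hq ∘ₗ S' s) ∘ₗ C.V1.subtype) = ⊤)
    (hker : ∀ v : C.V1, (∀ s, C.P hq (S' s v) = 0) → v = 0)
    (hdim : finrank L C'.V1 ≤ finrank L C.V1) :
    C'.W ≤ C.W ∧ C.I ⊓ C'.W ≤ perp q C'.W := by
  classical
  have hPI : ∀ w ∈ C.W, C.P hq w = 0 → w ∈ C.I := by
    intro w hw h
    have := C.sub_P_mem_I hq hw
    rwa [h, Submodule.coe_zero, sub_zero] at this
  -- (a)
  have ha : ∀ r, C.W ≤ words S' r ⊔ C.I := by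
    intro r
    induction r with
    | zero => exact le_sup_of_le_left le_top
    | succ r ih =>
      intro u hu
      have h1 : C.P hq u ∈ ⨆ s, LinearMap.range ((C.P hq ∘ₗ S' s) ∘ₗ C.V1.subtype) := by
        rw [hspan]; exact Submodule.mem_top
      have h2 : ∃ v : ι → C.V1, C.P hq u = ∑ s, C.P hq (S' s (v s)) := by
        rw [Submodule.mem_iSup_iff_exists_finsupp] at h1
        obtain ⟨f, hf, hf'⟩ := h1
        choose v hv using hf
        refine ⟨v, ?_⟩
        rw [← hf', Finsupp.sum_fintype _ _ (fun _ => rfl)]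
        exact Finset.sum_congr rfl fun s _ => (hv s).symm
      obtain ⟨v, hv⟩ := h2
      have h3 : ∑ s, S' s (v s) ∈ words S' (r + 1) ⊔ C.I := by
        refine Submodule.sum_mem _ fun s _ => ?_
        obtain ⟨a, ha, b, hb, hab⟩ := Submodule.mem_sup.mp (ih (C.V1_le (v s).2))
        rw [← hab, map_add]
        exact Submodule.add_mem _ (Submodule.mem_sup_left (Submodule.mem_iSup_of_mem s
          (Submodule.mem_map_of_mem ha))) (Submodule.mem_sup_right (hI s b hb))
      have h4 : u - ∑ s, S' s (v s) ∈ C.I := by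
        refine hPI _ (Submodule.sub_mem _ hu (Submodule.sum_mem _ fun s _ =>
          hW s _ (C.V1_le (v s).2))) ?_
        rw [map_sub, map_sum, hv, sub_self]
      have h5 : u = ∑ s, S' s (v s) + (u - ∑ s, S' s (v s)) := by abel
      rw [h5]
      exact Submodule.add_mem _ h3 (Submodule.mem_sup_right h4)
  have haW : C.W ≤ C'.W ⊔ C.I := by
    rw [C'.hN]; exact ha _
  -- (b)
  have hb : ∀ r, ∀ v ∈ C.W, v ∈ perp q (words S' r) → v ∈ C.I := by
    intro r
    induction r with
    | zero =>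
      intro v _ hv
      have : v = 0 := hq.nondeg v fun w => hv w trivial
      rw [this]; exact Submodule.zero_mem _
    | succ r ih =>
      intro v hv hvr
      have h1 : ∀ s, S' s v ∈ C.I := fun s => by
        refine ih _ (hW s v hv) fun w hw => ?_
        rw [hS' s]
        exact hvr _ (Submodule.mem_iSup_of_mem s (Submodule.mem_map_of_mem hw))
      refine hPI v hv (hker _ fun s => ?_)
      have h2 : S' s (C.P hq v : V) = S' s v - S' s (v - C.P hq v) := by
        rw [map_sub]; abel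
      rw [h2, map_sub, C.P_eq_zero hq (C.I_le_perp (h1 s)),
        C.P_eq_zero hq (C.I_le_perp (hI s _ (C.sub_P_mem_I hq hv))), sub_zero]
  have hbW : ∀ v ∈ C.W, v ∈ perp q C'.W → v ∈ C.I := fun v hv hv' => by
    rw [C'.hN] at hv'; exact hb _ v hv hv'
  -- (c)
  let G : Submodule L V := C.W ⊓ C'.W
  let θ : G →ₗ[L] C'.V1 := (C'.P hq) ∘ₗ G.subtype
  let φ : G →ₗ[L] C.V1 := (C.P hq) ∘ₗ G.subtype
  have hφ : LinearMap.range φ = ⊤ := by
    rw [LinearMap.range_eq_top]
    intro v
    obtain ⟨a, ha, b, hb, hab⟩ := Submodule.mem_sup.mp (haW (C.V1_le v.2))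
    have h1 : a = (v : V) - b := by rw [← hab]; abel
    refine ⟨⟨a, ?_, ha⟩, ?_⟩
    · rw [h1]; exact Submodule.sub_mem _ (C.V1_le v.2) (C.I_le hb)
    · show C.P hq a = v
      rw [h1, map_sub, C.P_coe, C.P_eq_zero hq (C.I_le_perp hb), sub_zero]
  have hPI' : ∀ w ∈ C'.W, C'.P hq w = 0 → w ∈ C'.I := by
    intro w hw h
    have := C'.sub_P_mem_I hq hw
    rwa [h, Submodule.coe_zero, sub_zero] at this
  have hle : LinearMap.ker θ ≤ LinearMap.ker φ := by
    intro x hx
    have h1 : (x : V) ∈ C'.I := hPI' _ x.2.2 hx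
    have h2 := hbW _ x.2.1 h1.2
    exact C.P_eq_zero hq (C.I_le_perp h2)
  have hr1 := LinearMap.finrank_range_add_finrank_ker θ
  have hr2 := LinearMap.finrank_range_add_finrank_ker φ
  rw [hφ, finrank_top] at hr2
  have hr3 : finrank L (LinearMap.range θ) ≤ finrank L C'.V1 := Submodule.finrank_le _
  have hr4 := Submodule.finrank_mono hle
  have hker' : LinearMap.ker θ = LinearMap.ker φ :=
    Submodule.eq_of_le_of_finrank_le hle (by omega)
  have hθ : LinearMap.range θ = ⊤ := by
    refine Submodule.eq_top_of_finrank_eq ?_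
    omega
  -- (d)
  have hd : C.I ⊓ C'.W ≤ perp q C'.W := by
    rintro x ⟨hx1, hx2⟩
    have h1 : (⟨x, C.I_le hx1, hx2⟩ : G) ∈ LinearMap.ker φ :=
      C.P_eq_zero hq (C.I_le_perp hx1)
    rw [← hker'] at h1
    exact (hPI' x hx2 h1).2
  refine ⟨?_, hd⟩
  -- (e)
  have he0 : C'.W ≤ C.W ⊔ (C'.W ⊓ perp q C'.W) := by
    intro u hu
    obtain ⟨w, hw⟩ := LinearMap.range_eq_top.mp hθ (C'.P hq u)
    have h1 : u - w ∈ C'.I := by
      refine hPI' _ (Submodule.sub_mem _ hu w.2.2) ?_
      rw [map_sub]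
      have : C'.P hq w = C'.P hq u := hw
      rw [this, sub_self]
    have h2 : u = w + (u - w) := by abel
    rw [h2]
    exact Submodule.add_mem _ (Submodule.mem_sup_left w.2.1) (Submodule.mem_sup_right h1)
  have he : ∀ r, C'.W ≤ C.W ⊔ (C'.W ⊓ perp q (words S' r)) → C'.W ≤ C.W := by
    intro r
    induction r with
    | zero =>
      intro h
      refine h.trans (sup_le le_rfl ?_)
      rintro x ⟨_, hx⟩
      have : x = 0 := hq.nondeg x fun w => hx w trivial
      rw [this]; exact Submodule.zero_mem _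
    | succ r ih =>
      intro h
      apply ih
      intro u hu
      rw [← C'.hW] at hu
      obtain ⟨v, hv, rfl⟩ := mem_iSup_map.mp hu
      refine Submodule.sum_mem _ fun s _ => ?_
      obtain ⟨a, ha, b, hb, hab⟩ := Submodule.mem_sup.mp (h (hv s))
      rw [← hab, map_add]
      refine Submodule.add_mem _ (Submodule.mem_sup_left (hW s a ha))
        (Submodule.mem_sup_right ⟨C'.map_W hb.1, fun w hw => ?_⟩)
      rw [hS' s]
      exact hb.2 _ (Submodule.mem_iSup_of_mem s (Submodule.mem_map_of_mem hw))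
  apply he C'.N
  rw [← C'.hN]
  exact he0

end compare

end Vale.Agent.P182.H922
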