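import Vale.Agent.P182.H922.Null

/-!
# The core of a configuration
-/

namespace Vale.Agent.P182.H922

open Module

noncomputable section

/-- a quadratic space with arms and a skew matrix -/
structure Dat (L V J : Type*) [Field L] [AddCommGroup V] [Module L V] where
  /-- the form -/
  q : LinearMap.BilinForm L V
  nd : q.Nondegenerate
  symm : ∀ x y, q x y = q y x
  /-- the arms -/
  arm : J → Fin 3
  /-- the skew matrix -/
  Ω : J → J → L
  skew : ∀ l k, Ω l k = - Ω k l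

section

variable {L V J : Type*} [Field L] [AddCommGroup V] [Module L V] [Fintype J]

namespace Dat

variable (𝒟 : Dat L V J)

/-- `Ω ψ` -/
def om (ψ : J → V) (l : J) : V := ∑ k, 𝒟.Ω l k • ψ k

/-- the operator `Σ_{l ∈ s} (x_l ⊗ (Ω y)_l + (Ω x)_l ⊗ y_l)` -/
def Pop (x y : J → V) (s : Fin 3) : V →ₗ[L] V :=
  ∑ l ∈ Finset.univ.filter (fun l => 𝒟.arm l = s),
    ((𝒟.q (𝒟.om y l)).smulRight (x l) + (𝒟.q (y l)).smulRight (𝒟.om x l))

theorem Pop_apply (x y : J → V) (s : Fin 3) (v : V) :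
    𝒟.Pop x y s v = ∑ l ∈ Finset.univ.filter (fun l => 𝒟.arm l = s),
      (𝒟.q (𝒟.om y l) v • x l + 𝒟.q (y l) v • 𝒟.om x l) := by
  rw [Pop, LinearMap.sum_apply]
  rfl

theorem om_add (x y : J → V) : 𝒟.om (x + y) = 𝒟.om x + 𝒟.om y := by
  funext l
  simp only [om, Pi.add_apply, smul_add, Finset.sum_add_distrib]

theorem om_smul (c : L) (x : J → V) : 𝒟.om (c • x) = c • 𝒟.om x := by
  funext l
  simp only [om, Pi.smul_apply, Finset.smul_sum]
  refine Finset.sum_congr rfl fun k _ => ?_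
  rw [smul_comm]

theorem Pop_add_left (x x' y : J → V) (s : Fin 3) :
    𝒟.Pop (x + x') y s = 𝒟.Pop x y s + 𝒟.Pop x' y s := by
  ext v
  rw [LinearMap.add_apply, Pop_apply, Pop_apply, Pop_apply, ← Finset.sum_add_distrib]
  refine Finset.sum_congr rfl fun l _ => ?_
  rw [om_add, Pi.add_apply, Pi.add_apply, smul_add, smul_add]
  abel

theorem Pop_smul_left (c : L) (x y : J → V) (s : Fin 3) :
    𝒟.Pop (c • x) y s = c • 𝒟.Pop x y s := by
  ext v
  rw [LinearMap.smul_apply, Pop_apply, Pop_apply, Finset.smul_sum]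
  refine Finset.sum_congr rfl fun l _ => ?_
  rw [om_smul, Pi.smul_apply, Pi.smul_apply, smul_add, smul_comm c, smul_comm c]

theorem adj_Pop (x y : J → V) (s : Fin 3) (v w : V) :
    𝒟.q (𝒟.Pop x y s v) w = 𝒟.q v (𝒟.Pop y x s w) := by
  rw [Pop_apply, Pop_apply, map_sum, LinearMap.sum_apply, map_sum]
  refine Finset.sum_congr rfl fun l _ => ?_
  rw [map_add, LinearMap.add_apply, map_smul, map_smul, LinearMap.smul_apply,
    LinearMap.smul_apply, map_add, map_smul, map_smul, smul_eq_mul, smul_eq_mul, smul_eq_mul,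
    smul_eq_mul, 𝒟.symm v (y l), 𝒟.symm v (𝒟.om y l)]
  ring

omit [Fintype J] in
theorem ext_q {f g : V →ₗ[L] V} (h : ∀ x y, 𝒟.q (f x) y = 𝒟.q (g x) y) : f = g :=
  ext_form 𝒟.nd h

theorem Pop_add_right (x y y' : J → V) (s : Fin 3) :
    𝒟.Pop x (y + y') s = 𝒟.Pop x y s + 𝒟.Pop x y' s := by
  refine 𝒟.ext_q fun v w => ?_
  rw [adj_Pop, Pop_add_left, LinearMap.add_apply, LinearMap.add_apply, map_add, map_add,
    LinearMap.add_apply, adj_Pop, adj_Pop]

theorem Pop_smul_right (c : L) (x y : J → V) (s : Fin 3) :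
    𝒟.Pop x (c • y) s = c • 𝒟.Pop x y s := by
  refine 𝒟.ext_q fun v w => ?_
  rw [adj_Pop, Pop_smul_left, LinearMap.smul_apply, LinearMap.smul_apply, map_smul, map_smul,
    LinearMap.smul_apply, adj_Pop]

theorem sum_Pop (x y : J → V) : ∑ s, 𝒟.Pop x y s = 0 := by
  ext v
  rw [LinearMap.sum_apply, LinearMap.zero_apply]
  have h1 : ∀ f : J → V, ∑ s : Fin 3, ∑ l ∈ Finset.univ.filter (fun l => 𝒟.arm l = s), f l =
      ∑ l, f l := fun f => Finset.sum_fiberwise _ _ _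
  rw [Finset.sum_congr rfl fun s _ => 𝒟.Pop_apply x y s v, h1, Finset.sum_add_distrib]
  have h2 : ∑ l, 𝒟.q (𝒟.om y l) v • x l = ∑ l, ∑ k, (𝒟.Ω l k * 𝒟.q (y k) v) • x l := by
    refine Finset.sum_congr rfl fun l _ => ?_
    rw [om, map_sum, LinearMap.sum_apply, Finset.sum_smul]
    refine Finset.sum_congr rfl fun k _ => ?_
    rw [map_smul, LinearMap.smul_apply, smul_eq_mul]
  have h3 : ∑ l, 𝒟.q (y l) v • 𝒟.om x l = ∑ l, ∑ k, (𝒟.Ω l k * 𝒟.q (y l) v) • x k := by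
    refine Finset.sum_congr rfl fun l _ => ?_
    rw [om, Finset.smul_sum]
    refine Finset.sum_congr rfl fun k _ => ?_
    rw [smul_smul, mul_comm]
  rw [h2, h3, Finset.sum_comm (f := fun l k => (𝒟.Ω l k * 𝒟.q (y l) v) • x k),
    ← Finset.sum_add_distrib]
  refine Finset.sum_eq_zero fun l _ => ?_
  rw [← Finset.sum_add_distrib]
  refine Finset.sum_eq_zero fun k _ => ?_
  rw [𝒟.skew k l, ← add_smul]
  ring_nf
  exact zero_smul _ _

/-- `x` and `y` have symmetric mutual Gram matrix -/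
def Rel (x y : J → V) : Prop := ∀ l k, 𝒟.q (x l) (y k) = 𝒟.q (y l) (x k)

variable {𝒟}

omit [Fintype J] in
theorem Rel.symm {x y : J → V} (h : 𝒟.Rel x y) : 𝒟.Rel y x := fun l k => (h l k).symm

theorem Rel.om_left {x y : J → V} (h : 𝒟.Rel x y) (l k : J) :
    𝒟.q (𝒟.om x l) (y k) = 𝒟.q (𝒟.om y l) (x k) := by
  rw [om, om, map_sum, map_sum, LinearMap.sum_apply, LinearMap.sum_apply]
  refine Finset.sum_congr rfl fun j _ => ?_
  rw [map_smul, map_smul, LinearMap.smul_apply, LinearMap.smul_apply, h j k]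

theorem Rel.om_right {x y : J → V} (h : 𝒟.Rel x y) (l k : J) :
    𝒟.q (x l) (𝒟.om y k) = 𝒟.q (y l) (𝒟.om x k) := by
  rw [om, om, map_sum, map_sum]
  refine Finset.sum_congr rfl fun j _ => ?_
  rw [map_smul, map_smul, h l j]

theorem Rel.om_om {x y : J → V} (h : 𝒟.Rel x y) (l k : J) :
    𝒟.q (𝒟.om x l) (𝒟.om y k) = 𝒟.q (𝒟.om y l) (𝒟.om x k) := by
  show 𝒟.q (𝒟.om x l) (∑ j, 𝒟.Ω k j • y j) = 𝒟.q (𝒟.om y l) (∑ j, 𝒟.Ω k j • x j)
  rw [map_sum, map_sum]
  refine Finset.sum_congr rfl fun j _ => ?_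
  rw [map_smul, map_smul, h.om_left l j]

omit [Fintype J] in
theorem Rel.self (x : J → V) : 𝒟.Rel x x := fun _ _ => rfl

/-- **The symmetry.** -/
theorem Rel.Pop_comp {y t : J → V} (h : 𝒟.Rel y t) (x z : J → V) (a b : Fin 3) :
    𝒟.Pop x y b ∘ₗ 𝒟.Pop t z a = 𝒟.Pop x t b ∘ₗ 𝒟.Pop y z a := by
  ext v
  rw [LinearMap.comp_apply, LinearMap.comp_apply, Pop_apply, Pop_apply 𝒟 x t]
  have h1 : ∀ m, 𝒟.q (𝒟.om y m) (𝒟.Pop t z a v) = 𝒟.q (𝒟.om t m) (𝒟.Pop y z a v) := by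
    intro m
    rw [Pop_apply, Pop_apply, map_sum, map_sum]
    refine Finset.sum_congr rfl fun l _ => ?_
    rw [map_add, map_add, map_smul, map_smul, map_smul, map_smul, h.om_left, h.om_om]
  have h2 : ∀ m, 𝒟.q (y m) (𝒟.Pop t z a v) = 𝒟.q (t m) (𝒟.Pop y z a v) := by
    intro m
    rw [Pop_apply, Pop_apply, map_sum, map_sum]
    refine Finset.sum_congr rfl fun l _ => ?_
    rw [map_add, map_add, map_smul, map_smul, map_smul, map_smul, h, h.om_right]
  simp only [h1, h2]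

theorem Rel.Pop_comp' {y t : J → V} (h : 𝒟.Rel y t) (x z : J → V) (a b : Fin 3) (v : V) :
    𝒟.Pop x y b (𝒟.Pop t z a v) = 𝒟.Pop x t b (𝒟.Pop y z a v) :=
  LinearMap.congr_fun (h.Pop_comp x z a b) v

end Dat

/-- the submodule `Σ_s S_s M` -/
def Wd (S : Fin 3 → V →ₗ[L] V) (M : Submodule L V) : Submodule L V := ⨆ s, M.map (S s)

theorem Wd_mono (S : Fin 3 → V →ₗ[L] V) {M N : Submodule L V} (h : M ≤ N) : Wd S M ≤ Wd S N :=
  iSup_mono fun _ => Submodule.map_mono h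

theorem mem_Wd {S : Fin 3 → V →ₗ[L] V} {M : Submodule L V} {x : V} :
    x ∈ Wd S M ↔ ∃ v : Fin 3 → V, (∀ s, v s ∈ M) ∧ x = ∑ s, S s (v s) := by
  rw [Wd]
  constructor
  · intro hx
    rw [Submodule.mem_iSup_iff_exists_finsupp] at hx
    obtain ⟨f, hf, rfl⟩ := hx
    choose v hv hv' using hf
    refine ⟨v, hv, ?_⟩
    rw [Finsupp.sum_fintype _ _ (fun _ => rfl)]
    exact Finset.sum_congr rfl fun s _ => (hv' s).symm
  · rintro ⟨v, hv, rfl⟩
    exact Submodule.sum_mem _ fun s _ => Submodule.mem_iSup_of_mem s ⟨v s, hv s, rfl⟩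

theorem Wd_iter_succ_le (S : Fin 3 → V →ₗ[L] V) (n : ℕ) : (Wd S)^[n + 1] ⊤ ≤ (Wd S)^[n] ⊤ := by
  induction n with
  | zero => exact le_top
  | succ n ih =>
    rw [Function.iterate_succ_apply' (Wd S) (n + 1), Function.iterate_succ_apply' (Wd S) n]
    refine Wd_mono S ?_
    rw [← Function.iterate_succ_apply' (Wd S) n]
    exact ih

theorem exists_stable [FiniteDimensional L V] (S : Fin 3 → V →ₗ[L] V) :
    ∃ N, Wd S ((Wd S)^[N] ⊤) = (Wd S)^[N] ⊤ := by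
  have h1 : Antitone fun n => (Wd S)^[n] (⊤ : Submodule L V) :=
    antitone_nat_of_succ_le (Wd_iter_succ_le S)
  obtain ⟨N, hN⟩ := IsArtinian.monotone_stabilizes (R := L) (M := V)
    ⟨fun n => OrderDual.toDual ((Wd S)^[n] (⊤ : Submodule L V)), fun a b hab => h1 hab⟩
  refine ⟨N, ?_⟩
  have := hN (N + 1) (Nat.le_succ N)
  have h2 : (Wd S)^[N] (⊤ : Submodule L V) = (Wd S)^[N + 1] ⊤ := this
  rw [Function.iterate_succ_apply'] at h2
  exact h2.symm

end

end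

end Vale.Agent.P182.H922
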