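import Vale.Agent.P182.H922.Core
import Vale.Agent.P182.H922.Idem

/-!
# The core: existence and first properties
-/

namespace Vale.Agent.P182.H922

open Module

noncomputable section

section perp

variable {L V : Type*} [Field L] [AddCommGroup V] [Module L V]

/-- the orthogonal space -/
def perp (q : LinearMap.BilinForm L V) (U : Submodule L V) : Submodule L V where
  carrier := {v | ∀ u ∈ U, q v u = 0}
  add_mem' := fun {a b} ha hb u hu => by
    rw [map_add, LinearMap.add_apply, ha u hu, hb u hu, add_zero]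
  zero_mem' := fun u _ => by rw [map_zero, LinearMap.zero_apply]
  smul_mem' := fun c a ha u hu => by
    rw [map_smul, LinearMap.smul_apply, ha u hu, smul_zero]

theorem mem_perp {q : LinearMap.BilinForm L V} {U : Submodule L V} {v : V} :
    v ∈ perp q U ↔ ∀ u ∈ U, q v u = 0 := Iff.rfl

variable [FiniteDimensional L V]

theorem perp_perp {q : LinearMap.BilinForm L V} (hq : q.Nondegenerate)
    (hs : ∀ x y, q x y = q y x) (U : Submodule L V) : perp q (perp q U) = U := by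
  refine le_antisymm ?_ fun u hu v hv => by rw [hs]; exact hv u hu
  intro v hv
  by_contra hvU
  obtain ⟨f, hf1, hf2⟩ := Submodule.exists_le_ker_of_notMem hvU
  let x := (q.toDual hq).symm f
  have hx : ∀ y, q x y = f y := fun y => by
    rw [← LinearMap.BilinForm.toDual_def hq, LinearEquiv.apply_symm_apply]
  have hx1 : x ∈ perp q U := fun u hu => by rw [hx]; exact hf2 hu
  apply hf1
  rw [← hx, hs]
  exact hv x hx1

/-- A complement `W` of the radical of `U`, with the orthogonal projection to `W`. -/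
theorem exists_compl {q : LinearMap.BilinForm L V} (hs : ∀ x y, q x y = q y x)
    (U : Submodule L V) : ∃ (W : Submodule L V) (π : V →ₗ[L] W), W ≤ U ∧
      (∀ w : W, π w = w) ∧ (∀ i ∈ U ⊓ perp q U, π i = 0) ∧
      (∀ u ∈ U, u - (π u : V) ∈ U ⊓ perp q U) ∧ (∀ v, ∀ w : W, q (π v) w = q v w) ∧
      (q.restrict W).Nondegenerate := by
  obtain ⟨G, hG⟩ := ((U ⊓ perp q U).comap U.subtype).exists_isCompl
  set W := G.map U.subtype with hW
  have hWU : W ≤ U := by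
    rintro _ ⟨g, _, rfl⟩
    exact g.2
  have hdec : ∀ u ∈ U, ∃ w ∈ W, u - w ∈ U ⊓ perp q U := by
    intro u hu
    have h1 : (⟨u, hu⟩ : U) ∈ ((U ⊓ perp q U).comap U.subtype) ⊔ G := by
      rw [hG.sup_eq_top]; exact Submodule.mem_top
    obtain ⟨i, hi, g, hg, hig⟩ := Submodule.mem_sup.mp h1
    refine ⟨g, ⟨g, hg, rfl⟩, ?_⟩
    have h2 : u - (g : V) = i := by
      have := congrArg Subtype.val hig
      simp only [Submodule.coe_add] at this
      rw [← this, add_sub_cancel_right]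
    rw [h2]
    exact hi
  have hinter : ∀ w ∈ W, w ∈ U ⊓ perp q U → w = 0 := by
    rintro _ ⟨g, hg, rfl⟩ h2
    have h3 : g ∈ ((U ⊓ perp q U).comap U.subtype) ⊓ G := ⟨h2, hg⟩
    rw [hG.inf_eq_bot, Submodule.mem_bot] at h3
    rw [h3]; rfl
  have hnd : (q.restrict W).Nondegenerate := by
    have key : ∀ w : W, (∀ y : W, q w y = 0) → w = 0 := by
      intro w hw
      apply Subtype.ext
      refine hinter w w.2 ⟨hWU w.2, fun u hu => ?_⟩
      obtain ⟨w', hw', hi⟩ := hdec u hu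
      have h5 : q w (u - w') = 0 := by
        rw [hs]
        exact hi.2 w (hWU w.2)
      have h6 := hw ⟨w', hw'⟩
      rw [map_sub, sub_eq_zero] at h5
      rw [h5]; exact h6
    constructor
    · intro w hw
      exact key w fun y => hw y
    · intro w hw
      exact key w fun y => by rw [hs]; exact hw y
  let π : V →ₗ[L] W := ((q.restrict W).toDual hnd).symm.toLinearMap ∘ₗ
    (Submodule.subtype W).dualMap ∘ₗ q
  have hπ : ∀ v, ∀ w : W, q (π v) w = q v w := by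
    intro v w
    have h1 : (q.restrict W).toDual hnd (π v) w = q v w := by
      show (q.restrict W).toDual hnd (((q.restrict W).toDual hnd).symm _) w = _
      rw [LinearEquiv.apply_symm_apply]
      rfl
    rw [LinearMap.BilinForm.toDual_def] at h1
    exact h1
  have huniq : ∀ w w' : W, (∀ y : W, q w y = q w' y) → w = w' := by
    intro w w' h
    apply sub_eq_zero.mp
    apply hnd.1
    intro y
    show q ((w - w' : W) : V) y = 0
    rw [Submodule.coe_sub, map_sub, LinearMap.sub_apply, h y, sub_self]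
  have hπw : ∀ w : W, π w = w := fun w => huniq _ _ fun y => hπ w y
  have hπi : ∀ i ∈ U ⊓ perp q U, π i = 0 := fun i hi => huniq _ _ fun y => by
    rw [hπ, hi.2 y (hWU y.2)]
    simp
  refine ⟨W, π, hWU, hπw, hπi, ?_, hπ, hnd⟩
  intro u hu
  obtain ⟨w, hw, hi⟩ := hdec u hu
  have h1 : π u = ⟨w, hw⟩ := by
    have h2 := hπi _ hi
    have h3 := hπw ⟨w, hw⟩
    rw [map_sub, sub_eq_zero] at h2
    rw [h2]; exact h3
  rw [h1]
  exact hi

end perp

section core

variable {L V J : Type*} [Field L] [AddCommGroup V] [Module L V] [Fintype J]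

/-- the data of a core of `t` -/
structure CoreD (𝒟 : Dat L V J) (t : J → V) where
  /-- the perfect part -/
  U : Submodule L V
  /-- number of steps -/
  N : ℕ
  hN : U = (Wd (𝒟.Pop t t))^[N] ⊤
  fix : Wd (𝒟.Pop t t) U = U
  /-- the core -/
  W : Submodule L V
  /-- the orthogonal projection -/
  π : V →ₗ[L] W
  le : W ≤ U
  π_self : ∀ w : W, π w = w
  π_rad : ∀ i ∈ U ⊓ perp 𝒟.q U, π i = 0
  sub_mem : ∀ u ∈ U, u - (π u : V) ∈ U ⊓ perp 𝒟.q U
  π_adj : ∀ v, ∀ w : W, 𝒟.q (π v) w = 𝒟.q v w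
  nd : (𝒟.q.restrict W).Nondegenerate

theorem exists_coreD [FiniteDimensional L V] (𝒟 : Dat L V J) (t : J → V) : Nonempty (CoreD 𝒟 t) := by
  obtain ⟨N, hN⟩ := exists_stable (𝒟.Pop t t)
  obtain ⟨W, π, h1, h2, h3, h4, h5, h6⟩ := exists_compl 𝒟.symm ((Wd (𝒟.Pop t t))^[N] ⊤)
  exact ⟨⟨_, N, rfl, hN, W, π, h1, h2, h3, h4, h5, h6⟩⟩

namespace CoreD

variable {𝒟 : Dat L V J} {t : J → V} (C : CoreD 𝒟 t)

/-- the radical of `U` -/
abbrev I : Submodule L V := C.U ⊓ perp 𝒟.q C.U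

/-- the orthogonal spaces of the steps -/
abbrev Z (n : ℕ) : Submodule L V := perp 𝒟.q ((Wd (𝒟.Pop t t))^[n] ⊤)

theorem self_adj (s : Fin 3) (x y : V) : 𝒟.q (𝒟.Pop t t s x) y = 𝒟.q x (𝒟.Pop t t s y) :=
  𝒟.adj_Pop t t s x y

theorem mem_U_iff {x : V} : x ∈ C.U ↔ ∃ v : Fin 3 → V, (∀ s, v s ∈ C.U) ∧
    x = ∑ s, 𝒟.Pop t t s (v s) := by
  nth_rw 1 [← C.fix]
  exact mem_Wd

theorem S_mem {x : V} (s : Fin 3) (hx : x ∈ C.U) : 𝒟.Pop t t s x ∈ C.U := by
  rw [← C.fix]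
  exact Submodule.mem_iSup_of_mem s ⟨x, hx, rfl⟩

theorem S_mem_perp {x : V} (s : Fin 3) (hx : x ∈ perp 𝒟.q C.U) :
    𝒟.Pop t t s x ∈ perp 𝒟.q C.U := fun u hu => by
  rw [self_adj]
  exact hx _ (C.S_mem s hu)

theorem S_mem_I {x : V} (s : Fin 3) (hx : x ∈ C.I) : 𝒟.Pop t t s x ∈ C.I :=
  ⟨C.S_mem s hx.1, C.S_mem_perp s hx.2⟩

theorem Z_zero : (Z (𝒟 := 𝒟) (t := t) 0) = ⊥ := by
  rw [eq_bot_iff]
  intro v hv
  rw [Submodule.mem_bot]
  apply 𝒟.nd.1
  intro y
  exact hv y Submodule.mem_top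

theorem S_mem_Z {x : V} (s : Fin 3) {n : ℕ} (hx : x ∈ Z (𝒟 := 𝒟) (t := t) (n + 1)) :
    𝒟.Pop t t s x ∈ Z (𝒟 := 𝒟) (t := t) n := fun u hu => by
  rw [𝒟.adj_Pop]
  refine hx _ ?_
  rw [Function.iterate_succ_apply']
  exact Submodule.mem_iSup_of_mem s ⟨u, hu, rfl⟩

theorem perp_eq : perp 𝒟.q C.U = Z (𝒟 := 𝒟) (t := t) C.N := by
  rw [Z, ← C.hN]

/-- the induced operator on the core -/
def comp (f : V →ₗ[L] V) : C.W →ₗ[L] C.W := C.π ∘ₗ f ∘ₗ C.W.subtype

@[simp] theorem comp_apply (f : V →ₗ[L] V) (w : C.W) : C.comp f w = C.π (f w) := rfl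

theorem W_ext {w w' : C.W} (h : ∀ y : C.W, 𝒟.q w y = 𝒟.q w' y) : w = w' := by
  apply sub_eq_zero.mp
  apply C.nd.1
  intro y
  show 𝒟.q ((w - w' : C.W) : V) y = 0
  rw [Submodule.coe_sub, map_sub, LinearMap.sub_apply, h y, sub_self]

theorem comp_adj {f g : V →ₗ[L] V} (h : ∀ x y, 𝒟.q (f x) y = 𝒟.q x (g y)) (x y : C.W) :
    𝒟.q (C.comp f x) y = 𝒟.q x (C.comp g y) := by
  rw [comp_apply, comp_apply, C.π_adj, 𝒟.symm x, C.π_adj, h, 𝒟.symm]

/-- the operators `S_s` on the core -/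
def Sc (s : Fin 3) : C.W →ₗ[L] C.W := C.comp (𝒟.Pop t t s)

theorem Sc_adj (s : Fin 3) (x y : C.W) :
    𝒟.q (C.Sc s x) y = 𝒟.q x (C.Sc s y) := C.comp_adj (𝒟.adj_Pop t t s) x y

/-- `π` intertwines operators preserving `I`. -/
theorem π_comp {f : V →ₗ[L] V} (hf : ∀ i ∈ C.I, f i ∈ C.I) {u : V} (hu : u ∈ C.U) :
    C.π (f u) = C.comp f (C.π u) := by
  have h1 := hf _ (C.sub_mem u hu)
  have h2 := C.π_rad _ h1
  rw [map_sub, map_sub, sub_eq_zero] at h2
  rw [h2]; rfl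

theorem sum_Sc : ∑ s, C.Sc s = 0 := by
  ext w
  have h1 : ∑ s, 𝒟.Pop t t s (w : V) = 0 := by
    rw [← LinearMap.sum_apply, 𝒟.sum_Pop]; rfl
  have h2 : (∑ s, C.Sc s) w = C.π (∑ s, 𝒟.Pop t t s (w : V)) := by
    rw [LinearMap.sum_apply, map_sum]
    rfl
  rw [h2, h1, map_zero]; rfl

theorem iInf_ker_Sc : ⨅ s, LinearMap.ker (C.Sc s) = ⊥ := by
  rw [eq_bot_iff]
  intro w hw
  rw [Submodule.mem_iInf] at hw
  rw [Submodule.mem_bot]
  have h1 : ∀ s, 𝒟.Pop t t s (w : V) ∈ C.I := by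
    intro s
    have h2 := C.sub_mem _ (C.S_mem s (C.le w.2))
    have h3 : C.π (𝒟.Pop t t s (w : V)) = 0 := hw s
    rw [h3] at h2
    simpa using h2
  have h4 : (w : V) ∈ C.I := by
    refine ⟨C.le w.2, fun u hu => ?_⟩
    obtain ⟨v, hv, rfl⟩ := C.mem_U_iff.mp hu
    rw [map_sum]
    refine Finset.sum_eq_zero fun s _ => ?_
    rw [← self_adj]
    exact (h1 s).2 _ (hv s)
  rw [← C.π_self w]
  exact C.π_rad _ h4

theorem Sc_nilp (hn : ∀ s, IsNilpotent (𝒟.Pop t t s : Module.End L V)) (s : Fin 3) :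
    IsNilpotent (C.Sc s : Module.End L C.W) := by
  obtain ⟨n, hn⟩ := hn s
  refine ⟨n, ?_⟩
  have h1 : ∀ m, ∀ w : C.W, ((C.Sc s : Module.End L C.W) ^ m) w =
      C.π (((𝒟.Pop t t s : Module.End L V) ^ m) w) ∧
      ((𝒟.Pop t t s : Module.End L V) ^ m) (w : V) ∈ C.U := by
    intro m w
    induction m with
    | zero => exact ⟨by simp [C.π_self], by simpa using C.le w.2⟩
    | succ m ih =>
      rw [pow_succ', pow_succ', Module.End.mul_apply, Module.End.mul_apply, ih.1]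
      refine ⟨?_, C.S_mem s ih.2⟩
      exact (C.π_comp (fun i hi => C.S_mem_I s hi) ih.2).symm
  ext w
  rw [(h1 n w).1, hn]
  simp

theorem iSup_range_Sc [FiniteDimensional L V] : ⨆ s, LinearMap.range (C.Sc s) = ⊤ :=
  iSup_range_eq_top C.nd (S := C.Sc) (fun s x y => C.Sc_adj s x y) C.iInf_ker_Sc

theorem exists_sum_Sc [FiniteDimensional L V] (w : C.W) : ∃ v : Fin 3 → C.W, w = ∑ s, C.Sc s (v s) := by
  have h1 : w ∈ Wd C.Sc (⊤ : Submodule L C.W) := by
    have : Wd C.Sc (⊤ : Submodule L C.W) = ⨆ s, LinearMap.range (C.Sc s) := by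
      rw [Wd]
      refine iSup_congr fun s => ?_
      rw [LinearMap.range_eq_map]
    rw [this, C.iSup_range_Sc]; exact Submodule.mem_top
  obtain ⟨v, _, h⟩ := mem_Wd.mp h1
  exact ⟨v, h⟩

end CoreD

end core

end

end Vale.Agent.P182.H922
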