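import Vale.Agent.P182.H922.Core2

/-!
# The operator on the core attached to a functional
-/

namespace Vale.Agent.P182.H922

open Module

noncomputable section

variable {L V J : Type*} [Field L] [AddCommGroup V] [Module L V] [Fintype J]

namespace CoreD

variable {𝒟 : Dat L V J} {t : J → V} (C : CoreD 𝒟 t)

/-- `Ψ_b S_a = S_b Ψ_a^*` -/
theorem psi_S {ψ : J → V} (h1 : 𝒟.Rel ψ t) (a b : Fin 3) (v : V) :
    𝒟.Pop t ψ b (𝒟.Pop t t a v) = 𝒟.Pop t t b (𝒟.Pop ψ t a v) :=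
  h1.Pop_comp' t t a b v

theorem rad_zero {ψ : J → V} (h1 : 𝒟.Rel ψ t)
    (h2 : ∀ s, ∀ i ∈ C.I, 𝒟.Pop t ψ s i = 𝒟.Pop ψ t s i) :
    ∀ n, ∀ x ∈ C.I, x ∈ Z (𝒟 := 𝒟) (t := t) n → ∀ y ∈ C.U, ∀ b,
      𝒟.q x (𝒟.Pop t ψ b y) = 0 := by
  intro n
  induction n with
  | zero =>
    intro x _ hx y _ b
    rw [Z_zero, Submodule.mem_bot] at hx
    rw [hx, map_zero, LinearMap.zero_apply]
  | succ n ih =>
    intro x hxI hxZ y hy b
    obtain ⟨v, hv, rfl⟩ := C.mem_U_iff.mp hy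
    rw [map_sum, map_sum]
    refine Finset.sum_eq_zero fun c _ => ?_
    rw [psi_S h1, ← self_adj, ← 𝒟.adj_Pop t ψ, h2 c _ (C.S_mem_I b hxI), 𝒟.adj_Pop ψ t]
    exact ih _ (C.S_mem_I b hxI) (S_mem_Z b hxZ) _ (hv c) c

theorem rad_zero' {ψ : J → V} (h1 : 𝒟.Rel ψ t)
    (h2 : ∀ s, ∀ i ∈ C.I, 𝒟.Pop t ψ s i = 𝒟.Pop ψ t s i) {x y : V} (hx : x ∈ C.I)
    (hy : y ∈ C.U) (b : Fin 3) : 𝒟.q x (𝒟.Pop t ψ b y) = 0 := by
  refine C.rad_zero h1 h2 C.N x hx ?_ y hy b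
  rw [← C.perp_eq]
  exact hx.2

theorem wd {ψ : J → V} (h1 : 𝒟.Rel ψ t)
    (h2 : ∀ s, ∀ i ∈ C.I, 𝒟.Pop t ψ s i = 𝒟.Pop ψ t s i) {v : Fin 3 → V}
    (hv : ∑ a, 𝒟.Pop t t a (v a) ∈ C.I) {y : V} (hy : y ∈ C.U) :
    ∑ a, 𝒟.q (v a) (𝒟.Pop t ψ a y) = 0 := by
  obtain ⟨z, hz, rfl⟩ := C.mem_U_iff.mp hy
  have h3 : ∀ a, 𝒟.q (v a) (𝒟.Pop t ψ a (∑ s, 𝒟.Pop t t s (z s))) =
      ∑ s, 𝒟.q (𝒟.Pop t t a (v a)) (𝒟.Pop ψ t s (z s)) := by
    intro a
    rw [map_sum, map_sum]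
    refine Finset.sum_congr rfl fun s _ => ?_
    rw [psi_S h1, ← self_adj]
  rw [Finset.sum_congr rfl fun a _ => h3 a, Finset.sum_comm]
  refine Finset.sum_eq_zero fun s _ => ?_
  rw [← LinearMap.sum_apply, ← map_sum, ← 𝒟.adj_Pop t ψ, h2 s _ hv, 𝒟.adj_Pop ψ t]
  exact C.rad_zero' h1 h2 hv (hz s) s

/-- a linear choice of decompositions -/
theorem exists_section : ∃ σ : C.W →ₗ[L] (Fin 3 → V),
    ∀ w : C.W, (w : V) = ∑ a, 𝒟.Pop t t a (σ w a) := by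
  let T : (Fin 3 → V) →ₗ[L] V := ∑ a, 𝒟.Pop t t a ∘ₗ LinearMap.proj a
  have hT : ∀ v, T v = ∑ a, 𝒟.Pop t t a (v a) := fun v => by
    simp [T, LinearMap.sum_apply]
  have hle : C.W ≤ LinearMap.range T := by
    intro w hw
    obtain ⟨v, _, h⟩ := C.mem_U_iff.mp (C.le hw)
    exact ⟨v, by rw [hT, ← h]⟩
  obtain ⟨r, hr⟩ := LinearMap.exists_rightInverse_of_surjective T.rangeRestrict
    (LinearMap.range_rangeRestrict T)
  refine ⟨r ∘ₗ Submodule.inclusion hle, fun w => ?_⟩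
  have h1 := LinearMap.congr_fun hr (Submodule.inclusion hle w)
  have h2 : T (r (Submodule.inclusion hle w)) = (w : V) := congrArg Subtype.val h1
  rw [← h2, hT]
  rfl

variable [FiniteDimensional L V]

/-- **The operator on the core.** -/
theorem exists_Dc {ψ : J → V} (h1 : 𝒟.Rel ψ t)
    (h2 : ∀ s, ∀ i ∈ C.I, 𝒟.Pop t ψ s i = 𝒟.Pop ψ t s i) :
    ∃ D : C.W →ₗ[L] C.W, (∀ x y : C.W, 𝒟.q (D x) y = 𝒟.q x (D y)) ∧
      ∀ a, ∀ w : C.W, C.π (𝒟.Pop t ψ a w) = C.Sc a (D w) := by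
  obtain ⟨σ, hσ⟩ := C.exists_section
  -- the form
  let β : C.W →ₗ[L] Dual L C.W :=
    { toFun := fun w =>
        { toFun := fun y => ∑ a, 𝒟.q (σ w a) (𝒟.Pop t ψ a y)
          map_add' := fun y y' => by
            rw [← Finset.sum_add_distrib]
            refine Finset.sum_congr rfl fun a _ => ?_
            rw [Submodule.coe_add, map_add, map_add]
          map_smul' := fun c y => by
            rw [RingHom.id_apply, smul_eq_mul, Finset.mul_sum]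
            refine Finset.sum_congr rfl fun a _ => ?_
            rw [Submodule.coe_smul, map_smul, map_smul, smul_eq_mul] }
      map_add' := fun w w' => by
        ext y
        show ∑ a, 𝒟.q (σ (w + w') a) (𝒟.Pop t ψ a y) = ∑ a, 𝒟.q (σ w a) (𝒟.Pop t ψ a y) +
          ∑ a, 𝒟.q (σ w' a) (𝒟.Pop t ψ a y)
        rw [← Finset.sum_add_distrib]
        refine Finset.sum_congr rfl fun a _ => ?_
        rw [map_add, Pi.add_apply, map_add, LinearMap.add_apply]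
      map_smul' := fun c w => by
        ext y
        show ∑ a, 𝒟.q (σ (c • w) a) (𝒟.Pop t ψ a y) = c * ∑ a, 𝒟.q (σ w a) (𝒟.Pop t ψ a y)
        rw [Finset.mul_sum]
        refine Finset.sum_congr rfl fun a _ => ?_
        rw [map_smul, Pi.smul_apply, map_smul, LinearMap.smul_apply, smul_eq_mul] }
  have hβ : ∀ w y, β w y = ∑ a, 𝒟.q (σ w a) (𝒟.Pop t ψ a y) := fun w y => rfl
  let D : C.W →ₗ[L] C.W := ((𝒟.q.restrict C.W).toDual C.nd).symm.toLinearMap ∘ₗ β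
  have hD : ∀ x y : C.W, 𝒟.q (D x) y = ∑ a, 𝒟.q (σ x a) (𝒟.Pop t ψ a y) := by
    intro x y
    have h3 : (𝒟.q.restrict C.W).toDual C.nd (D x) y = β x y := by
      show (𝒟.q.restrict C.W).toDual C.nd (((𝒟.q.restrict C.W).toDual C.nd).symm (β x)) y = _
      rw [LinearEquiv.apply_symm_apply]
    rw [LinearMap.BilinForm.toDual_def, hβ] at h3
    exact h3
  have hsym : ∀ x y : C.W, ∑ a, 𝒟.q (σ x a) (𝒟.Pop t ψ a y) =
      ∑ b, 𝒟.q (σ y b) (𝒟.Pop t ψ b x) := by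
    intro x y
    have h3 : ∀ a, 𝒟.q (σ x a) (𝒟.Pop t ψ a y) =
        ∑ b, 𝒟.q (𝒟.Pop t t a (σ x a)) (𝒟.Pop ψ t b (σ y b)) := by
      intro a
      nth_rw 1 [hσ y]
      rw [map_sum, map_sum]
      refine Finset.sum_congr rfl fun s _ => ?_
      rw [psi_S h1, ← self_adj]
    rw [Finset.sum_congr rfl fun a _ => h3 a, Finset.sum_comm]
    refine Finset.sum_congr rfl fun b _ => ?_
    rw [← LinearMap.sum_apply, ← map_sum, ← hσ x, ← 𝒟.adj_Pop t ψ, 𝒟.symm]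
  refine ⟨D, fun x y => ?_, fun a w => C.W_ext fun y => ?_⟩
  · rw [hD, hsym, ← hD, 𝒟.symm]
  · -- compare
    rw [C.π_adj, C.Sc_adj, hD, hsym, 𝒟.symm]
    set v : Fin 3 → V := fun b => σ (C.Sc a y) b - if b = a then (y : V) else 0 with hv
    have h3 : ∑ b, 𝒟.Pop t t b (v b) ∈ C.I := by
      have h4 : ∑ b, 𝒟.Pop t t b (v b) = (C.Sc a y : V) - 𝒟.Pop t t a y := by
        simp only [hv, map_sub]
        rw [Finset.sum_sub_distrib, ← hσ]
        congr 1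
        rw [Finset.sum_eq_single a]
        · rw [if_pos rfl]
        · intro b _ hb
          rw [if_neg hb, map_zero]
        · intro h; exact absurd (Finset.mem_univ _) h
      rw [h4, ← neg_sub]
      exact neg_mem (C.sub_mem _ (C.S_mem a (C.le y.2)))
    have h5 := C.wd h1 h2 h3 (C.le w.2)
    have h6 : ∑ b, 𝒟.q (v b) (𝒟.Pop t ψ b w) =
        ∑ b, 𝒟.q (σ (C.Sc a y) b) (𝒟.Pop t ψ b w) - 𝒟.q y (𝒟.Pop t ψ a w) := by
      simp only [hv, map_sub, LinearMap.sub_apply]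
      rw [Finset.sum_sub_distrib]
      congr 1
      rw [Finset.sum_eq_single a]
      · rw [if_pos rfl]
      · intro b _ hb
        rw [if_neg hb, map_zero, LinearMap.zero_apply]
      · intro h; exact absurd (Finset.mem_univ _) h
    rw [h6, sub_eq_zero] at h5
    exact h5.symm

end CoreD

end

end Vale.Agent.P182.H922
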