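import Vale.Agent.P182.H922.Pos

/-!
# The trace pairing and the Hessian inequality
-/

namespace Vale.Agent.P182.H922

open Module

noncomputable section

section pairing

variable {k : Type*} [Field k] {V W : Type*} [AddCommGroup V] [Module k V] [AddCommGroup W]
  [Module k W]

/-- the trace pairing `Hom(W,V) × Hom(V,W) → k` -/
def tp (a : W →ₗ[k] V) (b : V →ₗ[k] W) : k := LinearMap.trace k W (b ∘ₗ a)

theorem tp_comm [FiniteDimensional k V] [FiniteDimensional k W] (a : W →ₗ[k] V) (b : V →ₗ[k] W) : tp a b = tp b a := by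
  unfold tp
  exact LinearMap.trace_comp_comm' a b

theorem tp_add_left (a a' : W →ₗ[k] V) (b : V →ₗ[k] W) : tp (a + a') b = tp a b + tp a' b := by
  unfold tp; rw [LinearMap.comp_add, map_add]

theorem tp_add_right (a : W →ₗ[k] V) (b b' : V →ₗ[k] W) : tp a (b + b') = tp a b + tp a b' := by
  unfold tp; rw [LinearMap.add_comp, map_add]

theorem tp_sub_right (a : W →ₗ[k] V) (b b' : V →ₗ[k] W) : tp a (b - b') = tp a b - tp a b' := by
  unfold tp; rw [LinearMap.sub_comp, map_sub]

theorem tp_sub_left (a a' : W →ₗ[k] V) (b : V →ₗ[k] W) : tp (a - a') b = tp a b - tp a' b := by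
  unfold tp; rw [LinearMap.comp_sub, map_sub]

theorem tp_smul_left (c : k) (a : W →ₗ[k] V) (b : V →ₗ[k] W) : tp (c • a) b = c * tp a b := by
  unfold tp; rw [LinearMap.comp_smul, map_smul, smul_eq_mul]

theorem tp_smul_right (c : k) (a : W →ₗ[k] V) (b : V →ₗ[k] W) : tp a (c • b) = c * tp a b := by
  unfold tp; rw [LinearMap.smul_comp, map_smul, smul_eq_mul]

/-- nondegeneracy -/
theorem eq_zero_of_tp [FiniteDimensional k W] {b : V →ₗ[k] W} (h : ∀ a : W →ₗ[k] V, tp a b = 0) : b = 0 := by
  ext v
  rw [LinearMap.zero_apply, ← Module.forall_dual_apply_eq_zero_iff k]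
  intro φ
  have h1 := h (LinearMap.smulRight φ v)
  unfold tp at h1
  have h2 : b ∘ₗ LinearMap.smulRight φ v = LinearMap.smulRight φ (b v) := by
    ext w; simp
  rw [h2] at h1
  rwa [LinearMap.trace_smulRight] at h1

variable [FiniteDimensional k V] [FiniteDimensional k W]

omit [FiniteDimensional k V] in
theorem tp_adm (S : V →ₗ[k] V) (T : W →ₗ[k] W) (a : W →ₗ[k] V) (b : V →ₗ[k] W) :
    tp a (adm S T b) = - tp (adm T S a) b := by
  rw [adm_apply, adm_apply, tp_sub_right, tp_sub_left]
  have h1 : tp a (b ∘ₗ S) = tp (S ∘ₗ a) b := by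
    unfold tp; rw [LinearMap.comp_assoc]
  have h2 : tp a (T ∘ₗ b) = tp (a ∘ₗ T) b := by
    unfold tp
    rw [LinearMap.comp_assoc, LinearMap.trace_comp_comm', LinearMap.comp_assoc]
  rw [h1, h2]; ring

/-- the pairing of families -/
def TP (a : Fin 3 → W →ₗ[k] V) (b : Fin 3 → V →ₗ[k] W) : k := ∑ s, tp (a s) (b s)

variable (k V W) in
/-- the pairing as a linear map to the dual -/
def TPd : (Fin 3 → V →ₗ[k] W) →ₗ[k] Dual k (Fin 3 → W →ₗ[k] V) where
  toFun b :=
    { toFun := fun a => TP a b
      map_add' := fun a a' => by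
        simp only [TP, Pi.add_apply, tp_add_left, Finset.sum_add_distrib]
      map_smul' := fun c a => by
        simp only [TP, Pi.smul_apply, tp_smul_left, Finset.mul_sum, RingHom.id_apply, smul_eq_mul] }
  map_add' b b' := by
    refine LinearMap.ext fun a => ?_
    show TP a (b + b') = TP a b + TP a b'
    simp only [TP, Pi.add_apply, tp_add_right, Finset.sum_add_distrib]
  map_smul' c b := by
    refine LinearMap.ext fun a => ?_
    show TP a (c • b) = c * TP a b
    simp only [TP, Pi.smul_apply, tp_smul_right, Finset.mul_sum]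

omit [FiniteDimensional k V] [FiniteDimensional k W] in
theorem TPd_apply (a : Fin 3 → W →ₗ[k] V) (b : Fin 3 → V →ₗ[k] W) : TPd k V W b a = TP a b := rfl

theorem TPd_injective : Function.Injective (TPd k V W) := by
  classical
  rw [injective_iff_map_eq_zero]
  intro b hb
  funext s
  refine eq_zero_of_tp fun a => ?_
  have h := LinearMap.congr_fun hb (Pi.single s a)
  rw [TPd_apply, TP, Finset.sum_eq_single s] at h
  · rw [Pi.single_eq_same] at h; exact h
  · intro t _ ht
    rw [Pi.single_eq_of_ne ht]
    unfold tp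
    rw [LinearMap.comp_zero, map_zero]
  · intro h; exact absurd (Finset.mem_univ _) h

end pairing

section count

variable {k : Type*} [Field k] {V W : Type*} [AddCommGroup V] [Module k V] [AddCommGroup W]
  [Module k W] [FiniteDimensional k V] [FiniteDimensional k W]

theorem finrank_HomX_le_comm (S : V →ₗ[k] V) (T : W →ₗ[k] W) :
    finrank k (HomX T S) ≤ finrank k (HomX S T) := by
    -- the map `HomX T S → (Hom(V,W) / range)^*` is injective
    let f : HomX T S →ₗ[k] (LinearMap.range (adm S T)).dualAnnihilator :=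
      { toFun := fun a => ⟨{ toFun := fun b => tp a.1 b
                             map_add' := fun b b' => tp_add_right _ _ _
                             map_smul' := fun c b => by
                               rw [tp_smul_right, RingHom.id_apply, smul_eq_mul] }, by
            rw [Submodule.mem_dualAnnihilator]
            rintro _ ⟨b, rfl⟩
            show tp a.1 (adm S T b) = 0
            rw [tp_adm, LinearMap.mem_ker.mp a.2]
            simp [tp]⟩
        map_add' := fun a a' => by
          apply Subtype.ext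
          ext b
          exact tp_add_left _ _ _
        map_smul' := fun c a => by
          apply Subtype.ext
          ext b
          exact tp_smul_left _ _ _ }
    have hf : Function.Injective f := by
      rw [injective_iff_map_eq_zero]
      intro a ha
      apply Subtype.ext
      refine eq_zero_of_tp (V := W) (W := V) fun b => ?_
      rw [tp_comm]
      exact LinearMap.congr_fun (congrArg Subtype.val ha) b
    have h1 := LinearMap.finrank_le_finrank_of_injective hf
    have h2 := Subspace.finrank_add_finrank_dualAnnihilator_eq (LinearMap.range (adm S T))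
    have h3 := LinearMap.finrank_range_add_finrank_ker (adm S T)
    have h4 : finrank k (HomX S T) = finrank k (LinearMap.ker (adm S T)) := rfl
    omega

/-- The kernel of `adm S T` and of `adm T S` have the same dimension. -/
theorem finrank_HomX_comm (S : V →ₗ[k] V) (T : W →ₗ[k] W) :
    finrank k (HomX S T) = finrank k (HomX T S) :=
  le_antisymm (finrank_HomX_le_comm T S) (finrank_HomX_le_comm S T)

/-- the sum map -/
def sumAdm (S : Fin 3 → V →ₗ[k] V) (T : Fin 3 → W →ₗ[k] W) :
    (Fin 3 → V →ₗ[k] W) →ₗ[k] (V →ₗ[k] W) :=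
  ∑ s, (adm (S s) (T s)) ∘ₗ LinearMap.proj s

omit [FiniteDimensional k V] [FiniteDimensional k W] in
theorem sumAdm_apply (S : Fin 3 → V →ₗ[k] V) (T : Fin 3 → W →ₗ[k] W) (b : Fin 3 → V →ₗ[k] W) :
    sumAdm S T b = ∑ s, adm (S s) (T s) (b s) := by
  simp [sumAdm, LinearMap.sum_apply]

/-- the infinitesimal isospectral deformations -/
def XX (S : Fin 3 → V →ₗ[k] V) (T : Fin 3 → W →ₗ[k] W) : Submodule k (Fin 3 → V →ₗ[k] W) :=
  LinearMap.ker (sumAdm S T)

omit [FiniteDimensional k V] [FiniteDimensional k W] in
theorem mem_XX {S : Fin 3 → V →ₗ[k] V} {T : Fin 3 → W →ₗ[k] W} {b : Fin 3 → V →ₗ[k] W} :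
    b ∈ XX S T ↔ ∑ s, adm (S s) (T s) (b s) = 0 := by
  rw [XX, LinearMap.mem_ker, sumAdm_apply]

/-- `dim X = 2 v w + dim Hom((W,T),(V,S))` -/
theorem le_finrank_XX (S : Fin 3 → V →ₗ[k] V) (T : Fin 3 → W →ₗ[k] W) :
    2 * (finrank k V * finrank k W) + finrank k (⨅ s, HomX (T s) (S s) : Submodule k (W →ₗ[k] V)) ≤
      finrank k (XX S T) := by
  let f : (⨅ s, HomX (T s) (S s) : Submodule k (W →ₗ[k] V)) →ₗ[k]
      (LinearMap.range (sumAdm S T)).dualAnnihilator :=
    { toFun := fun a => ⟨{ toFun := fun b => tp a.1 b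
                           map_add' := fun b b' => tp_add_right _ _ _
                           map_smul' := fun c b => by
                             rw [tp_smul_right, RingHom.id_apply, smul_eq_mul] }, by
          rw [Submodule.mem_dualAnnihilator]
          rintro _ ⟨b, rfl⟩
          show tp a.1 (sumAdm S T b) = 0
          have ha := (Submodule.mem_iInf _).mp a.2
          have h1 : ∀ s, tp a.1 (adm (S s) (T s) (b s)) = 0 := fun s => by
            rw [tp_adm, LinearMap.mem_ker.mp (ha s)]
            simp [tp]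
          rw [sumAdm_apply, Fin.sum_univ_three, tp_add_right, tp_add_right, h1, h1, h1]
          simp⟩
      map_add' := fun a a' => by
        apply Subtype.ext
        ext b
        exact tp_add_left _ _ _
      map_smul' := fun c a => by
        apply Subtype.ext
        ext b
        exact tp_smul_left _ _ _ }
  have hf : Function.Injective f := by
    rw [injective_iff_map_eq_zero]
    intro a ha
    apply Subtype.ext
    refine eq_zero_of_tp (V := W) (W := V) fun b => ?_
    rw [tp_comm]
    exact LinearMap.congr_fun (congrArg Subtype.val ha) b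
  have h1 := LinearMap.finrank_le_finrank_of_injective hf
  have h2 := Subspace.finrank_add_finrank_dualAnnihilator_eq (LinearMap.range (sumAdm S T))
  have h3 := LinearMap.finrank_range_add_finrank_ker (sumAdm S T)
  have h4 : finrank k (XX S T) = finrank k (LinearMap.ker (sumAdm S T)) := rfl
  rw [Module.finrank_linearMap] at h2
  rw [Module.finrank_pi_fintype, Finset.sum_const, Finset.card_univ, Fintype.card_fin,
    Module.finrank_linearMap, smul_eq_mul] at h3
  omega

/-- **The Hessian inequality.** -/
theorem hess_le {S : Fin 3 → V →ₗ[k] V} {T : Fin 3 → W →ₗ[k] W}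
    (hH : ∀ a ∈ XX T S, ∀ b ∈ XX S T, ∑ s, tp (a s) (adm (S s) (T s) (b s)) = 0) :
    finrank k V * finrank k W +
      finrank k (⨅ s, HomX (T s) (S s) : Submodule k (W →ₗ[k] V)) +
      finrank k (⨅ s, HomX (S s) (T s) : Submodule k (V →ₗ[k] W)) ≤
        ∑ s, finrank k (HomX (S s) (T s)) := by
  -- the map `X → E'^*`, `b ↦ TP (·, adm b)`
  let A : (Fin 3 → V →ₗ[k] W) →ₗ[k] (Fin 3 → V →ₗ[k] W) :=
    LinearMap.pi fun s => (adm (S s) (T s)) ∘ₗ LinearMap.proj s
  let g : XX S T →ₗ[k] Dual k (Fin 3 → W →ₗ[k] V) := (TPd k V W) ∘ₗ A ∘ₗ (XX S T).subtype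
  have h1 := LinearMap.finrank_range_add_finrank_ker g
  have h2 : finrank k (LinearMap.range g) ≤ finrank k (XX T S).dualAnnihilator := by
    refine Submodule.finrank_mono ?_
    rintro _ ⟨b, rfl⟩
    rw [Submodule.mem_dualAnnihilator]
    intro a ha
    exact hH a ha b.1 b.2
  have h3 := Subspace.finrank_add_finrank_dualAnnihilator_eq (XX T S)
  rw [Module.finrank_pi_fintype, Finset.sum_const, Finset.card_univ, Fintype.card_fin,
    Module.finrank_linearMap, smul_eq_mul] at h3
  have h4 : finrank k (LinearMap.ker g) ≤ ∑ s, finrank k (HomX (S s) (T s)) := by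
    let j : LinearMap.ker g →ₗ[k] (Π s, HomX (S s) (T s)) :=
      LinearMap.pi fun s => LinearMap.codRestrict _
        (LinearMap.proj s ∘ₗ (XX S T).subtype ∘ₗ (LinearMap.ker g).subtype) (fun b => by
          have hb : g b.1 = 0 := LinearMap.mem_ker.mp b.2
          have hb' : TPd k V W (A b.1.1) = 0 := hb
          have hb'' : A b.1.1 = 0 := TPd_injective (by rw [hb', map_zero])
          exact LinearMap.mem_ker.mpr (congrFun hb'' s))
    have hj : Function.Injective j := by
      intro x y hxy
      apply Subtype.ext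
      apply Subtype.ext
      funext s
      exact congrArg Subtype.val (congrFun hxy s)
    have h5 := LinearMap.finrank_le_finrank_of_injective hj
    rwa [Module.finrank_pi_fintype] at h5
  have h6 := le_finrank_XX S T
  have h7 := le_finrank_XX T S
  rw [mul_comm (finrank k W)] at h7 h3
  omega

/-- **Positivity and its equality case.** -/
theorem null_case {S : Fin 3 → V →ₗ[k] V} {T : Fin 3 → W →ₗ[k] W}
    (hSn : ∀ s, IsNilpotent (S s)) (hTn : ∀ s, IsNilpotent (T s))
    (hS0 : ∑ s, S s = 0) (hT0 : ∑ s, T s = 0)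
    (hSk : ⨅ s, LinearMap.ker (S s) = ⊥) (hSr : ⨆ s, LinearMap.range (S s) = ⊤)
    (hTk : ⨅ s, LinearMap.ker (T s) = ⊥) (hTr : ⨆ s, LinearMap.range (T s) = ⊤)
    [Nontrivial V] [Nontrivial W]
    (hH : ∀ a ∈ XX T S, ∀ b ∈ XX S T, ∑ s, tp (a s) (adm (S s) (T s) (b s)) = 0) :
    (∀ b : V →ₗ[k] W, (∀ s v, b (S s v) = T s (b v)) → b = 0) ∧
    (∀ b : W →ₗ[k] V, (∀ s v, b (T s v) = S s (b v)) → b = 0) ∧
    ∃ p : Fin 3 → ℕ, (∀ s, S s ^ p s = 0) ∧ (∀ s, T s ^ p s = 0) ∧
      (∀ s, finrank k V = p s * finrank k (LinearMap.ker (S s))) ∧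
      (∀ s, finrank k W = p s * finrank k (LinearMap.ker (T s))) ∧
      ∑ s, finrank k (LinearMap.ker (S s)) = finrank k V ∧
      ∑ s, finrank k (LinearMap.ker (T s)) = finrank k W := by
  have hV : 0 < finrank k V := finrank_pos
  have hW : 0 < finrank k W := finrank_pos
  have h1 := hess_le hH
  have hcS := sum_ker_le hS0 hSk hSr
  have hcT := sum_ker_le hT0 hTk hTr
  have hle1 : ∀ s, finrank k (HomX (S s) (T s)) ≤
      finrank k (LinearMap.ker (S s)) * finrank k W := fun s => finrank_HomX_le (hSn s) _
  have hle2 : ∀ s, finrank k (HomX (S s) (T s)) ≤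
      finrank k (LinearMap.ker (T s)) * finrank k V := fun s => by
    rw [finrank_HomX_comm]; exact finrank_HomX_le (hTn s) _
  have hs1 : ∑ s, finrank k (HomX (S s) (T s)) ≤
      (∑ s, finrank k (LinearMap.ker (S s))) * finrank k W := by
    rw [Finset.sum_mul]; exact Finset.sum_le_sum fun s _ => hle1 s
  have hs2 : ∑ s, finrank k (HomX (S s) (T s)) ≤
      (∑ s, finrank k (LinearMap.ker (T s))) * finrank k V := by
    rw [Finset.sum_mul]; exact Finset.sum_le_sum fun s _ => hle2 s
  have hm1 : (∑ s, finrank k (LinearMap.ker (S s))) * finrank k W ≤ finrank k V * finrank k W :=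
    Nat.mul_le_mul_right _ hcS
  have hm2 : (∑ s, finrank k (LinearMap.ker (T s))) * finrank k V ≤ finrank k W * finrank k V :=
    Nat.mul_le_mul_right _ hcT
  have hcomm : finrank k W * finrank k V = finrank k V * finrank k W := mul_comm _ _
  have hS' : ∑ s, finrank k (LinearMap.ker (S s)) = finrank k V := by
    refine Nat.eq_of_mul_eq_mul_right hW ?_
    omega
  have hT' : ∑ s, finrank k (LinearMap.ker (T s)) = finrank k W := by
    refine Nat.eq_of_mul_eq_mul_right hV ?_
    omega
  have heq1 : ∀ s, finrank k (HomX (S s) (T s)) =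
      finrank k (LinearMap.ker (S s)) * finrank k W := by
    have : ∑ s, finrank k (HomX (S s) (T s)) =
        ∑ s, finrank k (LinearMap.ker (S s)) * finrank k W := by
      rw [← Finset.sum_mul]; omega
    intro s
    exact (Finset.sum_eq_sum_iff_of_le fun s _ => hle1 s).mp this s (Finset.mem_univ _)
  have heq2 : ∀ s, finrank k (HomX (T s) (S s)) =
      finrank k (LinearMap.ker (T s)) * finrank k V := by
    have : ∑ s, finrank k (HomX (S s) (T s)) =
        ∑ s, finrank k (LinearMap.ker (T s)) * finrank k V := by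
      rw [← Finset.sum_mul]; omega
    intro s
    rw [← finrank_HomX_comm]
    exact (Finset.sum_eq_sum_iff_of_le fun s _ => hle2 s).mp this s (Finset.mem_univ _)
  have hz1 : finrank k (⨅ s, HomX (T s) (S s) : Submodule k (W →ₗ[k] V)) = 0 := by omega
  have hz2 : finrank k (⨅ s, HomX (S s) (T s) : Submodule k (V →ₗ[k] W)) = 0 := by omega
  refine ⟨fun b hb => ?_, fun b hb => ?_, fun s => nilpotencyClass (S s), ?_⟩
  · have : b ∈ (⨅ s, HomX (S s) (T s) : Submodule k (V →ₗ[k] W)) :=
      (Submodule.mem_iInf _).mpr fun s => mem_HomX.mpr (hb s)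
    rw [Submodule.finrank_eq_zero.mp hz2] at this
    exact (Submodule.mem_bot k).mp this
  · have : b ∈ (⨅ s, HomX (T s) (S s) : Submodule k (W →ₗ[k] V)) :=
      (Submodule.mem_iInf _).mpr fun s => mem_HomX.mpr (hb s)
    rw [Submodule.finrank_eq_zero.mp hz1] at this
    exact (Submodule.mem_bot k).mp this
  · have hq1 : ∀ s, S s ^ nilpotencyClass (S s) = 0 := fun s => pow_nilpotencyClass (hSn s)
    have hq2 : ∀ s, T s ^ nilpotencyClass (T s) = 0 := fun s => pow_nilpotencyClass (hTn s)
    have hpS : ∀ s, 0 < nilpotencyClass (S s) := fun s => pos_nilpotencyClass_iff.mpr (hSn s)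
    have hpT : ∀ s, 0 < nilpotencyClass (T s) := fun s => pos_nilpotencyClass_iff.mpr (hTn s)
    have hkerS : ∀ s, 0 < finrank k (LinearMap.ker (S s)) := fun s => by
      by_contra hcon
      have := finrank_le_mul_ker (S := S s) (nilpotencyClass (S s))
      rw [hq1 s, LinearMap.ker_zero, finrank_top] at this
      have h0 : finrank k (LinearMap.ker (S s)) = 0 := by omega
      rw [h0] at this
      omega
    have hkerT : ∀ s, 0 < finrank k (LinearMap.ker (T s)) := fun s => by
      by_contra hcon
      have := finrank_le_mul_ker (S := T s) (nilpotencyClass (T s))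
      rw [hq2 s, LinearMap.ker_zero, finrank_top] at this
      have h0 : finrank k (LinearMap.ker (T s)) = 0 := by omega
      rw [h0] at this
      omega
    have hup1 : ∀ s, finrank k V ≤ nilpotencyClass (S s) * finrank k (LinearMap.ker (S s)) :=
      fun s => by
        have := finrank_le_mul_ker (S := S s) (nilpotencyClass (S s))
        rwa [hq1 s, LinearMap.ker_zero, finrank_top] at this
    have hup2 : ∀ s, finrank k W ≤ nilpotencyClass (T s) * finrank k (LinearMap.ker (T s)) :=
      fun s => by
        have := finrank_le_mul_ker (S := T s) (nilpotencyClass (T s))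
        rwa [hq2 s, LinearMap.ker_zero, finrank_top] at this
    have hlo1 : ∀ s, nilpotencyClass (T s) * finrank k (LinearMap.ker (S s)) ≤ finrank k V :=
      fun s => by
        have hne : T s ^ (nilpotencyClass (T s) - 1) ≠ 0 := pow_pred_nilpotencyClass (hTn s)
        obtain ⟨w, hw⟩ : ∃ w, (T s ^ (nilpotencyClass (T s) - 1)) w ≠ 0 := by
          by_contra hcon
          push Not at hcon
          exact hne (LinearMap.ext hcon)
        have := mul_ker_le (hSn s) (hTn s) (heq1 s) hw
        rwa [Nat.sub_add_cancel (hpT s)] at this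
    have hlo2 : ∀ s, nilpotencyClass (S s) * finrank k (LinearMap.ker (T s)) ≤ finrank k W :=
      fun s => by
        have hne : S s ^ (nilpotencyClass (S s) - 1) ≠ 0 := pow_pred_nilpotencyClass (hSn s)
        obtain ⟨w, hw⟩ : ∃ w, (S s ^ (nilpotencyClass (S s) - 1)) w ≠ 0 := by
          by_contra hcon
          push Not at hcon
          exact hne (LinearMap.ext hcon)
        have := mul_ker_le (hTn s) (hSn s) (heq2 s) hw
        rwa [Nat.sub_add_cancel (hpS s)] at this
    have hpp : ∀ s, nilpotencyClass (S s) = nilpotencyClass (T s) := fun s =>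
      le_antisymm (Nat.le_of_mul_le_mul_right ((hlo2 s).trans (hup2 s)) (hkerT s))
        (Nat.le_of_mul_le_mul_right ((hlo1 s).trans (hup1 s)) (hkerS s))
    refine ⟨hq1, fun s => ?_, fun s => ?_, fun s => ?_, hS', hT'⟩
    · show T s ^ nilpotencyClass (S s) = 0
      rw [hpp s]; exact hq2 s
    · refine le_antisymm (hup1 s) ?_
      show nilpotencyClass (S s) * _ ≤ _
      rw [hpp s]; exact hlo1 s
    · refine le_antisymm ?_ (hlo2 s)
      show _ ≤ nilpotencyClass (S s) * _
      rw [hpp s]; exact hup2 s

end count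

end

end Vale.Agent.P182.H922
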