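import Vale.Agent.P182.H922.Split

/-!
# An orthogonal splitting forces the null case
-/

namespace Vale.Agent.P182.H922

open Module

noncomputable section

variable {L : Type*} [Field L] {W : Type*} [AddCommGroup W] [Module L W] [FiniteDimensional L W]

/-- the space of infinitesimal isospectral deformations inside `so(W)` -/
def SkewX (B : LinearMap.BilinForm L W) (S A : Fin 3 → W →ₗ[L] W) : Prop :=
  (∀ s x y, B (A s x) y = - B x (A s y)) ∧ ∑ s, cmt (A s) (S s) = 0

theorem iSup_range_eq_top {B : LinearMap.BilinForm L W} (hB : B.Nondegenerate)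
    {S : Fin 3 → W →ₗ[L] W} (hS : ∀ s x y, B (S s x) y = B x (S s y))
    (hker : ⨅ s, LinearMap.ker (S s) = ⊥) : ⨆ s, LinearMap.range (S s) = ⊤ := by
  by_contra hne
  obtain ⟨f, hf0, hf⟩ := Submodule.exists_le_ker_of_lt_top _ (lt_top_iff_ne_top.mpr hne)
  let x := (B.toDual hB).symm f
  have hx : ∀ y, B x y = f y := fun y => by
    rw [← LinearMap.BilinForm.toDual_def hB, LinearEquiv.apply_symm_apply]
  have hx0 : x ∈ ⨅ s, LinearMap.ker (S s) := by
    rw [Submodule.mem_iInf]
    intro s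
    rw [LinearMap.mem_ker]
    apply hB.1
    intro y
    rw [hS, hx]
    exact hf (Submodule.mem_iSup_of_mem s ⟨y, rfl⟩)
  rw [hker, Submodule.mem_bot] at hx0
  apply hf0
  ext y
  rw [← hx, hx0]
  simp

theorem split_null {B : LinearMap.BilinForm L W} (hB : B.Nondegenerate)
    (hsymm : ∀ x y, B x y = B y x) (h2 : (2 : L) ≠ 0) {S : Fin 3 → W →ₗ[L] W}
    (hS : ∀ s x y, B (S s x) y = B x (S s y)) (hn : ∀ s, IsNilpotent (S s)) (h0 : ∑ s, S s = 0)
    (hker : ⨅ s, LinearMap.ker (S s) = ⊥) {P : W →ₗ[L] W} (hPP : P ∘ₗ P = P)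
    (hPs : ∀ x y, B (P x) y = B x (P y)) (hPS : ∀ s, P ∘ₗ S s = S s ∘ₗ P) (hP0 : P ≠ 0)
    (hP1 : P ≠ LinearMap.id)
    (HH : ∀ A C : Fin 3 → W →ₗ[L] W, SkewX B S A → SkewX B S C →
      ∑ s, LinearMap.trace L W (C s ∘ₗ cmt P (cmt (A s) (S s))) = 0) :
    ∃ p : Fin 3 → ℕ, (∀ s, S s ^ p s = 0) ∧
      (∀ s, finrank L W = p s * finrank L (LinearMap.ker (S s))) ∧
      ∑ s, finrank L (LinearMap.ker (S s)) = finrank L W := by
  classical
  have hran := iSup_range_eq_top hB hS hker
  have hPP' : ∀ x, P (P x) = P x := fun x => LinearMap.congr_fun hPP x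
  have hPS' : ∀ s x, P (S s x) = S s (P x) := fun s x => LinearMap.congr_fun (hPS s) x
  set V1 := LinearMap.range P with hV1
  set V2 := LinearMap.ker P with hV2
  have hm1 : ∀ x ∈ V1, P x = x := by
    rintro _ ⟨y, rfl⟩
    exact hPP' y
  have hSV1 : ∀ s, ∀ x ∈ V1, S s x ∈ V1 := fun s x hx =>
    ⟨S s x, by rw [hPS', hm1 x hx]⟩
  have hSV2 : ∀ s, ∀ x ∈ V2, S s x ∈ V2 := fun s x hx => by
    rw [hV2, LinearMap.mem_ker, hPS', LinearMap.mem_ker.mp hx, map_zero]
  have hcompl : IsCompl V1 V2 := by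
    constructor
    · rw [disjoint_iff, eq_bot_iff]
      rintro x ⟨hx1, hx2⟩
      rw [Submodule.mem_bot, ← hm1 x hx1]
      exact LinearMap.mem_ker.mp hx2
    · rw [codisjoint_iff, eq_top_iff]
      intro x _
      rw [Submodule.mem_sup]
      refine ⟨P x, ⟨x, rfl⟩, x - P x, ?_, by abel⟩
      rw [hV2, LinearMap.mem_ker, map_sub, hPP', sub_self]
  -- the restrictions
  let S1 : Fin 3 → V1 →ₗ[L] V1 := fun s => (S s).restrict (hSV1 s)
  let S2 : Fin 3 → V2 →ₗ[L] V2 := fun s => (S s).restrict (hSV2 s)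
  have hS1v : ∀ s (x : V1), (S1 s x : W) = S s x := fun s x => rfl
  have hS2v : ∀ s (x : V2), (S2 s x : W) = S s x := fun s x => rfl
  have hS1pow : ∀ s n (x : V1), ((S1 s ^ n) x : W) = (S s ^ n) x := by
    intro s n
    induction n with
    | zero => intro x; simp
    | succ n ih =>
      intro x
      rw [pow_succ, pow_succ, Module.End.mul_apply, Module.End.mul_apply, ih, hS1v]
  have hS2pow : ∀ s n (x : V2), ((S2 s ^ n) x : W) = (S s ^ n) x := by
    intro s n
    induction n with
    | zero => intro x; simp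
    | succ n ih =>
      intro x
      rw [pow_succ, pow_succ, Module.End.mul_apply, Module.End.mul_apply, ih, hS2v]
  -- projections
  let p1 : W →ₗ[L] V1 := LinearMap.codRestrict V1 P (fun x => ⟨x, rfl⟩)
  let Q : W →ₗ[L] W := LinearMap.id - P
  have hQv : ∀ x, Q x = x - P x := fun x => rfl
  let p2 : W →ₗ[L] V2 := LinearMap.codRestrict V2 Q (fun x => by
    rw [hV2, LinearMap.mem_ker, hQv, map_sub, hPP', sub_self])
  have hp1v : ∀ x, (p1 x : W) = P x := fun x => rfl
  have hp2v : ∀ x, (p2 x : W) = Q x := fun x => rfl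
  have hp1s : ∀ x : V1, p1 x = x := fun x => Subtype.ext (hm1 x x.2)
  have hp2s : ∀ x : V2, p2 x = x := fun x => Subtype.ext (by
    rw [hp2v, hQv, LinearMap.mem_ker.mp x.2, sub_zero])
  have hp1S : ∀ s x, p1 (S s x) = S1 s (p1 x) := fun s x => Subtype.ext (by
    rw [hS1v, hp1v, hp1v, hPS'])
  have hp2S : ∀ s x, p2 (S s x) = S2 s (p2 x) := fun s x => Subtype.ext (by
    rw [hS2v, hp2v, hp2v, hQv, hQv, hPS', map_sub])
  -- nontriviality
  have hnt1 : Nontrivial V1 := by
    rw [Submodule.nontrivial_iff_ne_bot]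
    intro h
    apply hP0
    ext x
    have : P x ∈ V1 := ⟨x, rfl⟩
    rw [h, Submodule.mem_bot] at this
    rw [this]; rfl
  have hnt2 : Nontrivial V2 := by
    rw [Submodule.nontrivial_iff_ne_bot]
    intro h
    apply hP1
    ext x
    have : Q x ∈ V2 := (p2 x).2
    rw [h, Submodule.mem_bot, hQv] at this
    exact (sub_eq_zero.mp this).symm
  -- conditions on the restrictions
  have hn1 : ∀ s, IsNilpotent (S1 s) := fun s => by
    obtain ⟨N, hN⟩ := hn s
    refine ⟨N, ?_⟩
    ext x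
    rw [hS1pow, hN]; simp
  have hn2 : ∀ s, IsNilpotent (S2 s) := fun s => by
    obtain ⟨N, hN⟩ := hn s
    refine ⟨N, ?_⟩
    ext x
    rw [hS2pow, hN]; simp
  have h01 : ∑ s, S1 s = 0 := by
    ext x
    have := LinearMap.congr_fun h0 (x : W)
    rw [LinearMap.sum_apply] at this
    rw [LinearMap.sum_apply, AddSubmonoidClass.coe_finsetSum]
    exact this
  have h02 : ∑ s, S2 s = 0 := by
    ext x
    have := LinearMap.congr_fun h0 (x : W)
    rw [LinearMap.sum_apply] at this
    rw [LinearMap.sum_apply, AddSubmonoidClass.coe_finsetSum]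
    exact this
  have hk1 : ⨅ s, LinearMap.ker (S1 s) = ⊥ := by
    rw [eq_bot_iff]
    intro x hx
    rw [Submodule.mem_iInf] at hx
    have : (x : W) ∈ ⨅ s, LinearMap.ker (S s) := by
      rw [Submodule.mem_iInf]
      intro s
      exact congrArg Subtype.val (hx s)
    rw [hker, Submodule.mem_bot] at this
    exact (Submodule.mem_bot L).mpr (Subtype.ext this)
  have hk2 : ⨅ s, LinearMap.ker (S2 s) = ⊥ := by
    rw [eq_bot_iff]
    intro x hx
    rw [Submodule.mem_iInf] at hx
    have : (x : W) ∈ ⨅ s, LinearMap.ker (S s) := by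
      rw [Submodule.mem_iInf]
      intro s
      exact congrArg Subtype.val (hx s)
    rw [hker, Submodule.mem_bot] at this
    exact (Submodule.mem_bot L).mpr (Subtype.ext this)
  have hp1sur : LinearMap.range p1 = ⊤ := LinearMap.range_eq_top.mpr fun x => ⟨x, hp1s x⟩
  have hp2sur : LinearMap.range p2 = ⊤ := LinearMap.range_eq_top.mpr fun x => ⟨x, hp2s x⟩
  have hr1 : ⨆ s, LinearMap.range (S1 s) = ⊤ := by
    rw [eq_top_iff, ← hp1sur, LinearMap.range_eq_map, ← hran, Submodule.map_iSup, iSup_le_iff]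
    rintro s _ ⟨_, ⟨y, rfl⟩, rfl⟩
    rw [hp1S]
    exact Submodule.mem_iSup_of_mem s ⟨p1 y, rfl⟩
  have hr2 : ⨆ s, LinearMap.range (S2 s) = ⊤ := by
    rw [eq_top_iff, ← hp2sur, LinearMap.range_eq_map, ← hran, Submodule.map_iSup, iSup_le_iff]
    rintro s _ ⟨_, ⟨y, rfl⟩, rfl⟩
    rw [hp2S]
    exact Submodule.mem_iSup_of_mem s ⟨p2 y, rfl⟩
  -- orthogonality facts in terms of adjoints
  have hPadj : adj B hB P = P := adj_self hB hPs
  have hSadj : ∀ s, adj B hB (S s) = S s := fun s => adj_self hB (hS s)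
  have hcadj : ∀ (f : W →ₗ[L] W) (s : Fin 3), cmt (adj B hB f) (S s) =
      - adj B hB (cmt f (S s)) := by
    intro f s
    rw [cmt, cmt, adj_sub, adj_comp, adj_comp, hSadj]
    abel
  have hskew : ∀ (f : W →ₗ[L] W) x y, B ((f - adj B hB f) x) y = - B x ((f - adj B hB f) y) := by
    intro f x y
    rw [LinearMap.sub_apply, LinearMap.sub_apply, map_sub, map_sub, LinearMap.sub_apply,
      adj_apply, hsymm x (adj B hB f y), adj_apply, hsymm y (f x)]
    ring
  have hcs : ∀ (f g h : W →ₗ[L] W), cmt (f - g) h = cmt f h - cmt g h := by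
    intro f g h
    rw [cmt, cmt, cmt, LinearMap.sub_comp, LinearMap.comp_sub]
    abel
  -- the deformations attached to `b`
  have hSK : ∀ F : Fin 3 → W →ₗ[L] W, ∑ s, cmt (F s) (S s) = 0 →
      SkewX B S (fun s => F s - adj B hB (F s)) := by
    intro F hF
    refine ⟨fun s x y => hskew (F s) x y, ?_⟩
    have : ∀ s, cmt (F s - adj B hB (F s)) (S s) = cmt (F s) (S s) + adj B hB (cmt (F s) (S s)) := by
      intro s
      rw [hcs, hcadj, sub_neg_eq_add]
    rw [Finset.sum_congr rfl fun s _ => this s, Finset.sum_add_distrib, hF, zero_add, ← adj_sum,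
      hF, adj_zero]
  let up : (V1 →ₗ[L] V2) → (W →ₗ[L] W) := fun b => V2.subtype ∘ₗ b ∘ₗ p1
  let dn : (V2 →ₗ[L] V1) → (W →ₗ[L] W) := fun a => V1.subtype ∘ₗ a ∘ₗ p2
  have hup : ∀ b x, up b x = (b (p1 x) : W) := fun b x => rfl
  have hdn : ∀ a x, dn a x = (a (p2 x) : W) := fun a x => rfl
  have hcup : ∀ (b : V1 →ₗ[L] V2) s, cmt (up b) (S s) = up (adm (S1 s) (S2 s) b) := by
    intro b s
    ext x
    show up b (S s x) - S s (up b x) = _
    rw [hup, hup, hup, adm_apply, hp1S]
    rfl
  have hcdn : ∀ (a : V2 →ₗ[L] V1) s, cmt (dn a) (S s) = dn (adm (S2 s) (S1 s) a) := by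
    intro a s
    ext x
    show dn a (S s x) - S s (dn a x) = _
    rw [hdn, hdn, hdn, adm_apply, hp2S]
    rfl
  have hH : ∀ a ∈ XX S2 S1, ∀ b ∈ XX S1 S2, ∑ s, tp (a s) (adm (S1 s) (S2 s) (b s)) = 0 := by
    intro a ha b hb
    have hA : ∑ s, cmt (up (b s)) (S s) = 0 := by
      ext x
      have h3 := congrArg Subtype.val (LinearMap.congr_fun (mem_XX.mp hb) (p1 x))
      rw [LinearMap.sum_apply, AddSubmonoidClass.coe_finsetSum] at h3
      rw [Finset.sum_congr rfl fun s _ => hcup (b s) s, LinearMap.sum_apply]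
      exact h3
    have hC : ∑ s, cmt (dn (a s)) (S s) = 0 := by
      ext x
      have h3 := congrArg Subtype.val (LinearMap.congr_fun (mem_XX.mp ha) (p2 x))
      rw [LinearMap.sum_apply, AddSubmonoidClass.coe_finsetSum] at h3
      rw [Finset.sum_congr rfl fun s _ => hcdn (a s) s, LinearMap.sum_apply]
      exact h3
    have h3 := HH _ _ (hSK _ hA) (hSK _ hC)
    -- the computation of each term
    have h4 : ∀ s, LinearMap.trace L W ((dn (a s) - adj B hB (dn (a s))) ∘ₗ
        cmt P (cmt (up (b s) - adj B hB (up (b s))) (S s))) =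
        -2 * tp (a s) (adm (S1 s) (S2 s) (b s)) := by
      intro s
      set M := up (adm (S1 s) (S2 s) (b s)) with hM
      set Z := dn (a s) with hZ
      have hPM : P ∘ₗ M = 0 := by
        ext x
        exact LinearMap.mem_ker.mp ((adm (S1 s) (S2 s) (b s)) (p1 x)).2
      have hMP : M ∘ₗ P = M := by
        ext x
        rw [LinearMap.comp_apply, hM, hup, hup]
        congr 2
        exact Subtype.ext (hPP' x)
      have hPZ : P ∘ₗ Z = Z := by
        ext x
        exact hm1 _ ((a s) (p2 x)).2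
      have hZP : Z ∘ₗ P = 0 := by
        ext x
        rw [LinearMap.comp_apply, hZ, hdn]
        have : p2 (P x) = 0 := Subtype.ext (by rw [hp2v, hQv, hPP', sub_self]; rfl)
        rw [this, map_zero]; rfl
      have e1 : cmt (up (b s) - adj B hB (up (b s))) (S s) = M + adj B hB M := by
        rw [hcs, hcadj, sub_neg_eq_add, hcup]
      have hMa : P ∘ₗ adj B hB M = adj B hB M := by
        conv_lhs => rw [← hPadj]
        rw [← adj_comp, hMP]
      have hMa' : adj B hB M ∘ₗ P = 0 := by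
        conv_lhs => rw [← hPadj]
        rw [← adj_comp, hPM, adj_zero]
      have e2 : cmt P (M + adj B hB M) = adj B hB M - M := by
        rw [cmt, LinearMap.comp_add, LinearMap.add_comp, hPM, hMP, hMa, hMa']
        abel
      have hZa : adj B hB Z ∘ₗ P = adj B hB Z := by
        conv_lhs => rw [← hPadj]
        rw [← adj_comp, hPZ]
      have e3 : Z ∘ₗ adj B hB M = 0 := by
        rw [← hMa, ← LinearMap.comp_assoc, hZP, LinearMap.zero_comp]
      have e4 : adj B hB Z ∘ₗ M = 0 := by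
        rw [← hZa, LinearMap.comp_assoc, hPM, LinearMap.comp_zero]
      have e5 : (Z - adj B hB Z) ∘ₗ (adj B hB M - M) = - (Z ∘ₗ M) - adj B hB (M ∘ₗ Z) := by
        rw [LinearMap.sub_comp, LinearMap.comp_sub, LinearMap.comp_sub, e3, e4, adj_comp]
        abel
      have e6 : LinearMap.trace L W (Z ∘ₗ M) = tp (a s) (adm (S1 s) (S2 s) (b s)) := by
        have : Z ∘ₗ M = V1.subtype ∘ₗ ((a s) ∘ₗ (adm (S1 s) (S2 s) (b s)) ∘ₗ p1) := by
          ext x
          rw [LinearMap.comp_apply, hZ, hdn, hM, hup, hp2s]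
          rfl
        rw [this, LinearMap.trace_comp_comm']
        have h5 : ((a s) ∘ₗ (adm (S1 s) (S2 s) (b s)) ∘ₗ p1) ∘ₗ V1.subtype =
            (a s) ∘ₗ (adm (S1 s) (S2 s) (b s)) := by
          ext x
          simp only [LinearMap.comp_apply, Submodule.subtype_apply, hp1s]
        rw [h5]
        unfold tp
        exact LinearMap.trace_comp_comm' _ _
      have e7 : LinearMap.trace L W (M ∘ₗ Z) = LinearMap.trace L W (Z ∘ₗ M) :=
        LinearMap.trace_comp_comm' _ _
      rw [e1, e2, e5, map_sub, map_neg, trace_adj, e7, e6]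
      ring
    rw [Finset.sum_congr rfl fun s _ => h4 s, ← Finset.mul_sum] at h3
    exact (mul_eq_zero.mp h3).resolve_left (neg_ne_zero.mpr h2)
  obtain ⟨_, _, p, hp1, hp2, hd1, hd2, hs1, hs2⟩ :=
    null_case hn1 hn2 h01 h02 hk1 hr1 hk2 hr2 hH
  have hdim : finrank L V1 + finrank L V2 = finrank L W :=
    Submodule.finrank_add_eq_of_isCompl hcompl
  have hkd : ∀ s, finrank L (LinearMap.ker (S s)) =
      finrank L (LinearMap.ker (S1 s)) + finrank L (LinearMap.ker (S2 s)) := by
    intro s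
    let e : LinearMap.ker (S s) ≃ₗ[L] LinearMap.ker (S1 s) × LinearMap.ker (S2 s) :=
      { toFun := fun x => (⟨p1 x, by
            rw [LinearMap.mem_ker, ← hp1S, LinearMap.mem_ker.mp x.2, map_zero]⟩,
          ⟨p2 x, by rw [LinearMap.mem_ker, ← hp2S, LinearMap.mem_ker.mp x.2, map_zero]⟩)
        map_add' := fun x y => by
          refine Prod.ext (Subtype.ext ?_) (Subtype.ext ?_)
          · exact map_add p1 (x : W) y
          · exact map_add p2 (x : W) y
        map_smul' := fun c x => by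
          refine Prod.ext (Subtype.ext ?_) (Subtype.ext ?_)
          · exact map_smul p1 c (x : W)
          · exact map_smul p2 c (x : W)
        invFun := fun x => ⟨(x.1.1 : W) + (x.2.1 : W), by
          rw [LinearMap.mem_ker, map_add]
          have h5 : S s (x.1.1 : W) = 0 := congrArg Subtype.val (LinearMap.mem_ker.mp x.1.2)
          have h6 : S s (x.2.1 : W) = 0 := congrArg Subtype.val (LinearMap.mem_ker.mp x.2.2)
          rw [h5, h6, add_zero]⟩
        left_inv := fun x => by
          apply Subtype.ext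
          show (p1 (x : W) : W) + (p2 (x : W) : W) = x
          rw [hp1v, hp2v, hQv]
          abel
        right_inv := fun x => by
          have h7 : p1 (x.2.1 : W) = 0 := Subtype.ext (by
            rw [hp1v, LinearMap.mem_ker.mp x.2.1.2]; rfl)
          have h8 : p2 (x.1.1 : W) = 0 := Subtype.ext (by
            rw [hp2v, hQv, hm1 _ x.1.1.2, sub_self]; rfl)
          refine Prod.ext (Subtype.ext ?_) (Subtype.ext ?_)
          · show p1 ((x.1.1 : W) + (x.2.1 : W)) = x.1.1
            rw [map_add, h7, hp1s, add_zero]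
          · show p2 ((x.1.1 : W) + (x.2.1 : W)) = x.2.1
            rw [map_add, h8, hp2s, zero_add] }
    rw [e.finrank_eq, Module.finrank_prod]
  refine ⟨p, fun s => ?_, fun s => ?_, ?_⟩
  · ext x
    have h5 : x = (p1 x : W) + (p2 x : W) := by
      rw [hp1v, hp2v, hQv]; abel
    rw [h5, map_add, ← hS1pow, ← hS2pow, hp1 s, hp2 s]
    simp
  · rw [hkd, mul_add, ← hd1 s, ← hd2 s, hdim]
  · rw [Finset.sum_congr rfl fun s _ => hkd s, Finset.sum_add_distrib, hs1, hs2, hdim]

end

end Vale.Agent.P182.H922
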