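import Vale.Agent.P182.H922.CritN
import Vale.Agent.P182.H578.RuleOff

/-!
# The null case: the subspaces `HH s`

`C` is the core of `t`, `V₁ = C.V1`, `P = C.P` the projection, `D` the endomorphism of `V₁` given
by `t'`.  `HH s` is the space of all endomorphisms `h` of `V₁` such that `h P t`, on the arm `s`,
is congruent modulo `n_s` to a family `r` with good core part which lies in `n_a` for the other two
arms (notes E1, E2 of helper534).
-/

namespace Vale.Agent.P182.H922

open Module Matrix Vale.Agent.P182.H533 Vale.Agent.P182.B1 Vale.Agent.P182.H578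

section defs

variable {L V J : Type*} [Field L] [AddCommGroup V] [Module L V] [FiniteDimensional L V]
  [Fintype J] [DecidableEq J] {𝒟 : Cfg L V J}

/-- families with good core part -/
structure Rm (hG : 𝒟.Good) {t : J → V} (C : Core 𝒟.q (Res 𝒟 t)) (r : J → V) : Prop where
  core : ∃ M : End L C.V1, IsSA C.q1 M ∧ (∀ s, M * C.S1 hG.form s = C.S1 hG.form s * M) ∧
    ∀ l, C.P hG.form (r l) = M (C.P hG.form (t l))
  off : ∀ a, ∀ v ∈ perp 𝒟.q C.W,
    C.P hG.form (opr 𝒟.q (Tt L t) (Gm 𝒟.arm 𝒟.Ω a) (Tt L r) v) = 0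

omit [FiniteDimensional L V] in
theorem sa_add {q : V →ₗ[L] V →ₗ[L] L} {A B : End L V} (hA : IsSA q A) (hB : IsSA q B) :
    IsSA q (A + B) := fun u v => by
  rw [LinearMap.add_apply, LinearMap.add_apply, map_add, map_add, LinearMap.add_apply, hA, hB]

omit [FiniteDimensional L V] in
theorem sa_smul {q : V →ₗ[L] V →ₗ[L] L} {A : End L V} (hA : IsSA q A) (c : L) :
    IsSA q (c • A) := fun u v => by
  rw [LinearMap.smul_apply, LinearMap.smul_apply, map_smul, map_smul, LinearMap.smul_apply, hA]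

theorem Rm.zero (hG : 𝒟.Good) {t : J → V} (C : Core 𝒟.q (Res 𝒟 t)) : Rm hG C 0 where
  core := ⟨0, fun u v => by simp, fun s => by simp, fun l => by simp⟩
  off a v _ := by
    have : Tt L (0 : J → V) = 0 := LinearMap.ext fun x => by simp [Tt_apply]
    rw [this]
    have h2 : opr 𝒟.q (Tt L t) (Gm 𝒟.arm 𝒟.Ω a) (0 : (J → L) →ₗ[L] V) = 0 := by
      have := opr_smul_right 𝒟.q (Tt L t) (Gm 𝒟.arm 𝒟.Ω a) (0 : L) (0 : (J → L) →ₗ[L] V)
      rwa [zero_smul, zero_smul] at this
    rw [h2, LinearMap.zero_apply, map_zero]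

theorem Rm.add {hG : 𝒟.Good} {t : J → V} {C : Core 𝒟.q (Res 𝒟 t)} {r r' : J → V}
    (h : Rm hG C r) (h' : Rm hG C r') : Rm hG C (r + r') where
  core := by
    obtain ⟨M, h1, h2, h3⟩ := h.core
    obtain ⟨M', h1', h2', h3'⟩ := h'.core
    exact ⟨M + M', sa_add h1 h1', fun s => by rw [add_mul, mul_add, h2, h2'], fun l => by
      rw [Pi.add_apply, map_add, h3, h3', LinearMap.add_apply]⟩
  off a v hv := by
    rw [Tt_add, opr_add_right, LinearMap.add_apply, map_add, h.off a v hv, h'.off a v hv,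
      add_zero]

theorem Rm.smul {hG : 𝒟.Good} {t : J → V} {C : Core 𝒟.q (Res 𝒟 t)} {r : J → V}
    (h : Rm hG C r) (c : L) : Rm hG C (c • r) where
  core := by
    obtain ⟨M, h1, h2, h3⟩ := h.core
    exact ⟨c • M, sa_smul h1 c, fun s => by rw [smul_mul_assoc, mul_smul_comm, h2], fun l => by
      rw [Pi.smul_apply, map_smul, h3, LinearMap.smul_apply]⟩
  off a v hv := by
    rw [Tt_smul, opr_smul_right, LinearMap.smul_apply, map_smul, h.off a v hv, smul_zero]

/-- **The subspaces `HH s` of `End V₁`.** -/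
def HH (hG : 𝒟.Good) {t : J → V} (C : Core 𝒟.q (Res 𝒟 t)) (s : Fin 3) :
    Submodule L (End L C.V1) where
  carrier := {h | ∃ r : J → V, Rm hG C r ∧
    (∀ l, 𝒟.arm l = s → (h (C.P hG.form (t l)) : V) - r l ∈ 𝒟.C l ∧
      (h (C.P hG.form (𝒟.om t l)) : V) - 𝒟.om r l ∈ perp 𝒟.q (𝒟.C l)) ∧
    ∀ l, 𝒟.arm l ≠ s → r l ∈ 𝒟.C l ∧ 𝒟.om r l ∈ perp 𝒟.q (𝒟.C l)}
  zero_mem' := ⟨0, Rm.zero hG C, fun l _ => by
      have : 𝒟.om (0 : J → V) l = 0 := by simp [Cfg.om]
      rw [this]
      simp, fun l _ => by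
      have : 𝒟.om (0 : J → V) l = 0 := by simp [Cfg.om]
      rw [this]
      simp⟩
  add_mem' := by
    rintro h h' ⟨r, h1, h2, h3⟩ ⟨r', h1', h2', h3'⟩
    refine ⟨r + r', h1.add h1', fun l hl => ?_, fun l hl => ?_⟩
    · constructor
      · have := add_mem (h2 l hl).1 (h2' l hl).1
        convert this using 1
        rw [LinearMap.add_apply, Submodule.coe_add, Pi.add_apply]
        abel
      · have := add_mem (h2 l hl).2 (h2' l hl).2
        convert this using 1
        rw [LinearMap.add_apply, Submodule.coe_add, om_add]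
        abel
    · rw [om_add]
      exact ⟨add_mem (h3 l hl).1 (h3' l hl).1, add_mem (h3 l hl).2 (h3' l hl).2⟩
  smul_mem' := by
    rintro c h ⟨r, h1, h2, h3⟩
    refine ⟨c • r, h1.smul c, fun l hl => ?_, fun l hl => ?_⟩
    · constructor
      · have := Submodule.smul_mem _ c (h2 l hl).1
        convert this using 1
        rw [LinearMap.smul_apply, Submodule.coe_smul, Pi.smul_apply, smul_sub]
      · have := Submodule.smul_mem _ c (h2 l hl).2
        convert this using 1
        rw [LinearMap.smul_apply, Submodule.coe_smul, om_smul, smul_sub]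
    · rw [om_smul]
      exact ⟨Submodule.smul_mem _ c (h3 l hl).1, Submodule.smul_mem _ c (h3 l hl).2⟩

/-- good parameters: `t + λ t'` has the same core, and `D` is central -/
structure GoodL (hG : 𝒟.Good) {t t' : J → V} (C : Core 𝒟.q (Res 𝒟 t)) (D : End L C.V1)
    (x : L) : Prop where
  unit : IsUnit (1 + x • D)
  central : ∀ M : End L C.V1, IsSA C.q1 M →
    (∀ s, M * ((1 + x • D) ^ 2 * C.S1 hG.form s) = (1 + x • D) ^ 2 * C.S1 hG.form s * M) →
    M * D = D * M
  nil : ∃ N, H533.words (Res 𝒟 (t + x • t')) N ≤ C.W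

end defs

end Vale.Agent.P182.H922
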