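import Mathlib

/-!
# Positivity of the Euler form for three nilpotent endomorphisms with zero sum

No Jordan blocks are used.
-/

namespace Vale.Agent.P182.H922

open Module

section adm

variable {k : Type*} [Field k] {V W : Type*} [AddCommGroup V] [Module k V] [AddCommGroup W]
  [Module k W]

/-- `b ↦ b S − T b` -/
def adm (S : V →ₗ[k] V) (T : W →ₗ[k] W) : (V →ₗ[k] W) →ₗ[k] (V →ₗ[k] W) :=
  LinearMap.lcomp k W S - LinearMap.llcomp k V W W T

@[simp] theorem adm_apply (S : V →ₗ[k] V) (T : W →ₗ[k] W) (b : V →ₗ[k] W) :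
    adm S T b = b ∘ₗ S - T ∘ₗ b := rfl

/-- the space of homomorphisms `(V,S) → (W,T)` -/
def HomX (S : V →ₗ[k] V) (T : W →ₗ[k] W) : Submodule k (V →ₗ[k] W) := LinearMap.ker (adm S T)

theorem mem_HomX {S : V →ₗ[k] V} {T : W →ₗ[k] W} {b : V →ₗ[k] W} :
    b ∈ HomX S T ↔ ∀ v, b (S v) = T (b v) := by
  rw [HomX, LinearMap.mem_ker, adm_apply, sub_eq_zero]
  constructor
  · intro h v
    exact LinearMap.congr_fun h v
  · intro h
    ext v
    exact h v

theorem HomX_pow {S : V →ₗ[k] V} {T : W →ₗ[k] W} {b : V →ₗ[k] W} (hb : b ∈ HomX S T) (n : ℕ)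
    (v : V) : b ((S ^ n) v) = (T ^ n) (b v) := by
  induction n generalizing v with
  | zero => simp
  | succ n ih => rw [pow_succ, pow_succ, Module.End.mul_apply, Module.End.mul_apply, ih,
      mem_HomX.mp hb]

/-- the restriction of homomorphisms to `G` -/
def resG (S : V →ₗ[k] V) (T : W →ₗ[k] W) (G : Submodule k V) : HomX S T →ₗ[k] (G →ₗ[k] W) :=
  (LinearMap.lcomp k W G.subtype) ∘ₗ (HomX S T).subtype

@[simp] theorem resG_apply (S : V →ₗ[k] V) (T : W →ₗ[k] W) (G : Submodule k V) (b : HomX S T)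
    (g : G) : resG S T G b g = b.1 g := rfl

theorem resG_injective {S : V →ₗ[k] V} (hS : IsNilpotent S) {T : W →ₗ[k] W} {G : Submodule k V}
    (hG : LinearMap.range S ⊔ G = ⊤) : Function.Injective (resG S T G) := by
  rw [injective_iff_map_eq_zero]
  rintro ⟨b, hb⟩ h0
  have hg : ∀ g ∈ G, b g = 0 := fun g hg => LinearMap.congr_fun h0 ⟨g, hg⟩
  have h1 : ∀ v, ∃ w, b v = b (S w) := by
    intro v
    have hv : v ∈ LinearMap.range S ⊔ G := by rw [hG]; exact Submodule.mem_top
    obtain ⟨_, ⟨w, rfl⟩, g, hg', rfl⟩ := Submodule.mem_sup.mp hv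
    exact ⟨w, by rw [map_add, hg g hg', add_zero]⟩
  have h2 : ∀ n, ∀ v, ∃ w, b v = b ((S ^ n) w) := by
    intro n
    induction n with
    | zero => intro v; exact ⟨v, by simp⟩
    | succ n ih =>
      intro v
      obtain ⟨w, hw⟩ := h1 v
      obtain ⟨w', hw'⟩ := ih w
      refine ⟨w', ?_⟩
      rw [hw, mem_HomX.mp hb, hw', ← mem_HomX.mp hb, pow_succ', Module.End.mul_apply]
  obtain ⟨N, hN⟩ := hS
  have h3 : b = 0 := by
    ext v
    obtain ⟨w, hw⟩ := h2 N v
    rw [hw, hN]
    simp
  exact Subtype.ext h3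

variable [FiniteDimensional k V] [FiniteDimensional k W]

theorem finrank_compl_range {S : V →ₗ[k] V} {G : Submodule k V}
    (hG : IsCompl (LinearMap.range S) G) : finrank k G = finrank k (LinearMap.ker S) := by
  have h1 := Submodule.finrank_add_eq_of_isCompl hG
  have h2 := LinearMap.finrank_range_add_finrank_ker S
  omega

theorem finrank_HomX_le {S : V →ₗ[k] V} (hS : IsNilpotent S) (T : W →ₗ[k] W) :
    finrank k (HomX S T) ≤ finrank k (LinearMap.ker S) * finrank k W := by
  obtain ⟨G, hG⟩ := (LinearMap.range S).exists_isCompl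
  have h1 := LinearMap.finrank_le_finrank_of_injective (resG_injective (T := T) hS hG.sup_eq_top)
  rwa [Module.finrank_linearMap, finrank_compl_range hG] at h1

theorem finrank_le_mul_ker {S : V →ₗ[k] V} (n : ℕ) :
    finrank k (LinearMap.ker (S ^ n)) ≤ n * finrank k (LinearMap.ker S) := by
  induction n with
  | zero =>
    have : LinearMap.ker (S ^ 0) = ⊥ := by
      rw [pow_zero]; exact LinearMap.ker_eq_bot.mpr fun x y h => h
    rw [this]; simp
  | succ n ih =>
    -- `S ^ n` maps `ker S ^ (n+1)` to `ker S` with kernel in `ker S ^ n`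
    let f : LinearMap.ker (S ^ (n + 1)) →ₗ[k] LinearMap.ker S :=
      LinearMap.restrict (S ^ n) (fun x hx => by
        rw [LinearMap.mem_ker] at hx ⊢
        rw [← Module.End.mul_apply, ← pow_succ']
        exact hx)
    have h1 := LinearMap.finrank_range_add_finrank_ker f
    have h2 : finrank k (LinearMap.range f) ≤ finrank k (LinearMap.ker S) :=
      Submodule.finrank_le _
    have h3 : finrank k (LinearMap.ker f) ≤ finrank k (LinearMap.ker (S ^ n)) := by
      let g : LinearMap.ker f →ₗ[k] LinearMap.ker (S ^ n) :=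
        LinearMap.codRestrict _ ((LinearMap.ker (S ^ (n + 1))).subtype ∘ₗ
          (LinearMap.ker f).subtype) (fun x => by
            have := LinearMap.mem_ker.mp x.2
            have h := congrArg Subtype.val this
            exact h)
      refine LinearMap.finrank_le_finrank_of_injective (f := g) ?_
      intro x y h
      have := congrArg Subtype.val h
      exact Subtype.ext (Subtype.ext this)
    rw [Nat.succ_mul]
    omega

/-- If all linear maps `G → W` extend to homomorphisms and `T^(p-1) ≠ 0` then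
`p · dim ker S ≤ dim V`. -/
theorem mul_ker_le {S : V →ₗ[k] V} (hS : IsNilpotent S) {T : W →ₗ[k] W} (hT : IsNilpotent T)
    (h : finrank k (HomX S T) = finrank k (LinearMap.ker S) * finrank k W) {p : ℕ} {w : W}
    (hp : (T ^ p) w ≠ 0) : (p + 1) * finrank k (LinearMap.ker S) ≤ finrank k V := by
  classical
  obtain ⟨G, hG⟩ := (LinearMap.range S).exists_isCompl
  have hinj := resG_injective (T := T) hS hG.sup_eq_top
  have hsur : Function.Surjective (resG S T G) := by
    refine (LinearMap.injective_iff_surjective_of_finrank_eq_finrank ?_).mp hinj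
    rw [h, Module.finrank_linearMap, finrank_compl_range hG]
  -- the last nonvanishing power
  obtain ⟨m, hm1, hm2⟩ : ∃ m, (T ^ m) w ≠ 0 ∧ (T ^ (m + 1)) w = 0 := by
    by_contra hcon
    push Not at hcon
    have hall : ∀ m, (T ^ m) w ≠ 0 := by
      intro m
      induction m with
      | zero =>
        intro h0
        apply hp
        rw [pow_zero, Module.End.one_apply] at h0
        rw [h0, map_zero]
      | succ m ih => exact hcon m ih
    obtain ⟨N, hN⟩ := hT
    exact hall N (by rw [hN]; simp)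
  have hz : ∀ j, m < j → (T ^ j) w = 0 := by
    intro j hj
    obtain ⟨i, rfl⟩ := Nat.exists_eq_add_of_lt hj
    rw [show m + i + 1 = i + (m + 1) by ring, pow_add, Module.End.mul_apply, hm2, map_zero]
  have hpm : p ≤ m := by
    by_contra hlt
    exact hp (hz p (by omega))
  let Ψ : (Fin (m + 1) → G) →ₗ[k] V :=
    ∑ j : Fin (m + 1), (S ^ (j : ℕ)) ∘ₗ G.subtype ∘ₗ LinearMap.proj j
  have hΨ : ∀ g, Ψ g = ∑ j : Fin (m + 1), (S ^ (j : ℕ)) (g j : V) := fun g => by
    simp [Ψ, LinearMap.sum_apply]
  have hΨinj : Function.Injective Ψ := by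
    rw [injective_iff_map_eq_zero]
    intro g hg
    by_contra hne
    -- least index
    obtain ⟨j0, hj0, hj0'⟩ : ∃ j : Fin (m + 1), g j ≠ 0 ∧ ∀ i < j, g i = 0 := by
      have hex : ∃ n : ℕ, ∃ hn : n < m + 1, g ⟨n, hn⟩ ≠ 0 := by
        by_contra hcon
        push Not at hcon
        exact hne (funext fun j => hcon j.1 j.2)
      refine ⟨⟨Nat.find hex, (Nat.find_spec hex).1⟩, (Nat.find_spec hex).2, fun i hi => ?_⟩
      by_contra hgi
      exact Nat.find_min hex hi ⟨i.2, hgi⟩
    obtain ⟨ℓ, hℓ⟩ : ∃ ℓ : Dual k G, ℓ (g j0) ≠ 0 := by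
      by_contra hcon
      push Not at hcon
      exact hj0 ((Module.forall_dual_apply_eq_zero_iff k (g j0)).mp hcon)
    obtain ⟨b, hb⟩ := hsur (LinearMap.smulRight ℓ w)
    have hbg : ∀ x : G, b.1 (x : V) = ℓ x • w := fun x => by
      rw [← resG_apply, hb]; rfl
    have h1 : b.1 (Ψ g) = 0 := by rw [hg, map_zero]
    rw [hΨ, map_sum] at h1
    have h2 : ∑ j : Fin (m + 1), ℓ (g j) • (T ^ (j : ℕ)) w = 0 := by
      rw [← h1]
      refine Finset.sum_congr rfl fun j _ => ?_
      rw [HomX_pow b.2, hbg, map_smul]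
    have h3 := congrArg (T ^ (m - (j0 : ℕ))) h2
    rw [map_zero, map_sum, Finset.sum_eq_single j0] at h3
    · rw [map_smul, ← Module.End.mul_apply, ← pow_add] at h3
      have h4 : m - (j0 : ℕ) + j0 = m := by have := j0.2; omega
      rw [h4] at h3
      exact (smul_ne_zero hℓ hm1) h3
    · intro j _ hj
      rw [map_smul, ← Module.End.mul_apply, ← pow_add]
      rcases lt_or_gt_of_ne hj with hlt | hgt
      · rw [hj0' j hlt, map_zero, zero_smul]
      · rw [hz _ (by
          have : (j0 : ℕ) < j := hgt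
          have := j0.2
          omega), smul_zero]
    · intro h; exact absurd (Finset.mem_univ _) h
  have h5 := LinearMap.finrank_le_finrank_of_injective hΨinj
  rw [Module.finrank_pi_fintype, Finset.sum_const, Finset.card_univ, Fintype.card_fin,
    smul_eq_mul, finrank_compl_range hG] at h5
  exact le_trans (Nat.mul_le_mul_right _ (by omega)) h5

/-- `Σ dim ker S_s ≤ dim V` -/
theorem sum_ker_le {S : Fin 3 → V →ₗ[k] V} (h0 : ∑ s, S s = 0)
    (hker : ⨅ s, LinearMap.ker (S s) = ⊥) (hran : ⨆ s, LinearMap.range (S s) = ⊤) :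
    ∑ s, finrank k (LinearMap.ker (S s)) ≤ finrank k V := by
  let α : V →ₗ[k] (Π s : Fin 3, LinearMap.range (S s)) :=
    LinearMap.pi fun s => LinearMap.rangeRestrict (S s)
  let β : (Π s : Fin 3, LinearMap.range (S s)) →ₗ[k] V :=
    ∑ s, (LinearMap.range (S s)).subtype ∘ₗ LinearMap.proj s
  have hβ : ∀ x, β x = ∑ s, (x s : V) := fun x => by simp [β, LinearMap.sum_apply]
  have hα : Function.Injective α := by
    rw [injective_iff_map_eq_zero]
    intro v hv
    have : v ∈ ⨅ s, LinearMap.ker (S s) := by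
      rw [Submodule.mem_iInf]
      intro s
      rw [LinearMap.mem_ker]
      exact congrArg Subtype.val (congrFun hv s)
    rw [hker] at this
    exact (Submodule.mem_bot k).mp this
  have hβs : LinearMap.range β = ⊤ := by
    rw [eq_top_iff, ← hran, iSup_le_iff]
    rintro s _ ⟨v, rfl⟩
    refine ⟨Pi.single s ⟨S s v, v, rfl⟩, ?_⟩
    rw [hβ, Finset.sum_eq_single s]
    · rw [Pi.single_eq_same]
    · intro t _ ht
      rw [Pi.single_eq_of_ne ht]; rfl
    · intro h; exact absurd (Finset.mem_univ _) h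
  have hle : LinearMap.range α ≤ LinearMap.ker β := by
    rintro _ ⟨v, rfl⟩
    rw [LinearMap.mem_ker, hβ]
    show ∑ s, S s v = 0
    rw [← LinearMap.sum_apply, h0, LinearMap.zero_apply]
  have h1 : finrank k (LinearMap.range α) = finrank k V := LinearMap.finrank_range_of_inj hα
  have h2 := Submodule.finrank_mono hle
  have h3 := LinearMap.finrank_range_add_finrank_ker β
  rw [hβs, finrank_top, Module.finrank_pi_fintype] at h3
  have h4 : ∀ s, finrank k (LinearMap.range (S s)) + finrank k (LinearMap.ker (S s)) =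
      finrank k V := fun s => LinearMap.finrank_range_add_finrank_ker (S s)
  have h5 : ∑ s, finrank k (LinearMap.range (S s)) + ∑ s, finrank k (LinearMap.ker (S s)) =
      3 * finrank k V := by
    rw [← Finset.sum_add_distrib, Finset.sum_congr rfl fun s _ => h4 s]
    simp
  omega

end adm

end Vale.Agent.P182.H922
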