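import Vale.Agent.P182.H922.Dicho
import Vale.Agent.P182.H922.Compare

/-!
# Nilpotency of `t' - d t`
-/

namespace Vale.Agent.P182.H922

open Module Matrix Vale.Agent.P182.H533

section nilon

variable {L V : Type*} [Field L] [AddCommGroup V] [Module L V]

/-- `f ^ N` maps `M₁` to `M₂` for some `N` -/
def NilOn (f : End L V) (M₁ M₂ : Submodule L V) : Prop := ∃ N : ℕ, ∀ v ∈ M₁, (f ^ N) v ∈ M₂

theorem pow_mem {f : End L V} {M : Submodule L V} (h : ∀ v ∈ M, f v ∈ M) (n : ℕ) :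
    ∀ v ∈ M, (f ^ n) v ∈ M := by
  induction n with
  | zero => intro v hv; simpa using hv
  | succ n ih =>
    intro v hv
    rw [pow_succ', Module.End.mul_apply]
    exact h _ (ih v hv)

theorem NilOn.pow_of_le {f : End L V} {M₁ M₂ : Submodule L V} (h1 : ∀ v ∈ M₁, f v ∈ M₁) {N m : ℕ}
    (hN : ∀ v ∈ M₁, (f ^ N) v ∈ M₂) (hm : N ≤ m) : ∀ v ∈ M₁, (f ^ m) v ∈ M₂ := by
  intro v hv
  obtain ⟨k, rfl⟩ := Nat.exists_eq_add_of_le hm
  rw [pow_add, Module.End.mul_apply]
  exact hN _ (pow_mem h1 k v hv)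

theorem NilOn.add {f g : End L V} {M₁ M₂ : Submodule L V} (hfg : Commute f g)
    (hf1 : ∀ v ∈ M₁, f v ∈ M₁) (hg1 : ∀ v ∈ M₁, g v ∈ M₁) (hf2 : ∀ v ∈ M₂, f v ∈ M₂)
    (hf : NilOn f M₁ M₂) (hg : NilOn g M₁ M₂) : NilOn (f + g) M₁ M₂ := by
  obtain ⟨N, hN⟩ := hf
  obtain ⟨N', hN'⟩ := hg
  refine ⟨N + N', fun v hv => ?_⟩
  rw [hfg.add_pow, LinearMap.sum_apply]
  refine Submodule.sum_mem _ fun m hm => ?_
  have h3 : (f ^ m * g ^ (N + N' - m) * ((N + N').choose m : End L V)) v =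
      ((N + N').choose m : L) • (f ^ m) ((g ^ (N + N' - m)) v) := by
    rw [Module.End.mul_apply, Module.End.mul_apply]
    have : ((N + N').choose m : End L V) v = ((N + N').choose m : L) • v := by
      rw [Module.End.natCast_apply, Nat.cast_smul_eq_nsmul]
    rw [this, map_smul, map_smul]
  rw [h3]
  apply Submodule.smul_mem
  by_cases hmN : N ≤ m
  · exact NilOn.pow_of_le hf1 hN hmN _ (pow_mem hg1 _ v hv)
  · exact pow_mem hf2 m _ (NilOn.pow_of_le hg1 hN' (by omega) v hv)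

theorem NilOn.smul {f : End L V} {M₁ M₂ : Submodule L V} (c : L) (hf : NilOn f M₁ M₂) :
    NilOn (c • f) M₁ M₂ := by
  obtain ⟨N, hN⟩ := hf
  refine ⟨N, fun v hv => ?_⟩
  rw [smul_pow, LinearMap.smul_apply]
  exact Submodule.smul_mem _ _ (hN v hv)

theorem NilOn.mul {f g : End L V} {M₁ M₂ : Submodule L V} (hfg : Commute f g)
    (hg1 : ∀ v ∈ M₁, g v ∈ M₁) (hf : NilOn f M₁ M₂) : NilOn (f * g) M₁ M₂ := by
  obtain ⟨N, hN⟩ := hf
  refine ⟨N, fun v hv => ?_⟩
  rw [hfg.mul_pow, Module.End.mul_apply]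
  exact hN _ (pow_mem hg1 N v hv)

theorem NilOn.of_sq {f : End L V} {M₁ M₂ : Submodule L V} (h : NilOn (f * f) M₁ M₂) :
    NilOn f M₁ M₂ := by
  obtain ⟨N, hN⟩ := h
  refine ⟨2 * N, fun v hv => ?_⟩
  rw [pow_mul, sq]
  exact hN v hv

/-- the basic combination -/
theorem NilOn.comb {A B G : End L V} {M₁ M₂ : Submodule L V} (hAB : Commute A B)
    (hAG : Commute A G) (hBG : Commute B G) (hG : G * G = B * A)
    (hA1 : ∀ v ∈ M₁, A v ∈ M₁) (hB1 : ∀ v ∈ M₁, B v ∈ M₁) (hG1 : ∀ v ∈ M₁, G v ∈ M₁)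
    (hA2 : ∀ v ∈ M₂, A v ∈ M₂) (hG2 : ∀ v ∈ M₂, G v ∈ M₂)
    (hA : NilOn A M₁ M₂) (hB : NilOn B M₁ M₂) : NilOn (A - (2 : L) • G + B) M₁ M₂ := by
  have h1 : NilOn G M₁ M₂ := by
    apply NilOn.of_sq
    rw [hG]
    exact NilOn.mul hAB.symm hA1 hB
  have h2 : NilOn ((-2 : L) • G) M₁ M₂ := h1.smul _
  have e1 : A - (2 : L) • G + B = (A + (-2 : L) • G) + B := by
    rw [neg_smul, sub_eq_add_neg]
  rw [e1]
  refine NilOn.add ?_ ?_ hB1 ?_ (NilOn.add ?_ hA1 ?_ hA2 hA h2) hB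
  · exact hAB.add_left ((hBG.symm).smul_left _)
  · intro v hv
    exact Submodule.add_mem _ (hA1 v hv) (Submodule.smul_mem _ _ (hG1 v hv))
  · intro v hv
    exact Submodule.add_mem _ (hA2 v hv) (Submodule.smul_mem _ _ (hG2 v hv))
  · exact hAG.smul_right _
  · intro v hv
    exact Submodule.smul_mem _ _ (hG1 v hv)

end nilon

section six

variable {L V J : Type*} [Field L] [AddCommGroup V] [Module L V]
  [Fintype J] [DecidableEq J] {arm : J → Fin 3}

theorem opr_add_left (q : V →ₗ[L] V →ₗ[L] L) (φ φ' : (J → L) →ₗ[L] V) (G : Matrix J J L)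
    (ψ : (J → L) →ₗ[L] V) : opr q (φ + φ') G ψ = opr q φ G ψ + opr q φ' G ψ := by
  ext v
  rfl

theorem opr_add_right (q : V →ₗ[L] V →ₗ[L] L) (φ : (J → L) →ₗ[L] V) (G : Matrix J J L)
    (ψ ψ' : (J → L) →ₗ[L] V) : opr q φ G (ψ + ψ') = opr q φ G ψ + opr q φ G ψ' := by
  ext v
  rw [LinearMap.add_apply, opr_apply, opr_apply, opr_apply, ← map_add, ← Matrix.mulVec_add]
  congr 2
  funext j
  rw [Pi.add_apply, ad_apply, ad_apply, ad_apply, LinearMap.add_apply, map_add,
    LinearMap.add_apply]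

theorem opr_smul_right (q : V →ₗ[L] V →ₗ[L] L) (φ : (J → L) →ₗ[L] V) (G : Matrix J J L) (c : L)
    (ψ : (J → L) →ₗ[L] V) : opr q φ G (c • ψ) = c • opr q φ G ψ := by
  ext v
  rw [LinearMap.smul_apply, opr_apply, opr_apply, ← map_smul, ← Matrix.mulVec_smul]
  congr 2
  funext j
  rw [Pi.smul_apply, ad_apply, ad_apply, LinearMap.smul_apply, map_smul, LinearMap.smul_apply]

/-- linear combinations of the operators `S_s` -/
def lc (S : Fin 3 → End L V) (c : Fin 3 → L) : End L V := ∑ s, c s • S s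

theorem lc_apply (S : Fin 3 → End L V) (c : Fin 3 → L) (v : V) :
    lc S c v = ∑ s, c s • S s v := by
  rw [lc, LinearMap.sum_apply]
  rfl

theorem lc_mem {S : Fin 3 → End L V} {M : Submodule L V} (h : ∀ s, ∀ v ∈ M, S s v ∈ M)
    (c : Fin 3 → L) : ∀ v ∈ M, lc S c v ∈ M := by
  intro v hv
  rw [lc_apply]
  exact Submodule.sum_mem _ fun s _ => Submodule.smul_mem _ _ (h s v hv)

theorem lc_mul (S S' : Fin 3 → End L V) (c : Fin 3 → L) :
    lc S c * lc S' c = ∑ s, ∑ r, (c s * c r) • (S s * S' r) := by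
  rw [lc, lc, Finset.sum_mul]
  refine Finset.sum_congr rfl fun s _ => ?_
  rw [Finset.mul_sum]
  refine Finset.sum_congr rfl fun r _ => ?_
  rw [smul_mul_smul_comm]

theorem lc_mul_congr {S S' R R' : Fin 3 → End L V} (h : ∀ a b, S b * S' a = R b * R' a)
    (c : Fin 3 → L) : lc S c * lc S' c = lc R c * lc R' c := by
  rw [lc_mul, lc_mul]
  refine Finset.sum_congr rfl fun s _ => Finset.sum_congr rfl fun r _ => ?_
  rw [h]

theorem lc_words {S : Fin 3 → End L V} (c : Fin 3 → L) (r : ℕ) :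
    ∀ v, (lc S c ^ r) v ∈ words S r := by
  induction r with
  | zero => intro v; trivial
  | succ r ih =>
    intro v
    rw [pow_succ', Module.End.mul_apply, lc_apply]
    refine Submodule.sum_mem _ fun s _ => Submodule.smul_mem _ _ ?_
    exact Submodule.mem_iSup_of_mem s (Submodule.mem_map_of_mem (ih v))

theorem lc_adj {q : V →ₗ[L] V →ₗ[L] L} {S : Fin 3 → End L V} (hS : ∀ s, IsSA q (S s))
    (c : Fin 3 → L) : IsSA q (lc S c) := by
  intro u v
  rw [lc_apply, lc_apply, map_sum, LinearMap.sum_apply, map_sum]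
  refine Finset.sum_congr rfl fun s _ => ?_
  rw [map_smul, map_smul, LinearMap.smul_apply, hS]

theorem lc_pow_adj {q : V →ₗ[L] V →ₗ[L] L} {S : Fin 3 → End L V} (hS : ∀ s, IsSA q (S s))
    (c : Fin 3 → L) (r : ℕ) (u v : V) : q ((lc S c ^ r) u) v = q u ((lc S c ^ r) v) := by
  induction r generalizing u v with
  | zero => simp
  | succ r ih =>
    rw [pow_succ', Module.End.mul_apply, lc_adj hS, ih, ← Module.End.mul_apply, ← pow_succ,
      pow_succ']

/-- vectors orthogonal to the words of length `r` are killed -/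
theorem lc_kill {q : V →ₗ[L] V →ₗ[L] L} (hq : IsForm q) {S : Fin 3 → End L V}
    (hS : ∀ s, IsSA q (S s)) (c : Fin 3 → L) {r : ℕ} {v : V} (hv : v ∈ perp q (words S r)) :
    (lc S c ^ r) v = 0 := by
  apply hq.nondeg
  intro w
  rw [lc_pow_adj hS]
  exact hv _ (lc_words c r w)

variable [FiniteDimensional L V]

/-- **(6).** If `D_x` is nilpotent on the core of `T` and the core of `T` is not smaller than the
core of `T + x`, then all linear combinations of the operators `S_s(x)` are nilpotent. -/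
theorem nilpotent_of_core {q : V →ₗ[L] V →ₗ[L] L} (hq : IsForm q)
    {Ω : Matrix J J L} (hΩ : Ωᵀ = -Ω) {K : Set ((J → L) →ₗ[L] V)}
    (hK : KRel arm q Ω K) {T x : (J → L) →ₗ[L] V} (hT : T ∈ K) (hx : x ∈ K) (hTx : T + x ∈ K)
    (C : Core q (Sop arm q T Ω)) (C' : Core q (Sop arm q (T + x) Ω))
    (hdim : finrank L C'.V1 ≤ finrank L C.V1) {D : End L C.V1}
    (hD1 : ∀ a, C.res hq (opr q T (Gm arm Ω a) x) = C.S1 hq a * D)
    (hD2 : ∀ a, C.res hq (opr q T (Gm arm Ω a) x) = D * C.S1 hq a) (hD : IsNilpotent D)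
    (c : Fin 3 → L) : IsNilpotent (lc (Sop arm q x Ω) c) := by
  have hSA := Sop_SA arm hq T hΩ
  have hSA' := Sop_SA arm hq (T + x) hΩ
  have hcx := hK.compat hq hΩ hT hx
  have hcy := hK.compat hq hΩ hT hTx
  -- relations
  have rel : ∀ (P Q R U : (J → L) →ₗ[L] V), P ∈ K → Q ∈ K → R ∈ K → U ∈ K → ∀ a b,
      opr q P (Gm arm Ω b) Q * opr q R (Gm arm Ω a) U =
        opr q P (Gm arm Ω b) R * opr q Q (Gm arm Ω a) U := by
    intro P Q R U _ hQ hR _ a b
    ext v
    exact hK.comp hq hQ hR P U a b v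
  have sw : ∀ (P Q : (J → L) →ₗ[L] V), P ∈ K → Q ∈ K → ∀ a,
      opr q P (Gm arm Ω a) Q = opr q Q (Gm arm Ω a) P := fun P Q hP hQ a =>
    hK.swap hq hΩ hP hQ a
  -- `S_x` preserves `W` and `I`
  have hxS : ∀ a b, Sop arm q x Ω b * Sop arm q T Ω a =
      opr q T (Gm arm Ω b) x * opr q T (Gm arm Ω a) x := by
    intro a b
    rw [Sop, Sop, rel x x T T hx hx hT hT, sw x T hx hT, sw x T hx hT]
  have hxW : ∀ s, ∀ w ∈ C.W, Sop arm q x Ω s w ∈ C.W := by
    intro s w hw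
    rw [← C.hW] at hw
    obtain ⟨v, hv, rfl⟩ := mem_iSup_map.mp hw
    rw [map_sum]
    refine Submodule.sum_mem _ fun r _ => ?_
    have h1 : Sop arm q x Ω s (Sop arm q T Ω r (v r)) =
        opr q T (Gm arm Ω s) x (opr q T (Gm arm Ω r) x (v r)) :=
      LinearMap.congr_fun (hxS r s) (v r)
    rw [h1]
    exact hcx.map_W C s (hcx.map_W C r (hv r))
  have hxperp : ∀ s, ∀ w ∈ perp q C.W, Sop arm q x Ω s w ∈ perp q C.W := by
    intro s w hw u hu
    rw [Sop_SA arm hq x hΩ s, hw _ (hxW s u hu)]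
  have hxI : ∀ s, ∀ i ∈ C.I, Sop arm q x Ω s i ∈ C.I := fun s i hi =>
    ⟨hxW s i hi.1, hxperp s i hi.2⟩
  -- the compression of `S_x`
  have hcomm : ∀ s, D * C.S1 hq s = C.S1 hq s * D := fun s => by rw [← hD2, ← hD1]
  have hresx : ∀ b, C.res hq (Sop arm q x Ω b) = C.S1 hq b * (D * D) := by
    intro b
    have e1 : ∀ a, C.res hq (Sop arm q x Ω b) * C.S1 hq a =
        C.S1 hq b * (D * D) * C.S1 hq a := by
      intro a
      have e2 : C.res hq (Sop arm q x Ω b * Sop arm q T Ω a) =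
          C.res hq (Sop arm q x Ω b) * C.res hq (Sop arm q T Ω a) :=
        C.res_mul hq (hxperp b) fun w hw => C.W_le_perp hq (C.map_W hw)
      have e3 : C.res hq (opr q T (Gm arm Ω b) x * opr q T (Gm arm Ω a) x) =
          C.res hq (opr q T (Gm arm Ω b) x) * C.res hq (opr q T (Gm arm Ω a) x) :=
        C.res_mul hq (fun v hv => hcx.map_perp C b hv) fun w hw =>
          C.W_le_perp hq (hcx.map_W C a hw)
      rw [C.res_S, hxS, e3, hD1, hD2] at e2
      rw [← e2]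
      simp only [mul_assoc]
    ext v
    congr 1
    have hv : v ∈ ⨆ s, LinearMap.range (C.S1 hq s) := by rw [C.S1_span hq hSA]; trivial
    refine Submodule.iSup_induction (fun s => LinearMap.range (C.S1 hq s))
      (motive := fun y => C.res hq (Sop arm q x Ω b) y = (C.S1 hq b * (D * D)) y) hv ?_ ?_ ?_
    · rintro s _ ⟨w, rfl⟩
      exact LinearMap.congr_fun (e1 s) w
    · rw [map_zero, map_zero]
    · intro y z hy hz
      rw [map_add, map_add, hy, hz]
  -- `S_y`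
  have hy : ∀ s, Sop arm q (T + x) Ω s = Sop arm q T Ω s +
      (2 : L) • opr q T (Gm arm Ω s) x + Sop arm q x Ω s := by
    intro s
    rw [Sop, Sop, Sop, opr_add_left, opr_add_right, opr_add_right, sw x T hx hT, two_smul]
    abel
  have hyW : ∀ s, ∀ w ∈ C.W, Sop arm q (T + x) Ω s w ∈ C.W := by
    intro s w hw
    rw [hy]
    exact Submodule.add_mem _ (Submodule.add_mem _ (C.map_W hw)
      (Submodule.smul_mem _ _ (hcx.map_W C s hw))) (hxW s w hw)
  have hyI : ∀ s, ∀ w ∈ C.I, Sop arm q (T + x) Ω s w ∈ C.I := by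
    intro s w hw
    rw [hy]
    exact Submodule.add_mem _ (Submodule.add_mem _ (C.map_I hSA hw)
      (Submodule.smul_mem _ _ (hcx.map_I C s hw))) (hxI s w hw)
  have hresy : ∀ s, (C.P hq ∘ₗ Sop arm q (T + x) Ω s) ∘ₗ C.V1.subtype =
      C.S1 hq s * ((1 + D) * (1 + D)) := by
    intro s
    have e1 : (C.P hq ∘ₗ Sop arm q (T + x) Ω s) ∘ₗ C.V1.subtype =
        C.res hq (Sop arm q (T + x) Ω s) := rfl
    rw [e1, hy, C.res_add, C.res_add, C.res_smul, hD1, hresx, C.res_S, two_smul]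
    noncomm_ring
  have hunit : IsUnit ((1 + D) * (1 + D)) := by
    have h1 : IsUnit (1 + D) := hD.isUnit_one_add
    exact h1.mul h1
  obtain ⟨u, hu⟩ := hunit
  have huv : ∀ v, ((1 + D) * (1 + D)) ((↑u⁻¹ : End L C.V1) v) = v := by
    intro v
    rw [← hu, ← Module.End.mul_apply, Units.mul_inv]
    rfl
  have huv' : ∀ v, (↑u⁻¹ : End L C.V1) (((1 + D) * (1 + D)) v) = v := by
    intro v
    rw [← hu, ← Module.End.mul_apply, Units.inv_mul]
    rfl
  have hspan : ⨆ s, LinearMap.range ((C.P hq ∘ₗ Sop arm q (T + x) Ω s) ∘ₗ C.V1.subtype) = ⊤ := by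
    rw [eq_top_iff, ← C.S1_span hq hSA, iSup_le_iff]
    rintro s _ ⟨v, rfl⟩
    refine Submodule.mem_iSup_of_mem s ⟨(↑u⁻¹ : End L C.V1) v, ?_⟩
    rw [hresy, Module.End.mul_apply, huv]
  have hker : ∀ v : C.V1, (∀ s, C.P hq (Sop arm q (T + x) Ω s v) = 0) → v = 0 := by
    intro v hv
    have h1 : ((1 + D) * (1 + D)) v ∈ ⨅ s, LinearMap.ker (C.S1 hq s) := by
      rw [Submodule.mem_iInf]
      intro s
      rw [LinearMap.mem_ker, ← Module.End.mul_apply, ← hresy]
      exact hv s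
    rw [C.iInf_ker hq hSA, Submodule.mem_bot] at h1
    rw [← huv' v, h1, map_zero]
  obtain ⟨hcW, hcI⟩ := compare hq hSA' C C' hyW hyI hspan hker hdim
  -- the three operators
  set A := lc (Sop arm q (T + x) Ω) c with hA
  set B := lc (Sop arm q T Ω) c with hB
  set G := lc (fun s => opr q T (Gm arm Ω s) (T + x)) c with hG
  have hXc : lc (Sop arm q x Ω) c = A - (2 : L) • G + B := by
    ext v
    rw [hA, hB, hG, LinearMap.add_apply, LinearMap.sub_apply, LinearMap.smul_apply, lc_apply,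
      lc_apply, lc_apply, lc_apply, Finset.smul_sum, ← Finset.sum_sub_distrib,
      ← Finset.sum_add_distrib]
    refine Finset.sum_congr rfl fun s _ => ?_
    rw [hy, opr_add_right, LinearMap.add_apply, LinearMap.add_apply, LinearMap.add_apply,
      LinearMap.smul_apply]
    show _ = c s • (Sop arm q T Ω s v + (2 : L) • opr q T (Gm arm Ω s) x v + Sop arm q x Ω s v) -
      (2 : L) • c s • (Sop arm q T Ω s v + opr q T (Gm arm Ω s) x v) + c s • Sop arm q T Ω s v
    module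
  have hAB : Commute A B := by
    have h1 : A * B = G * G := lc_mul_congr (fun a b => by
      rw [Sop, Sop, rel _ _ T T hTx hTx hT hT, sw _ _ hTx hT, sw _ _ hTx hT]) c
    have h2 : B * A = G * G := lc_mul_congr (fun a b => by
      rw [Sop, Sop, rel _ _ _ _ hT hT hTx hTx]) c
    show A * B = B * A
    rw [h1, h2]
  have hAG : Commute A G := lc_mul_congr (fun a b => by
      rw [Sop, Sop, rel _ _ _ _ hTx hTx hT hTx, sw _ _ hTx hT]) c
  have hBG : Commute B G := lc_mul_congr (fun a b => by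
      rw [Sop, Sop, sw T _ hT hTx a, rel _ _ _ _ hT hT hTx hT]) c
  have hGG : G * G = B * A := (lc_mul_congr (fun a b => by
      rw [Sop, Sop, rel _ _ _ _ hT hT hTx hTx]) c).symm
  have hGW : ∀ w ∈ C.W, G w ∈ C.W := lc_mem (fun s w hw => hcy.map_W C s hw) c
  have hGI : ∀ w ∈ C.I, G w ∈ C.I := lc_mem (fun s w hw => hcy.map_I C s hw) c
  have hAW : ∀ w ∈ C.W, A w ∈ C.W := lc_mem hyW c
  have hAI : ∀ w ∈ C.I, A w ∈ C.I := lc_mem hyI c
  have hBW : ∀ w ∈ C.W, B w ∈ C.W := lc_mem (fun s w hw => C.map_W hw) c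
  have hBI : ∀ w ∈ C.I, B w ∈ C.I := lc_mem (fun s w hw => C.map_I hSA hw) c
  -- nilpotent modulo `W`
  have hn1 : NilOn (lc (Sop arm q x Ω) c) ⊤ C.W := by
    rw [hXc]
    refine NilOn.comb hAB hAG hBG hGG (fun _ _ => trivial) (fun _ _ => trivial)
      (fun _ _ => trivial) hAW hGW ?_ ?_
    · refine ⟨C'.N, fun v _ => hcW ?_⟩
      rw [C'.hN]; exact lc_words c _ v
    · refine ⟨C.N, fun v _ => ?_⟩
      rw [C.hN]; exact lc_words c _ v
  -- nilpotent on `I`
  have hn3 : NilOn (lc (Sop arm q x Ω) c) C.I ⊥ := by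
    rw [hXc]
    refine NilOn.comb hAB hAG hBG hGG hAI hBI hGI (fun v hv => ?_) (fun v hv => ?_) ?_ ?_
    · rw [(Submodule.mem_bot L).mp hv, map_zero]; exact Submodule.zero_mem _
    · rw [(Submodule.mem_bot L).mp hv, map_zero]; exact Submodule.zero_mem _
    · refine ⟨C'.N + C'.N, fun v hv => ?_⟩
      rw [Submodule.mem_bot, pow_add, Module.End.mul_apply]
      apply lc_kill hq hSA' c
      rw [← C'.hN]
      refine hcI ⟨pow_mem hAI _ v hv, ?_⟩
      rw [C'.hN]; exact lc_words c _ v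
    · refine ⟨C.N, fun v hv => ?_⟩
      rw [Submodule.mem_bot]
      apply lc_kill hq hSA c
      rw [← C.hN]
      exact hv.2
  -- nilpotent on `W / I`
  have hn2 : NilOn (lc (Sop arm q x Ω) c) C.W C.I := by
    obtain ⟨m, hm⟩ := hD
    have h1 : ∀ k, ∀ w ∈ C.W, C.P hq ((lc (Sop arm q x Ω) c ^ k) w) =
        ((lc (C.S1 hq) c * (D * D)) ^ k) (C.P hq w) := by
      intro k
      induction k with
      | zero => intro w _; rfl
      | succ k ih =>
        intro w hw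
        rw [pow_succ', pow_succ', Module.End.mul_apply, Module.End.mul_apply, ← ih w hw]
        have h2 : (lc (Sop arm q x Ω) c ^ k) w ∈ C.W := pow_mem (lc_mem hxW c) k w hw
        set w' := (lc (Sop arm q x Ω) c ^ k) w
        rw [lc_apply, map_sum, Module.End.mul_apply, lc_apply]
        refine Finset.sum_congr rfl fun s _ => ?_
        rw [map_smul]
        congr 1
        have h3 := C.P_eq_zero hq (hxperp s _ (C.sub_P_mem hq (C.W_le_perp hq h2)))
        rw [map_sub, map_sub, sub_eq_zero] at h3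
        rw [h3]
        exact LinearMap.congr_fun (hresx s) (C.P hq w')
    have h4 : Commute (lc (C.S1 hq) c) (D * D) := by
      have h5 : Commute (lc (C.S1 hq) c) D := by
        rw [lc]
        exact Commute.sum_left _ _ _ fun s _ => (show Commute _ _ from (hcomm s).symm).smul_left _
      exact h5.mul_right h5
    refine ⟨m, fun w hw => ?_⟩
    have h6 := h1 m w hw
    rw [h4.mul_pow, (Commute.refl D).mul_pow, hm, zero_mul, mul_zero, LinearMap.zero_apply] at h6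
    have h7 : (lc (Sop arm q x Ω) c ^ m) w ∈ C.W := pow_mem (lc_mem hxW c) m w hw
    have h8 := C.sub_P_mem_I hq h7
    rwa [h6, Submodule.coe_zero, sub_zero] at h8
  obtain ⟨n1, hn1⟩ := hn1
  obtain ⟨n2, hn2⟩ := hn2
  obtain ⟨n3, hn3⟩ := hn3
  refine ⟨n3 + (n2 + n1), ?_⟩
  ext v
  rw [pow_add, pow_add, Module.End.mul_apply, Module.End.mul_apply]
  have := hn3 _ (hn2 _ (hn1 v trivial))
  rw [(Submodule.mem_bot L).mp this]
  rfl

theorem nilpotent_sub {q : V →ₗ[L] V →ₗ[L] L} (hq : IsForm q)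
    {Ω : Matrix J J L} (hΩ : Ωᵀ = -Ω) {K : Set ((J → L) →ₗ[L] V)}
    (hK : KRel arm q Ω K) {T T' : (J → L) →ₗ[L] V} {d : L} (hT : T ∈ K) (hx : T' - d • T ∈ K)
    (hTx : T + (T' - d • T) ∈ K)
    (C : Core q (Sop arm q T Ω)) (C' : Core q (Sop arm q (T + (T' - d • T)) Ω))
    (hdim : finrank L C'.V1 ≤ finrank L C.V1) {D : End L C.V1}
    (hD1 : ∀ a, C.res hq (opr q T (Gm arm Ω a) T') = C.S1 hq a * D)
    (hD2 : ∀ a, C.res hq (opr q T (Gm arm Ω a) T') = D * C.S1 hq a)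
    (hD : IsNilpotent (D - d • (1 : End L C.V1)))
    (c : Fin 3 → L) : IsNilpotent (lc (Sop arm q (T' - d • T) Ω) c) := by
  have hop : ∀ s, opr q T (Gm arm Ω s) (T' - d • T) =
      opr q T (Gm arm Ω s) T' + (-d) • Sop arm q T Ω s := by
    intro s
    have hxe : T' - d • T = T' + (-d) • T := by rw [neg_smul, sub_eq_add_neg]
    rw [hxe, opr_add_right, opr_smul_right]
    rfl
  refine nilpotent_of_core hq hΩ hK hT hx hTx C C' hdim
    (D := D - d • (1 : End L C.V1)) (fun s => ?_) (fun s => ?_) hD c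
  · have h1 : (-d) • C.S1 hq s = -(d • C.S1 hq s) :=
      LinearMap.ext fun v => Subtype.ext (neg_smul d (C.S1 hq s v : V))
    rw [hop, C.res_add, C.res_smul, C.res_S, hD1, mul_sub, mul_smul_comm, mul_one, h1,
      ← sub_eq_add_neg]
  · have h1 : (-d) • C.S1 hq s = -(d • C.S1 hq s) :=
      LinearMap.ext fun v => Subtype.ext (neg_smul d (C.S1 hq s v : V))
    rw [hop, C.res_add, C.res_smul, C.res_S, hD2, sub_mul, smul_mul_assoc, one_mul, h1,
      ← sub_eq_add_neg]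

end six

end Vale.Agent.P182.H922
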