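import Vale.Agent.P182.H922.Six
import Mathlib.LinearAlgebra.Eigenspace.Minpoly

/-!
# Nilpotency of the mixed operators of a pair
-/

namespace Vale.Agent.P182.H922

open Module Matrix Vale.Agent.P182.H533

section gen

variable {L V J : Type*} [Field L] [AddCommGroup V] [Module L V]
  [Fintype J] [DecidableEq J] {arm : J → Fin 3}

theorem opr_smul_left (q : V →ₗ[L] V →ₗ[L] L) (c : L) (φ : (J → L) →ₗ[L] V) (G : Matrix J J L)
    (ψ : (J → L) →ₗ[L] V) : opr q (c • φ) G ψ = c • opr q φ G ψ := by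
  ext v
  rfl

theorem krel_mul {q : V →ₗ[L] V →ₗ[L] L} (hq : IsForm q)
    {Ω : Matrix J J L} {K : Set ((J → L) →ₗ[L] V)}
    (hK : KRel arm q Ω K) (P : (J → L) →ₗ[L] V) {Q R : (J → L) →ₗ[L] V} (U : (J → L) →ₗ[L] V)
    (hQ : Q ∈ K) (hR : R ∈ K) (a b : Fin 3) :
    opr q P (Gm arm Ω b) Q * opr q R (Gm arm Ω a) U =
      opr q P (Gm arm Ω b) R * opr q Q (Gm arm Ω a) U := by
  ext v
  exact hK.comp hq hQ hR P U a b v

variable [FiniteDimensional L V]

section one

variable {q : V →ₗ[L] V →ₗ[L] L} (hq : IsForm q)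
    {Ω : Matrix J J L} (hΩ : Ωᵀ = -Ω) {K : Set ((J → L) →ₗ[L] V)}
    (hK : KRel arm q Ω K) {T x y : (J → L) →ₗ[L] V} (hT : T ∈ K) (hx : x ∈ K) (hy : y ∈ K)
    (C : Core q (Sop arm q T Ω)) {D D' : End L C.V1}

include hq hΩ hK hT hx hy

omit [FiniteDimensional L V] in
/-- the mixed operators in terms of `T` -/
theorem krel_mix (a b : Fin 3) : opr q x (Gm arm Ω b) y * Sop arm q T Ω a =
      opr q T (Gm arm Ω b) x * opr q T (Gm arm Ω a) y := by
  rw [Sop, krel_mul hq hK x T hy hT, hK.swap hq hΩ hx hT, hK.swap hq hΩ hy hT]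

theorem mix_map_W : ∀ s, ∀ w ∈ C.W, opr q x (Gm arm Ω s) y w ∈ C.W := by
  have hcx := hK.compat hq hΩ hT hx
  have hcy := hK.compat hq hΩ hT hy
  intro s w hw
  rw [← C.hW] at hw
  obtain ⟨v, hv, rfl⟩ := mem_iSup_map.mp hw
  rw [map_sum]
  refine Submodule.sum_mem _ fun r _ => ?_
  have h1 : opr q x (Gm arm Ω s) y (Sop arm q T Ω r (v r)) =
      opr q T (Gm arm Ω s) x (opr q T (Gm arm Ω r) y (v r)) :=
    LinearMap.congr_fun (krel_mix hq hΩ hK hT hx hy r s) (v r)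
  rw [h1]
  exact hcx.map_W C s (hcy.map_W C r (hv r))

theorem mix_map_perp : ∀ s, ∀ w ∈ perp q C.W, opr q x (Gm arm Ω s) y w ∈ perp q C.W := by
  intro s w hw u hu
  rw [hK.F2 x hx y hy s, hw _ (mix_map_W hq hΩ hK hT hx hy C s u hu)]

theorem mix_map_I : ∀ s, ∀ w ∈ C.I, opr q x (Gm arm Ω s) y w ∈ C.I := fun s i hi =>
    ⟨mix_map_W hq hΩ hK hT hx hy C s i hi.1, mix_map_perp hq hΩ hK hT hx hy C s i hi.2⟩

/-- the compression of the mixed operators -/
theorem res_mix (hD1 : ∀ a, C.res hq (opr q T (Gm arm Ω a) x) = C.S1 hq a * D)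
    (hD2 : ∀ a, C.res hq (opr q T (Gm arm Ω a) x) = D * C.S1 hq a)
    (hD'2 : ∀ a, C.res hq (opr q T (Gm arm Ω a) y) = D' * C.S1 hq a) (b : Fin 3) :
    C.res hq (opr q x (Gm arm Ω b) y) = C.S1 hq b * (D * D') := by
  have hSA := Sop_SA arm hq T hΩ
  have hcx := hK.compat hq hΩ hT hx
  have hcy := hK.compat hq hΩ hT hy
  have hcomm : ∀ s, D * C.S1 hq s = C.S1 hq s * D := fun s => by rw [← hD2, ← hD1]
  have e1 : ∀ a, C.res hq (opr q x (Gm arm Ω b) y) * C.S1 hq a =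
      C.S1 hq b * (D * D') * C.S1 hq a := by
    intro a
    have e2 : C.res hq (opr q x (Gm arm Ω b) y * Sop arm q T Ω a) =
        C.res hq (opr q x (Gm arm Ω b) y) * C.res hq (Sop arm q T Ω a) :=
      C.res_mul hq (mix_map_perp hq hΩ hK hT hx hy C b) fun w hw => C.W_le_perp hq (C.map_W hw)
    have e3 : C.res hq (opr q T (Gm arm Ω b) x * opr q T (Gm arm Ω a) y) =
        C.res hq (opr q T (Gm arm Ω b) x) * C.res hq (opr q T (Gm arm Ω a) y) :=
      C.res_mul hq (fun v hv => hcx.map_perp C b hv) fun w hw =>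
        C.W_le_perp hq (hcy.map_W C a hw)
    rw [C.res_S, krel_mix hq hΩ hK hT hx hy, e3, hD1, hD'2] at e2
    rw [← e2]
    simp only [mul_assoc]
  ext v
  congr 1
  have hv : v ∈ ⨆ s, LinearMap.range (C.S1 hq s) := by rw [C.S1_span hq hSA]; trivial
  refine Submodule.iSup_induction (fun s => LinearMap.range (C.S1 hq s))
    (motive := fun z => C.res hq (opr q x (Gm arm Ω b) y) z = (C.S1 hq b * (D * D')) z) hv
    ?_ ?_ ?_
  · rintro s _ ⟨w, rfl⟩
    exact LinearMap.congr_fun (e1 s) w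
  · rw [map_zero, map_zero]
  · intro z z' hz hz'
    rw [map_add, map_add, hz, hz']

end one

/-- the operators of an element of `K` are nilpotent modulo `W` and on `I` -/
theorem nilOn_of_unit {q : V →ₗ[L] V →ₗ[L] L} (hq : IsForm q)
    {Ω : Matrix J J L} (hΩ : Ωᵀ = -Ω) {K : Set ((J → L) →ₗ[L] V)}
    (hK : KRel arm q Ω K) {T x : (J → L) →ₗ[L] V} (hT : T ∈ K) (hx : x ∈ K) (hTx : T + x ∈ K)
    (C : Core q (Sop arm q T Ω)) (C' : Core q (Sop arm q (T + x) Ω))
    (hdim : finrank L C'.V1 ≤ finrank L C.V1) {D : End L C.V1}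
    (hD1 : ∀ a, C.res hq (opr q T (Gm arm Ω a) x) = C.S1 hq a * D)
    (hD2 : ∀ a, C.res hq (opr q T (Gm arm Ω a) x) = D * C.S1 hq a) (hD : IsUnit (1 + D))
    (c : Fin 3 → L) : NilOn (lc (Sop arm q x Ω) c) ⊤ C.W ∧ NilOn (lc (Sop arm q x Ω) c) C.I ⊥ := by
  have hSA := Sop_SA arm hq T hΩ
  have hSA' := Sop_SA arm hq (T + x) hΩ
  have hcx := hK.compat hq hΩ hT hx
  have hcy := hK.compat hq hΩ hT hTx
  have sw : ∀ (P Q : (J → L) →ₗ[L] V), P ∈ K → Q ∈ K → ∀ a,
      opr q P (Gm arm Ω a) Q = opr q Q (Gm arm Ω a) P := fun P Q hP hQ a =>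
    hK.swap hq hΩ hP hQ a
  have rel := @krel_mul L V J _ _ _ _ _ arm q hq Ω K hK
  have hxW : ∀ s, ∀ w ∈ C.W, Sop arm q x Ω s w ∈ C.W := mix_map_W hq hΩ hK hT hx hx C
  have hxI : ∀ s, ∀ w ∈ C.I, Sop arm q x Ω s w ∈ C.I := mix_map_I hq hΩ hK hT hx hx C
  have hresx : ∀ b, C.res hq (Sop arm q x Ω b) = C.S1 hq b * (D * D) :=
    res_mix hq hΩ hK hT hx hx C hD1 hD2 hD2
  -- `S_y`
  have hy : ∀ s, Sop arm q (T + x) Ω s = Sop arm q T Ω s +
      (2 : L) • opr q T (Gm arm Ω s) x + Sop arm q x Ω s := by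
    intro s
    rw [Sop, Sop, Sop, opr_add_left, opr_add_right, opr_add_right, sw x T hx hT, two_smul]
    abel
  have hyW : ∀ s, ∀ w ∈ C.W, Sop arm q (T + x) Ω s w ∈ C.W := by
    intro s w hw
    rw [hy]
    exact Submodule.add_mem _ (Submodule.add_mem _ (C.map_W hw)
      (Submodule.smul_mem _ _ (hcx.map_W C s hw))) (hxW s w hw)
  have hyI : ∀ s, ∀ w ∈ C.I, Sop arm q (T + x) Ω s w ∈ C.I := by
    intro s w hw
    rw [hy]
    exact Submodule.add_mem _ (Submodule.add_mem _ (C.map_I hSA hw)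
      (Submodule.smul_mem _ _ (hcx.map_I C s hw))) (hxI s w hw)
  have hresy : ∀ s, (C.P hq ∘ₗ Sop arm q (T + x) Ω s) ∘ₗ C.V1.subtype =
      C.S1 hq s * ((1 + D) * (1 + D)) := by
    intro s
    have e1 : (C.P hq ∘ₗ Sop arm q (T + x) Ω s) ∘ₗ C.V1.subtype =
        C.res hq (Sop arm q (T + x) Ω s) := rfl
    rw [e1, hy, C.res_add, C.res_add, C.res_smul, hD1, hresx, C.res_S, two_smul]
    noncomm_ring
  obtain ⟨u, hu⟩ := hD.mul hD
  have huv : ∀ v, ((1 + D) * (1 + D)) ((↑u⁻¹ : End L C.V1) v) = v := by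
    intro v
    rw [← hu, ← Module.End.mul_apply, Units.mul_inv]
    rfl
  have huv' : ∀ v, (↑u⁻¹ : End L C.V1) (((1 + D) * (1 + D)) v) = v := by
    intro v
    rw [← hu, ← Module.End.mul_apply, Units.inv_mul]
    rfl
  have hspan : ⨆ s, LinearMap.range ((C.P hq ∘ₗ Sop arm q (T + x) Ω s) ∘ₗ C.V1.subtype) = ⊤ := by
    rw [eq_top_iff, ← C.S1_span hq hSA, iSup_le_iff]
    rintro s _ ⟨v, rfl⟩
    refine Submodule.mem_iSup_of_mem s ⟨(↑u⁻¹ : End L C.V1) v, ?_⟩
    rw [hresy, Module.End.mul_apply, huv]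
  have hker : ∀ v : C.V1, (∀ s, C.P hq (Sop arm q (T + x) Ω s v) = 0) → v = 0 := by
    intro v hv
    have h1 : ((1 + D) * (1 + D)) v ∈ ⨅ s, LinearMap.ker (C.S1 hq s) := by
      rw [Submodule.mem_iInf]
      intro s
      rw [LinearMap.mem_ker, ← Module.End.mul_apply, ← hresy]
      exact hv s
    rw [C.iInf_ker hq hSA, Submodule.mem_bot] at h1
    rw [← huv' v, h1, map_zero]
  obtain ⟨hcW, hcI⟩ := compare hq hSA' C C' hyW hyI hspan hker hdim
  -- the three operators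
  set A := lc (Sop arm q (T + x) Ω) c with hA
  set B := lc (Sop arm q T Ω) c with hB
  set G := lc (fun s => opr q T (Gm arm Ω s) (T + x)) c with hG
  have hXc : lc (Sop arm q x Ω) c = A - (2 : L) • G + B := by
    ext v
    rw [hA, hB, hG, LinearMap.add_apply, LinearMap.sub_apply, LinearMap.smul_apply, lc_apply,
      lc_apply, lc_apply, lc_apply, Finset.smul_sum, ← Finset.sum_sub_distrib,
      ← Finset.sum_add_distrib]
    refine Finset.sum_congr rfl fun s _ => ?_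
    rw [hy, opr_add_right, LinearMap.add_apply, LinearMap.add_apply, LinearMap.add_apply,
      LinearMap.smul_apply]
    show _ = c s • (Sop arm q T Ω s v + (2 : L) • opr q T (Gm arm Ω s) x v + Sop arm q x Ω s v) -
      (2 : L) • c s • (Sop arm q T Ω s v + opr q T (Gm arm Ω s) x v) + c s • Sop arm q T Ω s v
    module
  have hAB : Commute A B := by
    have h1 : A * B = G * G := lc_mul_congr (fun a b => by
      rw [Sop, Sop, rel _ T hTx hT, sw _ _ hTx hT, sw _ _ hTx hT]) c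
    have h2 : B * A = G * G := lc_mul_congr (fun a b => by
      rw [Sop, Sop, rel _ _ hT hTx]) c
    show A * B = B * A
    rw [h1, h2]
  have hAG : Commute A G := lc_mul_congr (fun a b => by
      rw [Sop, Sop, rel _ _ hTx hT, sw _ _ hTx hT]) c
  have hBG : Commute B G := lc_mul_congr (fun a b => by
      rw [Sop, Sop, sw T _ hT hTx a, rel _ _ hT hTx]) c
  have hGG : G * G = B * A := (lc_mul_congr (fun a b => by
      rw [Sop, Sop, rel _ _ hT hTx]) c).symm
  have hGW : ∀ w ∈ C.W, G w ∈ C.W := lc_mem (fun s w hw => hcy.map_W C s hw) c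
  have hGI : ∀ w ∈ C.I, G w ∈ C.I := lc_mem (fun s w hw => hcy.map_I C s hw) c
  have hAW : ∀ w ∈ C.W, A w ∈ C.W := lc_mem hyW c
  have hAI : ∀ w ∈ C.I, A w ∈ C.I := lc_mem hyI c
  have hBW : ∀ w ∈ C.W, B w ∈ C.W := lc_mem (fun s w hw => C.map_W hw) c
  have hBI : ∀ w ∈ C.I, B w ∈ C.I := lc_mem (fun s w hw => C.map_I hSA hw) c
  constructor
  · rw [hXc]
    refine NilOn.comb hAB hAG hBG hGG (fun _ _ => trivial) (fun _ _ => trivial)
      (fun _ _ => trivial) hAW hGW ?_ ?_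
    · refine ⟨C'.N, fun v _ => hcW ?_⟩
      rw [C'.hN]; exact lc_words c _ v
    · refine ⟨C.N, fun v _ => ?_⟩
      rw [C.hN]; exact lc_words c _ v
  · rw [hXc]
    refine NilOn.comb hAB hAG hBG hGG hAI hBI hGI (fun v hv => ?_) (fun v hv => ?_) ?_ ?_
    · rw [(Submodule.mem_bot L).mp hv, map_zero]; exact Submodule.zero_mem _
    · rw [(Submodule.mem_bot L).mp hv, map_zero]; exact Submodule.zero_mem _
    · refine ⟨C'.N + C'.N, fun v hv => ?_⟩
      rw [Submodule.mem_bot, pow_add, Module.End.mul_apply]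
      apply lc_kill hq hSA' c
      rw [← C'.hN]
      refine hcI ⟨pow_mem hAI _ v hv, ?_⟩
      rw [C'.hN]; exact lc_words c _ v
    · refine ⟨C.N, fun v hv => ?_⟩
      rw [Submodule.mem_bot]
      apply lc_kill hq hSA c
      rw [← C.hN]
      exact hv.2

omit [FiniteDimensional L V] in
theorem lc_smul (S : Fin 3 → End L V) (b : L) (c : Fin 3 → L) :
    lc (fun s => b • S s) c = b • lc S c := by
  rw [lc, lc, Finset.smul_sum]
  exact Finset.sum_congr rfl fun s _ => smul_comm _ _ _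

/-- a maximal core: the operators of all elements of `K` are nilpotent modulo `W` and on `I` -/
theorem nilOn_of_max [Infinite L] {q : V →ₗ[L] V →ₗ[L] L} (hq : IsForm q)
    {Ω : Matrix J J L} (hΩ : Ωᵀ = -Ω) {K : Set ((J → L) →ₗ[L] V)}
    (hK : KRel arm q Ω K) {T x : (J → L) →ₗ[L] V} (hT : T ∈ K) (hx : ∀ b : L, b • x ∈ K)
    (hTx : ∀ b : L, T + b • x ∈ K) (C : Core q (Sop arm q T Ω))
    (hdim : ∀ b : L, ∀ C' : Core q (Sop arm q (T + b • x) Ω), finrank L C'.V1 ≤ finrank L C.V1)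
    {D : End L C.V1}
    (hD1 : ∀ a, C.res hq (opr q T (Gm arm Ω a) x) = C.S1 hq a * D)
    (hD2 : ∀ a, C.res hq (opr q T (Gm arm Ω a) x) = D * C.S1 hq a)
    (c : Fin 3 → L) : NilOn (lc (Sop arm q x Ω) c) ⊤ C.W ∧ NilOn (lc (Sop arm q x Ω) c) C.I ⊥ := by
  obtain ⟨μ, hμ⟩ : ∃ μ : L, μ ∉ spectrum L D ∪ {0} :=
    (Module.End.finite_spectrum D |>.union (Set.finite_singleton 0)).exists_notMem
  rw [Set.mem_union, not_or, Set.mem_singleton_iff, spectrum.notMem_iff] at hμ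
  obtain ⟨hu, hμ0⟩ := hμ
  -- `b = - μ⁻¹`
  set b : L := -μ⁻¹ with hb
  have hb0 : b ≠ 0 := neg_ne_zero.mpr (inv_ne_zero hμ0)
  have hunit : IsUnit (1 + b • D) := by
    have h1 : (1 + b • D) = (algebraMap L (End L C.V1) μ⁻¹) *
        (algebraMap L (End L C.V1) μ - D) := by
      rw [mul_sub, ← map_mul, inv_mul_cancel₀ hμ0, map_one, ← Algebra.smul_def, hb]
      refine LinearMap.ext fun v => Subtype.ext ?_
      show (v : V) + (-μ⁻¹) • (D v : V) = (v : V) - μ⁻¹ • (D v : V)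
      rw [neg_smul, sub_eq_add_neg]
    rw [h1]
    exact ((isUnit_iff_ne_zero.mpr (inv_ne_zero hμ0)).map (algebraMap L (End L C.V1))).mul hu
  obtain ⟨C'⟩ := exists_core q (Sop arm q (T + b • x) Ω)
  have hop : ∀ s, opr q T (Gm arm Ω s) (b • x) = b • opr q T (Gm arm Ω s) x := fun s =>
    opr_smul_right _ _ _ _ _
  have h1 := nilOn_of_unit hq hΩ hK hT (hx b) (hTx b) C C' (hdim b C') (D := b • D)
    (fun a => by rw [hop, C.res_smul, hD1, mul_smul_comm])
    (fun a => by rw [hop, C.res_smul, hD2, smul_mul_assoc]) hunit c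
  have h2 : lc (Sop arm q x Ω) c = (b * b)⁻¹ • lc (Sop arm q (b • x) Ω) c := by
    have h3 : Sop arm q (b • x) Ω = fun s => (b * b) • Sop arm q x Ω s := by
      funext s
      rw [Sop, Sop, opr_smul_left, opr_smul_right, smul_smul]
    rw [h3, lc_smul, smul_smul, inv_mul_cancel₀ (mul_ne_zero hb0 hb0), one_smul]
  rw [h2]
  exact ⟨h1.1.smul _, h1.2.smul _⟩

/-- the mixed operators of a pair with `D_x D_y` nilpotent are nilpotent -/
theorem nilpotent_pair [Infinite L] {q : V →ₗ[L] V →ₗ[L] L} (hq : IsForm q)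
    {Ω : Matrix J J L} (hΩ : Ωᵀ = -Ω) {K : Set ((J → L) →ₗ[L] V)}
    (hK : KRel arm q Ω K) {T x y : (J → L) →ₗ[L] V} (hT : T ∈ K) (hx : ∀ b : L, b • x ∈ K)
    (hTx : ∀ b : L, T + b • x ∈ K) (hy1 : y ∈ K)
    (C : Core q (Sop arm q T Ω))
    (hdx : ∀ b : L, ∀ C' : Core q (Sop arm q (T + b • x) Ω), finrank L C'.V1 ≤ finrank L C.V1)
    {D D' : End L C.V1}
    (hD1 : ∀ a, C.res hq (opr q T (Gm arm Ω a) x) = C.S1 hq a * D)
    (hD2 : ∀ a, C.res hq (opr q T (Gm arm Ω a) x) = D * C.S1 hq a)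
    (hD'1 : ∀ a, C.res hq (opr q T (Gm arm Ω a) y) = C.S1 hq a * D')
    (hD'2 : ∀ a, C.res hq (opr q T (Gm arm Ω a) y) = D' * C.S1 hq a)
    (hnil : IsNilpotent (D * D')) (c : Fin 3 → L) :
    IsNilpotent (lc (fun s => opr q x (Gm arm Ω s) y) c) := by
  have hx1 : x ∈ K := by simpa using hx 1
  have nx := nilOn_of_max hq hΩ hK hT hx hTx C hdx hD1 hD2 c
  set A := lc (Sop arm q x Ω) c with hA
  set B := lc (Sop arm q y Ω) c with hB
  set E := lc (fun s => opr q x (Gm arm Ω s) y) c with hE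
  have rel := @krel_mul L V J _ _ _ _ _ arm q hq Ω K hK
  have hEE : E * E = A * B := lc_mul_congr (fun a b => by
    show opr q x (Gm arm Ω b) y * opr q x (Gm arm Ω a) y = _
    rw [Sop, Sop, rel _ _ hy1 hx1]) c
  have hEE' : E * E = B * A := lc_mul_congr (fun a b => by
    show opr q x (Gm arm Ω b) y * opr q x (Gm arm Ω a) y = _
    rw [Sop, Sop, rel _ _ hy1 hx1, hK.swap hq hΩ hy1 hy1, rel _ _ hx1 hy1,
      hK.swap hq hΩ hx1 hy1 b, hK.swap hq hΩ hx1 hy1 a, rel _ _ hx1 hy1]) c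
  have hcAB : Commute A B := by
    show A * B = B * A
    rw [← hEE, ← hEE']
  have hAW : ∀ w ∈ C.W, A w ∈ C.W := lc_mem (mix_map_W hq hΩ hK hT hx1 hx1 C) c
  have hAI : ∀ w ∈ C.I, A w ∈ C.I := lc_mem (mix_map_I hq hΩ hK hT hx1 hx1 C) c
  have hBW : ∀ w ∈ C.W, B w ∈ C.W := lc_mem (mix_map_W hq hΩ hK hT hy1 hy1 C) c
  have hBI : ∀ w ∈ C.I, B w ∈ C.I := lc_mem (mix_map_I hq hΩ hK hT hy1 hy1 C) c
  have hEW : ∀ w ∈ C.W, E w ∈ C.W := lc_mem (mix_map_W hq hΩ hK hT hx1 hy1 C) c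
  have n1 : NilOn E ⊤ C.W := by
    apply NilOn.of_sq
    rw [hEE]
    exact NilOn.mul hcAB (fun _ _ => trivial) nx.1
  have n3 : NilOn E C.I ⊥ := by
    apply NilOn.of_sq
    rw [hEE]
    exact NilOn.mul hcAB hBI nx.2
  -- nilpotent on `W / I`
  have hcomm : ∀ s, D * C.S1 hq s = C.S1 hq s * D := fun s => by rw [← hD2, ← hD1]
  have hcomm' : ∀ s, D' * C.S1 hq s = C.S1 hq s * D' := fun s => by rw [← hD'2, ← hD'1]
  have hres : ∀ b, C.res hq (opr q x (Gm arm Ω b) y) = C.S1 hq b * (D * D') :=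
    res_mix hq hΩ hK hT hx1 hy1 C hD1 hD2 hD'2
  have n2 : NilOn E C.W C.I := by
    obtain ⟨m, hm⟩ := hnil
    have h1 : ∀ k, ∀ w ∈ C.W, C.P hq ((E ^ k) w) =
        ((lc (C.S1 hq) c * (D * D')) ^ k) (C.P hq w) := by
      intro k
      induction k with
      | zero => intro w _; rfl
      | succ k ih =>
        intro w hw
        rw [pow_succ', pow_succ', Module.End.mul_apply, Module.End.mul_apply, ← ih w hw]
        have h2 : (E ^ k) w ∈ C.W := pow_mem hEW k w hw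
        set w' := (E ^ k) w
        rw [hE, lc_apply, map_sum, Module.End.mul_apply, lc_apply]
        refine Finset.sum_congr rfl fun s _ => ?_
        rw [map_smul]
        congr 1
        have h3 := C.P_eq_zero hq (mix_map_perp hq hΩ hK hT hx1 hy1 C s _
          (C.sub_P_mem hq (C.W_le_perp hq h2)))
        rw [map_sub, map_sub, sub_eq_zero] at h3
        rw [h3]
        exact LinearMap.congr_fun (hres s) (C.P hq w')
    have h4 : Commute (lc (C.S1 hq) c) (D * D') := by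
      have h5 : Commute (lc (C.S1 hq) c) D := by
        rw [lc]
        exact Commute.sum_left _ _ _ fun s _ => (show Commute _ _ from (hcomm s).symm).smul_left _
      have h6 : Commute (lc (C.S1 hq) c) D' := by
        rw [lc]
        exact Commute.sum_left _ _ _ fun s _ => (show Commute _ _ from (hcomm' s).symm).smul_left _
      exact h5.mul_right h6
    refine ⟨m, fun w hw => ?_⟩
    have h6 := h1 m w hw
    rw [h4.mul_pow, hm, mul_zero, LinearMap.zero_apply] at h6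
    have h7 : (E ^ m) w ∈ C.W := pow_mem hEW m w hw
    have h8 := C.sub_P_mem_I hq h7
    rwa [h6, Submodule.coe_zero, sub_zero] at h8
  obtain ⟨n1, hn1⟩ := n1
  obtain ⟨n2, hn2⟩ := n2
  obtain ⟨n3, hn3⟩ := n3
  refine ⟨n3 + (n2 + n1), ?_⟩
  ext v
  rw [pow_add, pow_add, Module.End.mul_apply, Module.End.mul_apply]
  have := hn3 _ (hn2 _ (hn1 v trivial))
  rw [(Submodule.mem_bot L).mp this]
  rfl

end gen

section eig

variable {L W : Type*} [Field L] [IsAlgClosed L] [AddCommGroup W] [Module L W]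
  [FiniteDimensional L W]

/-- an endomorphism with at most two eigenvalues -/
theorem nilp_of_two (D : End L W) {a b : L} (h : ∀ μ, D.HasEigenvalue μ → μ = a ∨ μ = b) :
    IsNilpotent ((D - a • (1 : End L W)) * (D - b • (1 : End L W))) := by
  have hc : Commute (D - a • (1 : End L W)) (D - b • (1 : End L W)) := by
    apply Commute.sub_left
    · exact (Commute.refl D).sub_right ((Commute.one_right D).smul_right _)
    · exact ((Commute.one_left _).smul_left _)
  have h1 : ∀ μ, D.HasEigenvalue μ → ∀ v ∈ D.maxGenEigenspace μ,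
      (((D - a • (1 : End L W)) * (D - b • (1 : End L W))) ^ (finrank L W)) v = 0 := by
    intro μ hμ v hv
    rw [Module.End.maxGenEigenspace_eq_genEigenspace_finrank, Module.End.mem_genEigenspace_nat,
      LinearMap.mem_ker] at hv
    rcases h μ hμ with rfl | rfl
    · rw [hc.eq, hc.symm.mul_pow, Module.End.mul_apply, hv, map_zero]
    · rw [hc.mul_pow, Module.End.mul_apply, hv, map_zero]
  refine ⟨finrank L W, ?_⟩
  ext v
  have hv : v ∈ ⨆ μ, D.maxGenEigenspace μ := by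
    rw [Module.End.iSup_maxGenEigenspace_eq_top]; trivial
  rw [LinearMap.zero_apply]
  refine Submodule.iSup_induction (fun μ => D.maxGenEigenspace μ)
    (motive := fun z => (((D - a • (1 : End L W)) * (D - b • (1 : End L W))) ^
      (finrank L W)) z = 0) hv ?_ (map_zero _) ?_
  · intro μ w hw
    by_cases hμ : D.HasEigenvalue μ
    · exact h1 μ hμ w hw
    · have h2 : D.maxGenEigenspace μ = ⊥ := by
        by_contra h3
        apply hμ
        rw [Module.End.maxGenEigenspace_eq_genEigenspace_finrank] at h3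
        exact Module.End.hasEigenvalue_of_hasGenEigenvalue (k := finrank L W) h3
      rw [h2, Submodule.mem_bot] at hw
      rw [hw, map_zero]
  · intro x y hx hy
    rw [map_add, hx, hy, add_zero]

end eig

end Vale.Agent.P182.H922
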