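import Vale.Agent.P182.H922.Hess

/-!
# Connections, the Hessian lemma, and orthogonal splittings
-/

namespace Vale.Agent.P182.H922

open Module

noncomputable section

section hessian

variable {L : Type*} [Field L] {W : Type*} [AddCommGroup W] [Module L W]

/-- A connection on `W` over a map `δ : L → L`. -/
structure Conn (L W : Type*) [Field L] [AddCommGroup W] [Module L W] where
  /-- the action on scalars -/
  δ : L → L
  /-- the action on vectors -/
  nab : W →+ W
  leib : ∀ (a : L) (v : W), nab (a • v) = δ a • v + a • nab v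

/-- the commutator of a connection with a linear map -/
def Conn.br (C : Conn L W) (f : W →ₗ[L] W) : W →ₗ[L] W where
  toFun v := C.nab (f v) - f (C.nab v)
  map_add' x y := by
    simp only [map_add]
    abel
  map_smul' a x := by
    simp only [map_smul, C.leib, map_add, RingHom.id_apply, smul_sub]
    abel

@[simp] theorem Conn.br_apply (C : Conn L W) (f : W →ₗ[L] W) (v : W) :
    C.br f v = C.nab (f v) - f (C.nab v) := rfl

theorem Conn.br_comp (C : Conn L W) (f g : W →ₗ[L] W) :
    C.br (f ∘ₗ g) = C.br f ∘ₗ g + f ∘ₗ C.br g := by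
  ext v
  simp only [Conn.br_apply, LinearMap.comp_apply, LinearMap.add_apply, map_sub]
  abel

/-- the commutator of linear maps -/
def cmt (f g : W →ₗ[L] W) : W →ₗ[L] W := f ∘ₗ g - g ∘ₗ f

variable [FiniteDimensional L W]

/-- **The Hessian lemma.** -/
theorem hessian (C : Conn L W) {S A B : Fin 3 → W →ₗ[L] W} {c : L}
    (hC : ∀ s, C.br (S s) = cmt (A s) (S s) + c • S s) {P : W →ₗ[L] W}
    (hP : ∀ s, P ∘ₗ S s = S s ∘ₗ P) (hB : ∑ s, cmt (B s) (S s) = 0) :
    ∑ s, LinearMap.trace L W (B s ∘ₗ cmt P (cmt (A s) (S s))) = 0 := by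
  have h1 : ∀ s, cmt P (cmt (A s) (S s)) = - cmt (C.br P) (S s) := by
    intro s
    have h2 := congrArg C.br (hP s)
    rw [C.br_comp, C.br_comp, hC s] at h2
    have h3 : P ∘ₗ (cmt (A s) (S s) + c • S s) = P ∘ₗ cmt (A s) (S s) + c • (P ∘ₗ S s) := by
      rw [LinearMap.comp_add, LinearMap.comp_smul]
    have h4 : (cmt (A s) (S s) + c • S s) ∘ₗ P = cmt (A s) (S s) ∘ₗ P + c • (P ∘ₗ S s) := by
      rw [LinearMap.add_comp, LinearMap.smul_comp, hP s]
    rw [h3, h4] at h2
    have h5 : cmt P (cmt (A s) (S s)) = P ∘ₗ cmt (A s) (S s) - cmt (A s) (S s) ∘ₗ P := rfl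
    have h6 : cmt (C.br P) (S s) = C.br P ∘ₗ S s - S s ∘ₗ C.br P := rfl
    rw [h5, h6]
    have h7 : P ∘ₗ cmt (A s) (S s) - cmt (A s) (S s) ∘ₗ P + (C.br P ∘ₗ S s - S s ∘ₗ C.br P) = 0 := by
      have h8 := sub_eq_zero.mpr h2
      rw [← h8]
      abel
    exact eq_neg_of_add_eq_zero_left h7
  have h9 : ∀ s, LinearMap.trace L W (B s ∘ₗ cmt P (cmt (A s) (S s))) =
      LinearMap.trace L W (C.br P ∘ₗ cmt (B s) (S s)) := by
    intro s
    rw [h1 s, cmt, cmt, LinearMap.comp_neg, LinearMap.comp_sub, LinearMap.comp_sub, map_neg,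
      map_sub, map_sub]
    have e1 : LinearMap.trace L W (B s ∘ₗ C.br P ∘ₗ S s) =
        LinearMap.trace L W (C.br P ∘ₗ S s ∘ₗ B s) := by
      rw [LinearMap.trace_comp_comm', LinearMap.comp_assoc]
    have e2 : LinearMap.trace L W (B s ∘ₗ S s ∘ₗ C.br P) =
        LinearMap.trace L W (C.br P ∘ₗ B s ∘ₗ S s) := by
      rw [← LinearMap.comp_assoc, LinearMap.trace_comp_comm']
    rw [e1, e2]
    ring
  rw [Finset.sum_congr rfl fun s _ => h9 s]
  have h10 : ∑ s, LinearMap.trace L W (C.br P ∘ₗ cmt (B s) (S s)) =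
      LinearMap.trace L W (C.br P ∘ₗ ∑ s, cmt (B s) (S s)) := by
    rw [Fin.sum_univ_three, Fin.sum_univ_three, LinearMap.comp_add, LinearMap.comp_add, map_add,
      map_add]
  rw [h10, hB]
  simp

end hessian

section adjoint

variable {L : Type*} [Field L] {W : Type*} [AddCommGroup W] [Module L W] [FiniteDimensional L W]

/-- the adjoint with respect to a nondegenerate form -/
def adj (B : LinearMap.BilinForm L W) (hB : B.Nondegenerate) (f : W →ₗ[L] W) : W →ₗ[L] W :=
  (B.toDual hB).symm.toLinearMap ∘ₗ Module.Dual.transpose f ∘ₗ (B.toDual hB).toLinearMap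

theorem adj_apply (B : LinearMap.BilinForm L W) (hB : B.Nondegenerate) (f : W →ₗ[L] W) (x y : W) :
    B (adj B hB f x) y = B x (f y) := by
  rw [adj, LinearMap.comp_apply, LinearMap.comp_apply, LinearEquiv.coe_coe, LinearEquiv.coe_coe,
    ← LinearMap.BilinForm.toDual_def hB]
  simp [Module.Dual.transpose_apply, LinearMap.BilinForm.toDual_def]

omit [FiniteDimensional L W] in
theorem ext_form {B : LinearMap.BilinForm L W} (hB : B.Nondegenerate) {f g : W →ₗ[L] W}
    (h : ∀ x y, B (f x) y = B (g x) y) : f = g := by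
  ext x
  apply sub_eq_zero.mp
  apply hB.1
  intro y
  rw [map_sub, LinearMap.sub_apply, h, sub_self]

theorem trace_adj (B : LinearMap.BilinForm L W) (hB : B.Nondegenerate) (f : W →ₗ[L] W) :
    LinearMap.trace L W (adj B hB f) = LinearMap.trace L W f := by
  rw [adj, ← LinearMap.comp_assoc, LinearMap.trace_comp_comm', ← LinearMap.comp_assoc]
  have : (B.toDual hB).toLinearMap ∘ₗ (B.toDual hB).symm.toLinearMap = LinearMap.id := by
    ext; simp
  rw [this, LinearMap.id_comp, LinearMap.trace_transpose']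

theorem adj_comp (B : LinearMap.BilinForm L W) (hB : B.Nondegenerate) (f g : W →ₗ[L] W) :
    adj B hB (f ∘ₗ g) = adj B hB g ∘ₗ adj B hB f := by
  refine ext_form hB fun x y => ?_
  rw [adj_apply, LinearMap.comp_apply, LinearMap.comp_apply, adj_apply, adj_apply]

theorem adj_sub (B : LinearMap.BilinForm L W) (hB : B.Nondegenerate) (f g : W →ₗ[L] W) :
    adj B hB (f - g) = adj B hB f - adj B hB g := by
  refine ext_form hB fun x y => ?_
  rw [adj_apply, LinearMap.sub_apply, LinearMap.sub_apply, map_sub, map_sub, LinearMap.sub_apply,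
    adj_apply, adj_apply]

theorem adj_sum (B : LinearMap.BilinForm L W) (hB : B.Nondegenerate) (f : Fin 3 → W →ₗ[L] W) :
    adj B hB (∑ s, f s) = ∑ s, adj B hB (f s) := by
  refine ext_form hB fun x y => ?_
  rw [adj_apply, LinearMap.sum_apply, LinearMap.sum_apply, map_sum, map_sum, LinearMap.sum_apply]
  simp only [adj_apply]

theorem adj_zero (B : LinearMap.BilinForm L W) (hB : B.Nondegenerate) :
    adj B hB 0 = 0 := by
  refine ext_form hB fun x y => ?_
  rw [adj_apply]; simp

theorem adj_self {B : LinearMap.BilinForm L W} (hB : B.Nondegenerate) {f : W →ₗ[L] W}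
    (h : ∀ x y, B (f x) y = B x (f y)) : adj B hB f = f := by
  refine ext_form hB fun x y => ?_
  rw [adj_apply, h]

theorem adj_adj {B : LinearMap.BilinForm L W} (hB : B.Nondegenerate) (hs : ∀ x y, B x y = B y x)
    (f : W →ₗ[L] W) : adj B hB (adj B hB f) = f := by
  refine ext_form hB fun x y => ?_
  rw [adj_apply, hs, adj_apply, hs]

end adjoint

end

end Vale.Agent.P182.H922
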